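import Vale.Agent.P167.H531.Gen2

/-!
# P167, block CONT-LAT: the final comparison for frozen configurations

`D` = domain, `P` = inner domain, `K` = frozen edges, `ω₀` = frozen configuration, `G` (`G'`) = the
frozen open (closed) edges of `D`. `cont_le`: the conditional crossing probability of `P` is at most
the one of `D` up to small errors; `cont_ge`: the converse. The arcs `A3`, `B3` are joined by frozen
open edges.
-/

namespace Vale.Agent.P167.H531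

open Vale.Agent.P167.H558 MeasureTheory Set
open scoped ENNReal

variable {ι V V' : Type*}
variable {St : ι → V → V → Prop} {St' : ι → V' → V' → Prop} {D P K : Finset ι}
  {A1 A3 B1 B3 : Set V} {A2 A4 B2 B4 : Set V'}

/-- The edges of colour `c`. -/
def Oc (c : Bool) (ω : ι → Bool) : Set ι := {i | ω i = c}

theorem Oc_true (ω : ι → Bool) : Oc true ω = Op ω := rfl

theorem Oc_false (ω : ι → Bool) : Oc false ω = (Op ω)ᶜ := by
  ext i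
  simp [Oc, Op]

/-- The class of `A`. -/
def Kl (St : ι → V → V → Prop) (G : Set ι) (A : Set V) : Set V := {x | ∃ a ∈ A, Cn St G a x}

/-- A fresh path of colour `c` of `D` from the site `y` to the class of `B` or to a non trivial class,
which avoids the class of `A`. -/
def Fr (c : Bool) (St : ι → V → V → Prop) (D K : Finset ι) (G : Set ι) (A B : Set V) (y : V)
    (ω : ι → Bool) : Prop :=
  ∃ e, Far St G B e ∧ CnIn St (Oc c ω ∩ (↑D \ ↑K)) (Kl St G A)ᶜ y e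

/-- Such a path from an end of an edge of `Q`. -/
def ArmQ (c : Bool) (St : ι → V → V → Prop) (D K : Finset ι) (G : Set ι) (A B : Set V) (Q : Set ι) :
    Set (ι → Bool) := {ω | ∃ i ∈ Q, ∃ a b, St i a b ∧ Fr c St D K G A B b ω}

/-- Such a path from a site of `Y`. -/
def ArmS (c : Bool) (St : ι → V → V → Prop) (D K : Finset ι) (G : Set ι) (A B Y : Set V) :
    Set (ι → Bool) := {ω | ∃ y ∈ Y, Fr c St D K G A B y ω}

/-- For every site `y` of `B` a set `q y` of fresh edges outside of `P` which together with the frozen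
edges `G` joins `y` to `A`. -/
structure Col (St : ι → V → V → Prop) (D P K : Finset ι) (G : Set ι) (A B : Set V)
    (q : V → Set ι) : Prop where
  sub : ∀ y ∈ B, q y ⊆ (↑D \ ↑K) \ ↑P
  conn : ∀ y ∈ B, ∃ a ∈ A, Cn St (q y ∪ G) a y

theorem kl_compl {G : Set ι} {A : Set V} : (Kl St G A)ᶜ = {x | ¬ ∃ c ∈ A, Cn St G c x} := rfl

theorem kl_empty {G : Set ι} : (Kl St G ∅)ᶜ = univ := by
  ext x
  simp [Kl]

theorem armH_eq {G' : Set ι} {Q : Set ι} :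
    ArmH St' D K G' A2 A4 Q = ArmQ false St' D K G' A2 A4 Q := by
  ext ω
  simp only [ArmH, ArmQ, Fr, kl_compl, Oc_false, mem_ofPred_eq]

theorem cnIn_univ {F : Set ι} {u v : V} : CnIn St F univ u v ↔ Cn St F u v := by
  constructor
  · exact CnIn.cn
  · intro h
    refine ⟨mem_univ _, Relation.ReflTransGen.mono (fun _ _ h => ⟨h, mem_univ _⟩) _ _ h⟩

theorem armZ_eq {G : Set ι} {C Y : Set V} :
    ArmZ St P K G C Y = ArmS true St P K G ∅ C Y := by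
  ext ω
  unfold ArmZ ArmS Fr
  simp only [kl_empty, cnIn_univ, Oc_true, mem_ofPred_eq]

/-- Exchange of the colours. -/
theorem armQ_flp {c : Bool} {G : Set ι} {A B : Set V} {Q : Set ι} :
    flp ⁻¹' (ArmQ c St D K G A B Q) = ArmQ (!c) St D K G A B Q := by
  have h : ∀ ω : ι → Bool, Oc c (flp ω) = Oc (!c) ω := by
    intro ω
    ext i
    simp only [Oc, flp, mem_ofPred_eq]
    cases c <;> cases ω i <;> simp
  ext ω
  simp only [mem_preimage, ArmQ, Fr, mem_ofPred_eq, h]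

theorem armS_flp {c : Bool} {G : Set ι} {A B Y : Set V} :
    flp ⁻¹' (ArmS c St D K G A B Y) = ArmS (!c) St D K G A B Y := by
  have h : ∀ ω : ι → Bool, Oc c (flp ω) = Oc (!c) ω := by
    intro ω
    ext i
    simp only [Oc, flp, mem_ofPred_eq]
    cases c <;> cases ω i <;> simp
  ext ω
  simp only [mem_preimage, ArmS, Fr, mem_ofPred_eq, h]

theorem fr_dep {c : Bool} {G : Set ι} {A B : Set V} {y : V} {ω ω' : ι → Bool}
    (h : ∀ i ∈ D, ω' i = ω i) (hf : Fr c St D K G A B y ω) : Fr c St D K G A B y ω' := by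
  obtain ⟨e, he, hp⟩ := hf
  refine ⟨e, he, hp.mono ?_ subset_rfl⟩
  rintro i ⟨h1, h2⟩
  refine ⟨?_, h2⟩
  show ω' i = c
  rw [h i h2.1]
  exact h1

section prob

variable [Countable ι]

theorem measurableSet_armQ {c : Bool} {G : Set ι} {A B : Set V} {Q : Set ι} :
    MeasurableSet (ArmQ c St D K G A B Q) := by
  refine meas_of_dep (K := D) fun ω ω' h => ?_
  rintro ⟨i, hi, a, b, hs, hf⟩
  exact ⟨i, hi, a, b, hs, fr_dep h hf⟩

theorem measurableSet_armS {c : Bool} {G : Set ι} {A B Y : Set V} :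
    MeasurableSet (ArmS c St D K G A B Y) := by
  refine meas_of_dep (K := D) fun ω ω' h => ?_
  rintro ⟨y, hy, hf⟩
  exact ⟨y, hy, fr_dep h hf⟩

variable (ν : Measure Bool) [IsProbabilityMeasure ν]

theorem Pm_armQ (hν : ν.map not = ν) {c : Bool} {G : Set ι} {A B : Set V} {Q : Set ι} :
    (Pm ν ι) (ArmQ (!c) St D K G A B Q) = (Pm ν ι) (ArmQ c St D K G A B Q) := by
  rw [← armQ_flp]
  conv_rhs => rw [← Pm_flp ν hν]
  rw [Measure.map_apply measurable_flp measurableSet_armQ]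

theorem Pm_armS (hν : ν.map not = ν) {c : Bool} {G : Set ι} {A B Y : Set V} :
    (Pm ν ι) (ArmS (!c) St D K G A B Y) = (Pm ν ι) (ArmS c St D K G A B Y) := by
  rw [← armS_flp]
  conv_rhs => rw [← Pm_flp ν hν]
  rw [Measure.map_apply measurable_flp measurableSet_armS]

variable [DecidableEq ι]

/-- The general form, three arcs. -/
theorem cont_zone2 (hS : IsSt St) (hS' : IsSt St') (hP : IsQuad St St' P B1 B3 B2 B4)
    (hD : IsQuad St St' D A1 A3 A2 A4) (hPD : P ⊆ D) {ω₀ : ι → Bool}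
    (hiso : Iso2 St P (fo D K (Op ω₀)) B1 B3) (hiso' : Iso2 St' P (fo D K (Op ω₀)ᶜ) B2 B4)
    {Z1 Z3 : Set V} {Z2 : Set V'} {q1 q3 : V → Set ι} {q2 : V' → Set ι}
    (h1 : Col St D P K (fo D K (Op ω₀)) A1 (B1 \ Z1) q1)
    (h3 : Col St D P K (fo D K (Op ω₀)) A3 (B3 \ Z3) q3)
    (h2 : Col St' D P K (fo D K (Op ω₀)ᶜ) A2 (B2 \ Z2) q2)
    (d1 : ∀ y ∈ B1 \ Z1, ∀ y' ∈ B2 \ Z2, Disjoint (q1 y) (q2 y'))
    (d3 : ∀ y ∈ B3 \ Z3, ∀ y' ∈ B2 \ Z2, Disjoint (q3 y) (q2 y'))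
    {e1 e3 z1 z3 z2 : ℝ≥0∞}
    (hq1 : ∀ y ∈ B1 \ Z1, (Pm ν ι) (ArmQ false St' D K (fo D K (Op ω₀)ᶜ) A2 A4 (q1 y)) ≤ e1)
    (hq3 : ∀ y ∈ B3 \ Z3, (Pm ν ι) (ArmQ false St' D K (fo D K (Op ω₀)ᶜ) A2 A4 (q3 y)) ≤ e3)
    (hz1 : (Pm ν ι) (ArmS true St P K (fo D K (Op ω₀)) ∅ B3 (B1 ∩ Z1)) ≤ z1)
    (hz3 : (Pm ν ι) (ArmS true St P K (fo D K (Op ω₀)) ∅ B1 (B3 ∩ Z3)) ≤ z3)
    (hz2 : (Pm ν ι) (ArmS false St' D K (fo D K (Op ω₀)ᶜ) A2 A4 (B2 ∩ Z2)) ≤ z2) :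
    (Pm ν ι) {ω | Cr St (Op (glue (↑K) ω₀ ω) ∩ ↑P) B1 B3 ∧
        ¬ Cr St (Op (glue (↑K) ω₀ ω) ∩ ↑D) A1 A3} ≤ e1 + e3 + (z1 + z3) + z2 := by
  classical
  set G := fo D K (Op ω₀) with hG
  set G' := fo D K (Op ω₀)ᶜ with hG'
  have hQD := hD.freeze hS hS' K (Op ω₀)
  have hQP := hP.freeze_sub2 hS hS' hPD (Op ω₀) hiso hiso'
  -- representatives
  let rp : Quotient (frz hS G) → V := fun c => if h : ∃ y ∈ B1, cl hS G y = c then h.choose else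
    (cl_surj c).choose
  have hrp : ∀ c ∈ cl hS G '' B1, rp c ∈ B1 ∧ cl hS G (rp c) = c := by
    intro c hcc
    have h : ∃ y ∈ B1, cl hS G y = c := hcc
    have e : rp c = h.choose := dif_pos h
    rw [e]
    exact h.choose_spec
  let rp3 : Quotient (frz hS G) → V := fun c => if h : ∃ y ∈ B3, cl hS G y = c then h.choose else
    (cl_surj c).choose
  have hrp3 : ∀ c ∈ cl hS G '' B3, rp3 c ∈ B3 ∧ cl hS G (rp3 c) = c := by
    intro c hcc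
    have h : ∃ y ∈ B3, cl hS G y = c := hcc
    have e : rp3 c = h.choose := dif_pos h
    rw [e]
    exact h.choose_spec
  let rp2 : Quotient (frz hS' G') → V' := fun c => if h : ∃ y ∈ B2, cl hS' G' y = c then h.choose
    else (cl_surj c).choose
  have hrp2 : ∀ c ∈ cl hS' G' '' B2, rp2 c ∈ B2 ∧ cl hS' G' (rp2 c) = c := by
    intro c hcc
    have h : ∃ y ∈ B2, cl hS' G' y = c := hcc
    have e : rp2 c = h.choose := dif_pos h
    rw [e]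
    exact h.choose_spec
  have hcoeD : (↑(D \ K) : Set ι) \ ↑(P \ K) = (↑D \ ↑K) \ ↑P := by
    ext i
    simp only [Finset.coe_sdiff, mem_sdiff, Finset.mem_coe]
    tauto
  have hcol : Collar0 (qSt hS G) (qSt hS' G') (D \ K) (P \ K) (cl hS G '' A1) (cl hS G '' A3)
      (cl hS' G' '' A2) (cl hS G '' B1) (cl hS G '' B3) (cl hS' G' '' B2 \ {c | rp2 c ∈ Z2})
      {c | rp c ∈ Z1} {c | rp3 c ∈ Z3}
      (fun c => q1 (rp c)) (fun c => q3 (rp3 c)) (fun c => q2 (rp2 c)) := by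
    refine ⟨Finset.sdiff_subset_sdiff hPD subset_rfl, ?_, ?_, ?_, ?_, ?_, ?_, ?_, ?_⟩
    · intro c hc hcZ
      rw [hcoeD]
      exact h1.sub _ ⟨(hrp c hc).1, hcZ⟩
    · intro c hc hcZ
      rw [hcoeD]
      exact h3.sub _ ⟨(hrp3 c hc).1, hcZ⟩
    · intro c hc
      rw [hcoeD]
      exact h2.sub _ ⟨(hrp2 c hc.1).1, hc.2⟩
    · intro c hc hcZ
      obtain ⟨a, ha, h4⟩ := h1.conn _ ⟨(hrp c hc).1, hcZ⟩
      refine ⟨cl hS G a, ⟨a, ha, rfl⟩, ?_⟩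
      have := (cn_q hS G (q1 (rp c)) a (rp c)).2 h4
      rwa [(hrp c hc).2] at this
    · intro c hc hcZ
      obtain ⟨a, ha, h4⟩ := h3.conn _ ⟨(hrp3 c hc).1, hcZ⟩
      refine ⟨cl hS G a, ⟨a, ha, rfl⟩, ?_⟩
      have := ((cn_q hS G (q3 (rp3 c)) a (rp3 c)).2 h4).symm (isSt_q hS G)
      rwa [(hrp3 c hc).2] at this
    · intro c hc
      obtain ⟨a, ha, h4⟩ := h2.conn _ ⟨(hrp2 c hc.1).1, hc.2⟩
      refine ⟨cl hS' G' a, ⟨a, ha, rfl⟩, ?_⟩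
      have := (cn_q hS' G' (q2 (rp2 c)) a (rp2 c)).2 h4
      rwa [(hrp2 c hc.1).2] at this
    · intro c hc hcZ c' hc'
      exact d1 _ ⟨(hrp c hc).1, hcZ⟩ _ ⟨(hrp2 c' hc'.1).1, hc'.2⟩
    · intro c hc hcZ c' hc'
      exact d3 _ ⟨(hrp3 c hc).1, hcZ⟩ _ ⟨(hrp2 c' hc'.1).1, hc'.2⟩
  have hmain := cont_gen2 ν (Z2 := {c | rp2 c ∈ Z2}) (isSt_q hS' G') hQP hQD hcol
    (e1 := e1) (e3 := e3)
    (fun c hc hcZ => (measure_mono (armD_sub_armH hS')).trans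
      (by rw [armH_eq]; exact hq1 _ ⟨(hrp c hc).1, hcZ⟩))
    (fun c hc hcZ => (measure_mono (armD_sub_armH hS')).trans
      (by rw [armH_eq]; exact hq3 _ ⟨(hrp3 c hc).1, hcZ⟩))
  have hz1' : (Pm ν ι) {ω | Cr (qSt hS G) (Op ω ∩ ↑(P \ K)) (cl hS G '' B1 ∩ {c | rp c ∈ Z1})
      (cl hS G '' B3)} ≤ z1 := by
    refine (measure_mono fun ω hω => ?_).trans hz1
    rw [← armZ_eq]
    refine cr_sub_armZ hS (Y := B1 ∩ Z1) (fun c hcz => ?_) hω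
    exact ⟨rp c, ⟨(hrp c hcz.1).1, hcz.2⟩, (hrp c hcz.1).2⟩
  have hz3' : (Pm ν ι) {ω | Cr (qSt hS G) (Op ω ∩ ↑(P \ K)) (cl hS G '' B1)
      (cl hS G '' B3 ∩ {c | rp3 c ∈ Z3})} ≤ z3 := by
    refine (measure_mono fun ω hω => ?_).trans hz3
    have hω' : Cr (qSt hS G) (Op ω ∩ ↑(P \ K)) (cl hS G '' B3 ∩ {c | rp3 c ∈ Z3})
        (cl hS G '' B1) := by
      obtain ⟨u, hu, v, hv, h⟩ := hω
      exact ⟨v, hv, u, hu, h.symm (isSt_q hS G)⟩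
    rw [← armZ_eq]
    refine cr_sub_armZ hS (Y := B3 ∩ Z3) (fun c hcz => ?_) hω'
    exact ⟨rp3 c, ⟨(hrp3 c hcz.1).1, hcz.2⟩, (hrp3 c hcz.1).2⟩
  have hz2' : (Pm ν ι) {ω | ∃ y ∈ cl hS' G' '' B2 ∩ {c | rp2 c ∈ Z2}, ∃ c ∈ cl hS' G' '' A4,
      CnIn (qSt hS' G') ((Op ω)ᶜ ∩ ↑(D \ K)) (cl hS' G' '' A2)ᶜ y c} ≤ z2 := by
    refine (measure_mono ?_).trans hz2
    rintro ω ⟨y, ⟨hy, hyZ⟩, c, hc, hp⟩
    obtain ⟨hb, hyc⟩ := hrp2 y hy
    rw [← hyc] at hp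
    obtain ⟨e, he, hbe⟩ := lift_honest hS' hc hp
    refine ⟨rp2 y, ⟨hb, hyZ⟩, e, ?_, ?_⟩
    · rcases he with he | ⟨x, hx, he⟩
      · exact Or.inl ((mem_cl_iff hS').1 he)
      · exact Or.inr ⟨x, hx, cl_eq_iff.1 he⟩
    · have hset : {x | cl hS' G' x ∉ cl hS' G' '' A2} = (Kl St' G' A2)ᶜ := by
        ext x
        simp only [mem_ofPred_eq, mem_cl_iff hS', kl_compl]
      rw [hset] at hbe
      refine hbe.mono ?_ subset_rfl
      rw [Oc_false, Finset.coe_sdiff]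
  have ep : ∀ ω : ι → Bool, Cr (qSt hS G) (Op ω ∩ ↑(P \ K)) (cl hS G '' B1) (cl hS G '' B3) ↔
      Cr St (Op (glue (↑K) ω₀ ω) ∩ ↑P) B1 B3 := by
    intro ω
    rw [cr_q, cr_iso3 hS hPD hiso, Op_glue]
  have ed : ∀ ω : ι → Bool, Cr (qSt hS G) (Op ω ∩ ↑(D \ K)) (cl hS G '' A1) (cl hS G '' A3) ↔
      Cr St (Op (glue (↑K) ω₀ ω) ∩ ↑D) A1 A3 := fun ω => (cr_glue hS D K A1 A3 ω₀ ω).symm
  have hset : {ω : ι → Bool | Cr St (Op (glue (↑K) ω₀ ω) ∩ ↑P) B1 B3 ∧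
      ¬ Cr St (Op (glue (↑K) ω₀ ω) ∩ ↑D) A1 A3} =
      {ω | Cr (qSt hS G) (Op ω ∩ ↑(P \ K)) (cl hS G '' B1) (cl hS G '' B3) ∧
      ¬ Cr (qSt hS G) (Op ω ∩ ↑(D \ K)) (cl hS G '' A1) (cl hS G '' A3)} := by
    ext ω
    simp only [mem_ofPred_eq, ep, ed]
  rw [hset]
  refine hmain.trans ?_
  gcongr
  calc (e1 + e3) * _ ≤ (e1 + e3) * 1 := by gcongr; exact prob_le_one
    _ = e1 + e3 := mul_one _

/-- The conditional crossing probability of the inner domain `P` is at most the one of `D` up to a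
small error. -/
theorem cont_le (hS : IsSt St) (hS' : IsSt St') (hP : IsQuad St St' P B1 B3 B2 B4)
    (hD : IsQuad St St' D A1 A3 A2 A4) (hPD : P ⊆ D) {ω₀ : ι → Bool}
    (hiso : Iso2 St P (fo D K (Op ω₀)) B1 B3) (hiso' : Iso2 St' P (fo D K (Op ω₀)ᶜ) B2 B4)
    (h3 : ∀ y ∈ B3, ∃ a ∈ A3, Cn St (fo D K (Op ω₀)) a y)
    {Z1 : Set V} {Z2 : Set V'} {q1 : V → Set ι} {q2 : V' → Set ι}
    (h1 : Col St D P K (fo D K (Op ω₀)) A1 (B1 \ Z1) q1)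
    (h2 : Col St' D P K (fo D K (Op ω₀)ᶜ) A2 (B2 \ Z2) q2)
    (d : ∀ y ∈ B1 \ Z1, ∀ y' ∈ B2 \ Z2, Disjoint (q1 y) (q2 y'))
    {e z1 z2 : ℝ≥0∞}
    (hq : ∀ y ∈ B1 \ Z1, (Pm ν ι) (ArmQ false St' D K (fo D K (Op ω₀)ᶜ) A2 A4 (q1 y)) ≤ e)
    (hz1 : (Pm ν ι) (ArmS true St P K (fo D K (Op ω₀)) ∅ B3 (B1 ∩ Z1)) ≤ z1)
    (hz2 : (Pm ν ι) (ArmS false St' D K (fo D K (Op ω₀)ᶜ) A2 A4 (B2 ∩ Z2)) ≤ z2) :
    cpr ν St P K B1 B3 ω₀ ≤ cpr ν St D K A1 A3 ω₀ + (e + z1 + z2) := by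
  have h := cont_zone2 ν hS hS' hP hD hPD hiso hiso' (Z3 := ∅) (q3 := fun _ => ∅) (e3 := 0)
    (z3 := 0) h1 ⟨fun y _ => empty_subset _, fun y hy => by
      obtain ⟨a, ha, h4⟩ := h3 y hy.1
      exact ⟨a, ha, h4.mono subset_union_right⟩⟩ h2 d (fun _ _ _ _ => disjoint_bot_left) hq
    (fun y _ => by
      have : ArmQ false St' D K (fo D K (Op ω₀)ᶜ) A2 A4 (∅ : Set ι) = ∅ := by
        ext ω
        simp [ArmQ]
      rw [this, measure_empty]) hz1 (by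
      have : ArmS true St P K (fo D K (Op ω₀)) ∅ B1 (B3 ∩ ∅) = ∅ := by
        ext ω
        simp [ArmS]
      rw [this, measure_empty]) hz2
  rw [add_zero, add_zero] at h
  have h5 : {ω : ι → Bool | Cr St (Op (glue (↑K) ω₀ ω) ∩ ↑P) B1 B3} ⊆
      {ω | Cr St (Op (glue (↑K) ω₀ ω) ∩ ↑D) A1 A3} ∪
        {ω | Cr St (Op (glue (↑K) ω₀ ω) ∩ ↑P) B1 B3 ∧
          ¬ Cr St (Op (glue (↑K) ω₀ ω) ∩ ↑D) A1 A3} := by
    intro ω hω
    by_cases h6 : Cr St (Op (glue (↑K) ω₀ ω) ∩ ↑D) A1 A3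
    · exact Or.inl h6
    · exact Or.inr ⟨hω, h6⟩
  refine (measure_mono h5).trans ((measure_union_le _ _).trans ?_)
  unfold cpr
  gcongr

omit [Countable ι] [DecidableEq ι] in
theorem Cr.symm (hS : IsSt St) {F : Set ι} {A B : Set V} (h : Cr St F A B) : Cr St F B A := by
  obtain ⟨u, hu, v, hv, h⟩ := h
  exact ⟨v, hv, u, hu, h.symm hS⟩

omit [Countable ι] [DecidableEq ι] in
theorem Iso2.swap {G : Set ι} {B C : Set V} (h : Iso2 St P G B C) : Iso2 St P G C B := by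
  intro x y hx hy hxy
  rw [union_comm] at hx hy
  rcases h x y hx hy hxy with h1 | h1 | h1
  · exact Or.inl h1
  · exact Or.inr (Or.inr h1)
  · exact Or.inr (Or.inl h1)

/-- The conditional crossing probability of `D` is at most the one of the inner domain `P` up to a
small error. -/
theorem cont_ge (hν : ν.map not = ν) (hS : IsSt St) (hS' : IsSt St')
    (hP : IsQuad St St' P B1 B3 B2 B4)
    (hD : IsQuad St St' D A1 A3 A2 A4) (hPD : P ⊆ D) {ω₀ : ι → Bool}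
    (hiso : Iso2 St P (fo D K (Op ω₀)) B1 B3) (hiso' : Iso2 St' P (fo D K (Op ω₀)ᶜ) B2 B4)
    (h3 : ∀ y ∈ B3, ∃ a ∈ A3, Cn St (fo D K (Op ω₀)) a y)
    {Z2 Z4 : Set V'} {r2 r4 : V' → Set ι}
    (h2 : Col St' D P K (fo D K (Op ω₀)ᶜ) A2 (B2 \ Z2) r2)
    (h4 : Col St' D P K (fo D K (Op ω₀)ᶜ) A4 (B4 \ Z4) r4)
    {e2 e4 z2 z4 : ℝ≥0∞}
    (hq2 : ∀ y ∈ B2 \ Z2, (Pm ν ι) (ArmQ true St D K (fo D K (Op ω₀)) A3 A1 (r2 y)) ≤ e2)
    (hq4 : ∀ y ∈ B4 \ Z4, (Pm ν ι) (ArmQ true St D K (fo D K (Op ω₀)) A3 A1 (r4 y)) ≤ e4)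
    (hz2 : (Pm ν ι) (ArmS false St' P K (fo D K (Op ω₀)ᶜ) ∅ B4 (B2 ∩ Z2)) ≤ z2)
    (hz4 : (Pm ν ι) (ArmS false St' P K (fo D K (Op ω₀)ᶜ) ∅ B2 (B4 ∩ Z4)) ≤ z4) :
    cpr ν St D K A1 A3 ω₀ ≤ cpr ν St P K B1 B3 ω₀ + (e2 + e4 + (z2 + z4)) := by
  have hO : Op (flp ω₀) = (Op ω₀)ᶜ := Op_flp ω₀
  have hO' : (Op (flp ω₀))ᶜ = Op ω₀ := by rw [hO, compl_compl]
  have hP' : IsQuad St' St P B4 B2 B3 B1 := (hP.dual.flip hS' hS)
  have hD' : IsQuad St' St D A4 A2 A3 A1 := (hD.dual.flip hS' hS)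
  have h := cont_zone2 ν hS' hS hP' hD' hPD (ω₀ := flp ω₀)
    (by rw [hO]; exact hiso'.swap) (by rw [hO']; exact hiso.swap)
    (Z1 := Z4) (Z3 := Z2) (Z2 := ∅) (q1 := r4) (q3 := r2) (q2 := fun _ => ∅)
    (e1 := e4) (e3 := e2) (z1 := z4) (z3 := z2) (z2 := 0)
    (by rw [hO]; exact h4) (by rw [hO]; exact h2)
    (by
      rw [hO']
      refine ⟨fun y _ => empty_subset _, fun y hy => ?_⟩
      obtain ⟨a, ha, h4⟩ := h3 y hy.1
      exact ⟨a, ha, h4.mono subset_union_right⟩)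
    (fun _ _ _ _ => disjoint_bot_right) (fun _ _ _ _ => disjoint_bot_right)
    (fun y hy => by
      rw [hO', ← Bool.not_true, Pm_armQ ν hν]
      exact hq4 y hy)
    (fun y hy => by
      rw [hO', ← Bool.not_true, Pm_armQ ν hν]
      exact hq2 y hy)
    (by
      rw [hO, ← Bool.not_false, Pm_armS ν hν]
      exact hz4)
    (by
      rw [hO, ← Bool.not_false, Pm_armS ν hν]
      exact hz2)
    (by
      have : ∀ c : Bool, ArmS c St D K (fo D K (Op (flp ω₀))ᶜ) A3 A1 (B3 ∩ ∅) = ∅ := by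
        intro c
        ext ω
        simp [ArmS]
      rw [this, measure_empty])
  rw [add_zero] at h
  have hfl : ∀ s : Set (ι → Bool), MeasurableSet s → (Pm ν ι) s = (Pm ν ι) (flp ⁻¹' s) := by
    intro s hs
    conv_lhs => rw [← Pm_flp ν hν]
    rw [Measure.map_apply measurable_flp hs]
  have hm1 : MeasurableSet {ω : ι → Bool | Cr St' (Op (glue (↑K) (flp ω₀) ω) ∩ ↑P) B4 B2} :=
    meas_glue_cr P K B4 B2 (flp ω₀)
  have hm2 : MeasurableSet {ω : ι → Bool | Cr St' (Op (glue (↑K) (flp ω₀) ω) ∩ ↑P) B4 B2 ∧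
      ¬ Cr St' (Op (glue (↑K) (flp ω₀) ω) ∩ ↑D) A4 A2} :=
    hm1.inter (meas_glue_cr D K A4 A2 (flp ω₀)).compl
  rw [hfl _ hm2] at h
  have hxor : ∀ (K : Finset ι) (C1 C3 : Set V) (C2 C4 : Set V'), IsQuad St St' K C1 C3 C2 C4 →
      ∀ ω : ι → Bool, Cr St' ((Op ω)ᶜ ∩ ↑K) C4 C2 ↔ ¬ Cr St (Op ω ∩ ↑K) C1 C3 := by
    intro K C1 C3 C2 C4 hK ω
    constructor
    · exact fun h1 h2 => hK.excl _ h2 (h1.symm hS')
    · exact fun h1 => ((hK.dich _).resolve_left h1).symm hS'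
  have e1 : flp ⁻¹' {ω : ι → Bool | Cr St' (Op (glue (↑K) (flp ω₀) ω) ∩ ↑P) B4 B2 ∧
      ¬ Cr St' (Op (glue (↑K) (flp ω₀) ω) ∩ ↑D) A4 A2} =
      {ω | Cr St (Op (glue (↑K) ω₀ ω) ∩ ↑D) A1 A3 ∧
        ¬ Cr St (Op (glue (↑K) ω₀ ω) ∩ ↑P) B1 B3} := by
    ext ω
    simp only [mem_preimage, mem_ofPred_eq]
    rw [glue_flp, Op_flp, hxor P B1 B3 B2 B4 hP, hxor D A1 A3 A2 A4 hD, not_not]
    exact and_comm
  rw [e1] at h
  have h5 : {ω : ι → Bool | Cr St (Op (glue (↑K) ω₀ ω) ∩ ↑D) A1 A3} ⊆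
      {ω | Cr St (Op (glue (↑K) ω₀ ω) ∩ ↑P) B1 B3} ∪
        {ω | Cr St (Op (glue (↑K) ω₀ ω) ∩ ↑D) A1 A3 ∧
          ¬ Cr St (Op (glue (↑K) ω₀ ω) ∩ ↑P) B1 B3} := by
    intro ω hω
    by_cases h6 : Cr St (Op (glue (↑K) ω₀ ω) ∩ ↑P) B1 B3
    · exact Or.inl h6
    · exact Or.inr ⟨hω, h6⟩
  refine (measure_mono h5).trans ((measure_union_le _ _).trans ?_)
  unfold cpr
  gcongr
  refine h.trans (le_of_eq ?_)
  ring

end prob

end Vale.Agent.P167.H531
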