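import Vale.Agent.P167.H531.Sq
import Vale.Agent.P167.H531.Cont
import Vale.Agent.P167.H192.Inter

/-!
# P167, block CONT-LAT: the comparison for the domain of `E6` and a medial polygon

`p` is the polygon of the domain, `q` a polygon of the medial grid which encloses the squares `PE`,
all of whose odd sites are enclosed faces of the domain.
-/

set_option linter.unusedSectionVars false

namespace Vale.Agent.P167.H531

open Vale.Agent.P167 Vale.Agent.P167.E6 Vale.Agent.P167.E2 Vale.Agent.P167.H558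
open Vale.Agent.P145.FB MeasureTheory Set
open Vale.Agent.P167.H192 (rf rf' sq ed IsEdge ed_sq sq_ed ed_inj isEdge_ed even_ro odd_rf
  ro_inj ro_ro' rf_rf' rf'_rf sq_mk ro_dir exists_dir isEdge_edges dq mem_dq)
open scoped ENNReal

variable {n : ℕ} {p : ZMod n → ℤ × ℤ} {S : Finset (ℤ × ℤ)}

/-- An odd site as a dual site of the domain. -/
def dmo (n : ℕ) (o : ℤ × ℤ) : (ℤ × ℤ) ⊕ ZMod n := Sum.inl (rf' o)

/-- The faces of the odd sites of the squares of `P` are enclosed. -/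
def Inn (P S : Finset (ℤ × ℤ)) : Prop := ∀ v ∈ P, ∀ x y, StM 1 v x y → rf' x ∈ S

theorem stM1_iff {v x y w : ℤ × ℤ} {r : Fin 4} (hv : ed v = s(w, w + dir r)) (h : StM 1 v x y) :
    (x = rf (face w r) ∧ y = rf (face w (r - 1))) ∨
      (x = rf (face w (r - 1)) ∧ y = rf (face w r)) := by
  have h1 := stM_faces w r
  rw [← hv, sq_ed] at h1
  exact (isSt_M 1).pair _ _ _ _ _ h1 h

theorem stM1_stQ (hp : IsPolygon p) (hS : Encloses p S) {P : Finset (ℤ × ℤ)} (hin : Inn P S)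
    {v x y : ℤ × ℤ} (hv : v ∈ P) (h : StM 1 v x y) : StQ p S v (dmo n x) (dmo n y) := by
  obtain ⟨w, r, hw⟩ := isEdge_ed v
  have hx := hin v hv x y h
  have hy := hin v hv y x ((isSt_M 1).symm _ _ _ h)
  rcases stM1_iff hw h with ⟨rfl, rfl⟩ | ⟨rfl, rfl⟩
  · rw [rf'_rf] at hx hy
    refine Or.inl ⟨w, r, hw, hx, hy, ?_, ?_⟩ <;> rw [dmo, rf'_rf]
  · rw [rf'_rf] at hx hy
    refine (isSt_F hp hS).symm _ _ _ (Or.inl ⟨w, r, hw, hy, hx, ?_, ?_⟩) <;> rw [dmo, rf'_rf]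

theorem stQ_stM1 (hp : IsPolygon p) (hS : Encloses p S) {P : Finset (ℤ × ℤ)} (hin : Inn P S)
    {v : ℤ × ℤ} {a b : (ℤ × ℤ) ⊕ ZMod n} (hv : v ∈ P) (h : StQ p S v a b) :
    ∃ x y, StM 1 v x y ∧ dmo n x = a ∧ dmo n y = b := by
  have h1 := stQ_pos hp h
  have hpe : ∀ i, ed v ≠ pe p i := by
    intro i hi
    have h2 := stM_faces (p i) (ro p i)
    rw [← pe_eq hp, ← hi, sq_ed] at h2
    have h3 := hin v hv _ _ ((isSt_M 1).symm _ _ _ h2)
    rw [rf'_rf] at h3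
    exact (enc_out hp hS (i := i)).2 h3
  rcases h with ⟨w, r, he, h2, h3, rfl, rfl⟩ | ⟨i, he, -, -⟩ | ⟨i, he, -, -⟩
  · exact ⟨_, _, h1, by show Sum.inl (rf' (rf _)) = _; rw [rf'_rf],
      by show Sum.inl (rf' (rf _)) = _; rw [rf'_rf]⟩
  · exact absurd he (hpe i)
  · exact absurd he (hpe i)

theorem dmap_dmo (hp : IsPolygon p) (hS : Encloses p S) {P : Finset (ℤ × ℤ)} (hin : Inn P S)
    {B2 B4 : Set (ℤ × ℤ)} (h2 : ∀ x ∈ B2, (x.1 + x.2) % 2 = 1)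
    (h4 : ∀ x ∈ B4, (x.1 + x.2) % 2 = 1) : DMap (StM 1) (StQ p S) P (dmo n) B2 B4 where
  fwd v hv x y h := stM1_stQ hp hS hin hv h
  bwd v hv a b h := stQ_stM1 hp hS hin hv h
  inj := by
    have hodd : ∀ x, (x ∈ B2 ∪ B4 ∨ ∃ i ∈ P, ∃ z, StM 1 i x z ∨ StM 1 i z x) →
        (x.1 + x.2) % 2 = 1 := by
      rintro x ((hx | hx) | ⟨i, -, z, hz | hz⟩)
      · exact h2 x hx
      · exact h4 x hx
      · exact hz.2.2.2
      · exact ((isSt_M 1).symm _ _ _ hz).2.2.2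
    intro x y hx hy hxy
    left
    have e := Sum.inl.inj hxy
    rw [← rf_rf' (s := x), ← rf_rf' (s := y), e]
    · rw [Int.not_even_iff]; exact hodd y hy
    · rw [Int.not_even_iff]; exact hodd x hx

/-- **The quad of the medial polygon inside of the domain.** -/
theorem isQuad_pe (hp : IsPolygon p) (hS : Encloses p S) {m : ℕ} {q : ZMod m → ℤ × ℤ}
    {P : Finset (ℤ × ℤ)} (hq : IsPolygon q) (hP : Encloses q P) (hin : Inn P S) {a l : ℕ}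
    (hal : a ≤ l) (hlm : l ≤ m) :
    IsQuad (StM 0) (StQ p S) P (arcM q 0 0 a) (arcM q 0 l l) (dmo n '' arcM q 1 a l)
      (dmo n '' arcM q 1 l m) := by
  refine (isQuad_med hq hP hal le_rfl hlm).map (dmap_dmo hp hS hin ?_ ?_) <;>
  · rintro x ⟨k, -, -, -, h⟩
    exact h

/-- The squares of the quad of the domain are the random squares. -/
theorem DQ_eq {k j : ℕ} : DQ p S k j j = dq p k S := by
  ext v
  rw [mem_DQ, mem_DE, mem_dq]
  refine and_congr_right fun _ => not_congr ?_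
  constructor
  · rintro ⟨i, h | h, he⟩
    · refine ⟨i, h.1, h.2, ?_⟩
      rw [he, pe]
    · omega
  · rintro ⟨i, h1, h2, he⟩
    exact ⟨i, Or.inl ⟨h1, h2⟩, by rw [he, pe]⟩

/-- The quad of the domain. -/
theorem isQuad_dq (hp : IsPolygon p) (hS : Encloses p S) {k j : ℕ} (hjk : j < k) (hkn : k < n) :
    IsQuad (StM 0) (StQ p S) (dq p k S) (H192.ro '' arcV p k (n - 1)) {H192.ro (p j)}
      (arcF0 n j) (arcF n j k) := by
  have h := isQuad_dom hp hS (l := j) (m := j) le_rfl hjk hkn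
  have e : arcV p j j = {p j} := by
    ext v
    constructor
    · rintro ⟨i, h1, h2, rfl⟩
      rw [le_antisymm h2 h1]
      rfl
    · rintro rfl
      exact ⟨j, le_rfl, le_rfl, rfl⟩
  rw [DQ_eq, e, image_singleton] at h
  exact h

/-- The squares of the inner polygon are random squares. -/
theorem pe_sub_dq (hp : IsPolygon p) (hS : Encloses p S) {P : Finset (ℤ × ℤ)} (hin : Inn P S)
    {k : ℕ} : P ⊆ dq p k S := by
  intro v hv
  obtain ⟨w, r, hw⟩ := isEdge_ed v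
  have h1 := stM_faces w r
  rw [← hw, sq_ed] at h1
  have hx := hin v hv _ _ h1
  have hy := hin v hv _ _ ((isSt_M 1).symm _ _ _ h1)
  rw [rf'_rf] at hx hy
  rw [mem_dq]
  constructor
  · rw [hw]
    exact (mem_edges r).2 (Or.inl hx)
  · rintro ⟨i, -, -, he⟩
    have h2 := stM_faces (p i) (ro p i)
    have he' : ed v = pe p (i : ZMod n) := by rw [he, pe]
    rw [← pe_eq hp, ← he', sq_ed] at h2
    have h3 := hin v hv _ _ ((isSt_M 1).symm _ _ _ h2)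
    rw [rf'_rf] at h3
    exact (enc_out hp hS).2 h3

theorem fair_not : (fair : Measure Bool).map not = fair := by
  have hm : Measurable not := measurable_of_finite _
  unfold fair
  rw [Measure.map_add _ _ hm, Measure.map_smul, Measure.map_smul, Measure.map_dirac' hm,
    Measure.map_dirac' hm, Bool.not_true, Bool.not_false, add_comm]

theorem even_cn {F : Set (ℤ × ℤ)} {u v : ℤ × ℤ} (hu : (u.1 + u.2) % 2 = 0)
    (h : Cn (StM 0) F u v) : (v.1 + v.2) % 2 = 0 := by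
  induction h with
  | refl => exact hu
  | tail _ hbc _ =>
    obtain ⟨i, -, hs⟩ := hbc
    exact ((isSt_M 0).symm _ _ _ hs).2.2.2

section final

variable {k j m a l : ℕ} {q : ZMod m → ℤ × ℤ} {PE K : Finset (ℤ × ℤ)} {L : Set (ℤ × ℤ)} {ω₀ : Cfg}

/-- The frozen open squares. -/
def Gop (p : ZMod n → ℤ × ℤ) (k : ℕ) (S K : Finset (ℤ × ℤ)) (ω₀ : Cfg) : Set (ℤ × ℤ) :=
  fo (dq p k S) K (Op ω₀)

/-- The frozen closed squares. -/
def Gcl (p : ZMod n → ℤ × ℤ) (k : ℕ) (S K : Finset (ℤ × ℤ)) (ω₀ : Cfg) : Set (ℤ × ℤ) :=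
  fo (dq p k S) K (Op ω₀)ᶜ

/-- The setting: the polygon `p` of the domain, the medial polygon `q` (marks `q 0` = target, `q a` =
tip, `q l` = foot of the cut), the frozen squares `K` with the configuration `ω₀`. -/
structure Setg (p : ZMod n → ℤ × ℤ) (S : Finset (ℤ × ℤ)) (k j : ℕ) (q : ZMod m → ℤ × ℤ)
    (PE : Finset (ℤ × ℤ)) (a l : ℕ) (K : Finset (ℤ × ℤ)) (ω₀ : Cfg) : Prop where
  hp : IsPolygon p
  hS : Encloses p S
  hjk : j < k
  hkn : k < n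
  hq : IsPolygon q
  hPE : Encloses q PE
  hin : Inn PE S
  hal : a ≤ l
  hlm : l ≤ m
  hy : ((q l).1 + (q l).2) % 2 = 0
  iso : Iso2 (StM 0) PE (Gop p k S K ω₀) (arcM q 0 0 a) {q l}
  iso' : Iso2 (StQ p S) PE (Gcl p k S K ω₀) (dmo n '' arcM q 1 a l) (dmo n '' arcM q 1 l m)
  foot : Cn (StM 0) (Gop p k S K ω₀) (H192.ro (p j)) (q l)

theorem arcM_one (hy : ((q l).1 + (q l).2) % 2 = 0) : arcM q 0 l l = {q l} := by
  ext z
  constructor
  · rintro ⟨i, h1, h2, rfl, -⟩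
    rw [le_antisymm h2 h1]
    rfl
  · rintro rfl
    exact ⟨l, le_rfl, le_rfl, rfl, hy⟩

theorem cpr_L (hy : ((q l).1 + (q l).2) % 2 = 0)
    (hL : ∀ z : ℤ × ℤ, (z.1 + z.2) % 2 = 0 → (z ∈ L ↔ z ∈ arcM q 0 0 a)) :
    cpr fair (StM 0) PE K {q l} L ω₀ = cpr fair (StM 0) PE K (arcM q 0 0 a) {q l} ω₀ := by
  unfold cpr
  congr 1
  ext ω
  constructor
  · rintro ⟨u, hu, v, hv, h⟩
    rw [mem_singleton_iff] at hu
    subst hu
    exact ⟨v, (hL v (even_cn hy h)).1 hv, _, rfl, h.symm (isSt_M 0)⟩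
  · rintro ⟨u, hu, v, hv, h⟩
    rw [mem_singleton_iff] at hv
    subst hv
    have h' := h.symm (isSt_M 0)
    exact ⟨_, rfl, u, (hL u (even_cn hy h')).2 hu, h'⟩

/-- **The first half of `hcmp`** (`CL/LocT`, `geo_i`). -/
theorem hcmp_le (hs : Setg p S k j q PE a l K ω₀)
    (hL : ∀ z : ℤ × ℤ, (z.1 + z.2) % 2 = 0 → (z ∈ L ↔ z ∈ arcM q 0 0 a))
    {Z1 : Set (ℤ × ℤ)} {Z2 : Set ((ℤ × ℤ) ⊕ ZMod n)} {q1 : ℤ × ℤ → Set (ℤ × ℤ)}
    {q2 : (ℤ × ℤ) ⊕ ZMod n → Set (ℤ × ℤ)}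
    (h1 : Col (StM 0) (dq p k S) PE K (Gop p k S K ω₀) (H192.ro '' arcV p k (n - 1))
      (arcM q 0 0 a \ Z1) q1)
    (h2 : Col (StQ p S) (dq p k S) PE K (Gcl p k S K ω₀) (arcF0 n j)
      (dmo n '' arcM q 1 a l \ Z2) q2)
    (d : ∀ y ∈ arcM q 0 0 a \ Z1, ∀ y' ∈ dmo n '' arcM q 1 a l \ Z2, Disjoint (q1 y) (q2 y'))
    {e z1 z2 : ℝ≥0∞}
    (he : ∀ y ∈ arcM q 0 0 a \ Z1, μ (ArmQ false (StQ p S) (dq p k S) K (Gcl p k S K ω₀)
      (arcF0 n j) (arcF n j k) (q1 y)) ≤ e)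
    (hz1 : μ (ArmS true (StM 0) PE K (Gop p k S K ω₀) ∅ {q l} (arcM q 0 0 a ∩ Z1)) ≤ z1)
    (hz2 : μ (ArmS false (StQ p S) (dq p k S) K (Gcl p k S K ω₀) (arcF0 n j) (arcF n j k)
      (dmo n '' arcM q 1 a l ∩ Z2)) ≤ z2) :
    cpr fair (StM 0) PE K {q l} L ω₀ ≤
      cpr fair (StM 0) (dq p k S) K {H192.ro (p j)} (H192.ro '' arcV p k (n - 1)) ω₀ +
        (e + z1 + z2) := by
  have hP := isQuad_pe hs.hp hs.hS hs.hq hs.hPE hs.hin hs.hal hs.hlm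
  rw [arcM_one hs.hy] at hP
  have hD := isQuad_dq hs.hp hs.hS hs.hjk hs.hkn
  have h := cont_le fair (isSt_M 0) (isSt_Q hs.hp hs.hS) hP hD (pe_sub_dq hs.hp hs.hS hs.hin)
    hs.iso hs.iso' (fun y hy => ⟨_, rfl, by rw [mem_singleton_iff.1 hy]; exact hs.foot⟩)
    h1 h2 d he hz1 hz2
  rw [cpr_L hs.hy hL]
  refine h.trans (le_of_eq ?_)
  congr 1
  unfold cpr
  congr 1
  ext ω
  exact ⟨fun h => h.symm (isSt_M 0), fun h => h.symm (isSt_M 0)⟩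

/-- **The second half of `hcmp`**. -/
theorem hcmp_ge (hs : Setg p S k j q PE a l K ω₀)
    (hL : ∀ z : ℤ × ℤ, (z.1 + z.2) % 2 = 0 → (z ∈ L ↔ z ∈ arcM q 0 0 a))
    {Z2 Z4 : Set ((ℤ × ℤ) ⊕ ZMod n)} {r2 r4 : (ℤ × ℤ) ⊕ ZMod n → Set (ℤ × ℤ)}
    (h2 : Col (StQ p S) (dq p k S) PE K (Gcl p k S K ω₀) (arcF0 n j)
      (dmo n '' arcM q 1 a l \ Z2) r2)
    (h4 : Col (StQ p S) (dq p k S) PE K (Gcl p k S K ω₀) (arcF n j k)
      (dmo n '' arcM q 1 l m \ Z4) r4)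
    {e2 e4 z2 z4 : ℝ≥0∞}
    (he2 : ∀ y ∈ dmo n '' arcM q 1 a l \ Z2, μ (ArmQ true (StM 0) (dq p k S) K (Gop p k S K ω₀)
      {H192.ro (p j)} (H192.ro '' arcV p k (n - 1)) (r2 y)) ≤ e2)
    (he4 : ∀ y ∈ dmo n '' arcM q 1 l m \ Z4, μ (ArmQ true (StM 0) (dq p k S) K (Gop p k S K ω₀)
      {H192.ro (p j)} (H192.ro '' arcV p k (n - 1)) (r4 y)) ≤ e4)
    (hz2 : μ (ArmS false (StQ p S) PE K (Gcl p k S K ω₀) ∅ (dmo n '' arcM q 1 l m)
      (dmo n '' arcM q 1 a l ∩ Z2)) ≤ z2)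
    (hz4 : μ (ArmS false (StQ p S) PE K (Gcl p k S K ω₀) ∅ (dmo n '' arcM q 1 a l)
      (dmo n '' arcM q 1 l m ∩ Z4)) ≤ z4) :
    cpr fair (StM 0) (dq p k S) K {H192.ro (p j)} (H192.ro '' arcV p k (n - 1)) ω₀ ≤
      cpr fair (StM 0) PE K {q l} L ω₀ + (e2 + e4 + (z2 + z4)) := by
  have hP := isQuad_pe hs.hp hs.hS hs.hq hs.hPE hs.hin hs.hal hs.hlm
  rw [arcM_one hs.hy] at hP
  have hD := isQuad_dq hs.hp hs.hS hs.hjk hs.hkn
  have h := cont_ge fair fair_not (isSt_M 0) (isSt_Q hs.hp hs.hS) hP hD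
    (pe_sub_dq hs.hp hs.hS hs.hin)
    hs.iso hs.iso' (fun y hy => ⟨_, rfl, by rw [mem_singleton_iff.1 hy]; exact hs.foot⟩)
    h2 h4 he2 he4 hz2 hz4
  rw [cpr_L hs.hy hL]
  refine le_trans (le_of_eq ?_) h
  unfold cpr
  congr 1
  ext ω
  exact ⟨fun h => h.symm (isSt_M 0), fun h => h.symm (isSt_M 0)⟩

end final

end Vale.Agent.P167.H531
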