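import Vale.Agent.P167.CL.Cut
import Vale.Agent.P167.H531.Hcmp
import Vale.Agent.P167.H634.CellDefs
import Vale.Agent.P167.H161.ArmU
import Vale.Agent.P167.H756.Small

/-!
# P167, block CONT-ASM: the inputs of the comparison `hcmp`

One lattice domain, one outcome `A`, one step `j` (`j - 1` edges have been read, the path is
`pl '' Icc 0 j`), `ψ = ψn n`, `W` the driving function, `t = c A j`, so that
`ψ '' loewnerDomain W t = Om δ S \ pl '' Icc 0 j`.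

* `Pos ψ W t ε I z`: the coordinate `Zf` of the point `z` of the domain is within `ε` of a real point
  of `I`, in the chart of the disc.
* `CDat`: the data. `Lab`: labels (L1, L2). `PosF`: free edges (L3). `PosC`: cut and box (L4).
  `PosP`: the polygon `PE` (collar L5, positions L6). `CutL`: the lattice part of the cut.
-/

set_option autoImplicit false

namespace Vale.Agent.P167.H531

open Set Metric MeasureTheory
open Vale.Agent.P167 Vale.Agent.P167.E6 Vale.Agent.P167.E2 Vale.Agent.P167.H558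
open Vale.Agent.P167.H161 (zp Rd)
open Vale.Agent.P167.H634 (RO LO Near cf)
open Vale.Agent.P167.H756 (HConf Drv)
open Vale.Agent.P164 (loewnerDomain Zf)
open Vale.Agent.P153.R2.R1 (mb)

/-- The position of the point `z` is within `ε` of the real points of `I`, in the chart of the
disc. -/
def Pos (ψ : ℂ → ℂ) (W : ℝ → ℝ) (t ε : ℝ) (I : Set ℝ) (z : ℂ) : Prop :=
  ∃ w ∈ loewnerDomain W t, ψ w = z ∧
    ∃ x ∈ I, dist (mb 1 Complex.I (Zf W w t)) (mb 1 Complex.I (x : ℂ)) ≤ ε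

/-- The closed diamond of the square `v` (of the edge `ed v`): the closed square of the plane of `E6`
with the corners `zp δ` of the four sites of `v`. -/
def Dsq (δ : ℝ) (v : ℤ × ℤ) : Set ℂ :=
  {z | |z.re - (zp δ v).re - δ / 2| + |z.im - (zp δ v).im| ≤ δ / 2}

section

variable {n m : ℕ} (δ : ℝ) (p : ZMod n → ℤ × ℤ) (k : ℕ) (S : Finset (ℤ × ℤ))
  (A : Finset (Sym2 (ℤ × ℤ))) (j : ℕ) (ψ : ℂ → ℂ) (W : ℝ → ℝ) (t : ℝ)

/-- The data of one step. -/
structure CDat (T R Rd cd Y : ℝ) : Prop where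
  hδ : 0 < δ
  hp : IsPolygon p
  hS : Encloses p S
  hk : 0 < k
  hkn : k + 1 < n
  hA : A ⊆ edges S
  hj : j - 1 ≤ len p k A
  conf : HConf Rd cd Y ψ
  drv : Drv T R W t
  dom : ψ '' loewnerDomain W t = Om δ S \ pl p k δ A '' Icc 0 j
  dom0 : ψ '' Vale.Agent.P153.R2.L1.HH = Om δ S

/-- **(L1), (L2)** labels. -/
structure Lab (ε : ℝ) : Prop where
  right : ∀ z ∈ RO p k S A δ (j - 1), z ∈ ψ '' loewnerDomain W t → Pos ψ W t ε (Ici 0) z
  left : ∀ z ∈ LO p k A δ (j - 1), z ∈ ψ '' loewnerDomain W t → Pos ψ W t ε (Iic 0) z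

/-- The edge `i` of the polygon was not read. -/
def Unr (i : ℕ) : Prop := ∀ i' < j - 1, ahead (run p k A i') ≠ s(p (i : ZMod n), p ((i : ZMod n) + 1))

/-- **(L3)** the free edges which were not read; `jf` = index of the foot of the cut, `u` = position
of the foot. The free edges at and beyond the foot were not read (`unr`). -/
structure PosF (ε : ℝ) (jf : ℕ) (u : ℝ) : Prop where
  foot : Pos ψ W t ε {u} ((δ : ℂ) * pt (p jf))
  unr : ∀ i : ℕ, jf ≤ i → i < k → Unr p k A j i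
  lo : ∀ i : ℕ, (i < jf ∨ i = n - 1) → Unr p k A j i →
    Pos ψ W t ε (Icc 0 u) (cf δ (face (p i) (ro p i)))
  hi : ∀ i : ℕ, jf ≤ i → i < k → Unr p k A j i → Pos ψ W t ε (Ici u) (cf δ (face (p i) (ro p i)))

/-- **(L4)** the cut `Kc` and the box `Bb` are near `u` and away from the path; the box is deep. -/
structure PosC (Kc Bb : Finset (ℤ × ℤ)) (rc cb u : ℝ) : Prop where
  cut : ∀ v ∈ Kc ∪ Bb, ∀ z ∈ Dsq δ v, z ∈ ψ '' loewnerDomain W t → Pos ψ W t rc {u} z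
  far : ∀ v ∈ Kc ∪ Bb, ∀ z ∈ Dsq δ v, ∀ x ∈ pl p k δ A '' Icc 0 j, 4 * δ ≤ dist z x
  box : ∀ v ∈ Bb, ∀ z ∈ Dsq δ v, ∃ w ∈ loewnerDomain W t, ψ w = z ∧
    ‖mb 1 Complex.I (Zf W w t)‖ ≤ 1 - cb

/-- **(L4')** the points of the closed squares of the cut and of the box which are outside of `PE` or
on its boundary are near the foot. -/
structure PosE (Kc Bb PE : Finset (ℤ × ℤ)) (ε u : ℝ) : Prop where
  edge : ∀ v ∈ Kc ∪ Bb, ∀ z ∈ Dsq δ v, z ∈ ψ '' loewnerDomain W t →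
    (∃ v', v' ∉ PE ∧ z ∈ Dsq δ v') → Pos ψ W t ε {u} z

/-- **(L5), (L6)** the medial polygon `q` which encloses `PE`, marks `q 0` = target, `q a` = tip,
`q l` = foot: margin, collar, positions. -/
structure PosP (q : ZMod m → ℤ × ℤ) (PE : Finset (ℤ × ℤ)) (a l : ℕ) (ε h u : ℝ) : Prop where
  hq : IsPolygon q
  hPE : Encloses q PE
  hal : a ≤ l
  hlm : l ≤ m
  hy : ((q l).1 + (q l).2) % 2 = 0
  mar : ∀ v ∈ PE, ∀ z ∈ Dsq δ v, ball z (8 * δ) ⊆ ψ '' loewnerDomain W t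
  col : ∀ i : ZMod m, ∃ C ⊆ ψ '' loewnerDomain W t, IsPreconnected C ∧ zp δ (q i) ∈ C ∧
    (∀ z ∈ C, ∀ z' ∈ C, dist z z' ≤ h) ∧ (∀ z ∈ C, ∃ v, v ∉ PE ∧ z ∈ Dsq δ v) ∧
    ∃ z ∈ C, Near p k S A δ (j - 1) z
  pos1 : ∀ i : ℕ, i ≤ a → Pos ψ W t ε (Iic 0) (zp δ (q i))
  pos2 : ∀ i : ℕ, a ≤ i → i ≤ l → Pos ψ W t ε (Icc 0 u) (zp δ (q i))
  pos4 : ∀ i : ℕ, l ≤ i → i ≤ m → Pos ψ W t ε (Ici u) (zp δ (q i))
  posl : Pos ψ W t ε {u} (zp δ (q l))

end

/-- **The lattice part of the cut** (independent of the outcome): `jf` = index of the foot,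
`B` = the open box, `Bb` = the frozen box. -/
structure CutL {n m : ℕ} (p : ZMod n → ℤ × ℤ) (k : ℕ) (S : Finset (ℤ × ℤ)) (jf : ℕ)
    (q : ZMod m → ℤ × ℤ) (PE : Finset (ℤ × ℤ)) (a l : ℕ) (Kc Bb B : Finset (ℤ × ℤ)) (κ : Cfg) :
    Prop where
  hjk : jf < k
  ok : CL.CutOk (H192.dq p k S) Kc B κ (H192.ro (p jf)) (CL.wst p k)
  hKD : Kc ⊆ H192.dq p k S
  hBb : Bb ⊆ PE
  hBB : B ⊆ Bb
  dis : Disjoint Kc Bb
  foot : Cn (StM 0) {v | v ∈ Kc ∧ κ v = true} (H192.ro (p jf)) (q l)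
  isoO : ∀ v ∈ Kc, v ∉ PE → κ v = true → ∀ s s', StM 0 v s s' → Touch (StM 0) PE s → s = q l
  isoC : Iso2 (StQ p S) PE {v | v ∈ Kc ∧ κ v = false} (dmo n '' arcM q 1 a l)
    (dmo n '' arcM q 1 l m)

end Vale.Agent.P167.H531
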