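import Vale.Agent.P167.CL.FinDefs
import Vale.Agent.P167.CL.DQ4
import Vale.Agent.P167.CL.PosBox
import Vale.Agent.P167.H446.PosX

/-!
# P167, block CLOSE [ASM]: `PosC` for one step
-/

set_option linter.unusedSectionVars false

open MeasureTheory Filter Topology Set Metric

namespace Vale.Agent.P167.H531

open Vale.Agent.P153.R2.R1 (IsU mb)
open Vale.Agent.P153.R2.L1 (HH)
open Vale.Agent.P164 (loewnerDomain Zf)
open Vale.Agent.P167.E6 Vale.Agent.P167.E2 Vale.Agent.P167.H411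
open Vale.Agent.P167.H161 (zp Rd)
open Vale.Agent.P167.H756
open Vale.Agent.P167.H558
open Vale.Agent.P167.H446 (uX)
open Vale.Agent.P167.H947 (flow flow_gf)
open Vale.Agent.P167.H327 (xf)
open Vale.Agent.P167.CL

/-- The flow near a real point. -/
theorem near_x {T R x : ℝ} (hx0 : 0 < x) (hx : 8 * R ≤ x) (hx2 : 64 * T ≤ x ^ 2) {W : ℝ → ℝ}
    {t : ℝ} (H : Drv T R W t) {z : ℂ} (hz0 : 0 < z.im) (hz : ‖z - x‖ ≤ x / 8) :
    z ∈ loewnerDomain W t ∧
      dist (mb 1 Complex.I (Zf W z t)) (mb 1 Complex.I (uX W t x : ℂ)) ≤ 32 * ‖z - x‖ := by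
  have habs : |x| = x := abs_of_pos hx0
  have hg := trans_FD H (fun z => z) hx0.ne' (by rw [habs]; exact hx) hx2
  rw [habs] at hg
  obtain ⟨-, hlip⟩ := lip_of_bdd (f := fun z => flow W t z - W t) (x := (x : ℂ)) (ρ := x / 4)
    (s := x / 4) (B := 2 * x) (by positivity)
    (by rw [show x / 4 + x / 4 = x / 2 by ring]; exact hg.diff)
    (by rw [show x / 4 + x / 4 = x / 2 by ring]; exact hg.bdd)
  obtain ⟨X₁, h1, h2, h3⟩ := H.real_pt hx0 hx hx2
  have eu : uX W t x = X₁ := by rw [uX, h1, Complex.ofReal_re]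
  have hn : ‖(x : ℂ)‖ = x := by rw [Complex.norm_real, Real.norm_eq_abs, habs]
  have hzn : x / 2 ≤ ‖z‖ := by
    have h4 : ‖(x : ℂ)‖ ≤ ‖z‖ + ‖z - x‖ := by
      have e2 : (x : ℂ) = z - (z - x) := by ring
      calc ‖(x : ℂ)‖ = ‖z - (z - x)‖ := by rw [← e2]
        _ ≤ _ := norm_sub_le _ _
    rw [hn] at h4
    linarith
  have hsq : 16 * T ≤ ‖z‖ ^ 2 := by
    have h5 : (x / 2) ^ 2 ≤ ‖z‖ ^ 2 := by gcongr
    rw [div_pow] at h5
    linarith
  have hdom : z ∈ loewnerDomain W t := H.dom hz0 (by linarith) hsq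
  have e : Zf W z t = flow W t z - W t := by
    rw [flow_gf H.nn H.cont.continuousOn hdom, Vale.Agent.P164.Zf_eq]
  have hZ : ‖Zf W z t - uX W t x‖ ≤ 16 * ‖z - x‖ := by
    have h6 := hlip x (mem_ball_self (by positivity)) z
      (by rw [mem_ball, dist_eq_norm]; linarith)
    rw [e, eu, ← h1]
    refine h6.trans ?_
    have e3 : 2 * x / (x / 4 / 2) = 16 := by field_simp; norm_num
    rw [e3]
  refine ⟨hdom, ?_⟩
  refine (dist_mb_mb (Vale.Agent.P164.Zf_im_pos H.nn hdom).le (by simp)).trans ?_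
  linarith

/-- Squares of the box. -/
theorem fc_hbox {ℓ ρ : ℝ} {N : ℕ} (hℓ : 0 < ℓ) (hN : 0 < N) {v₀ u v : ℤ × ℤ} (hu : u ∈ Uset)
    {Rb : ℤ} (hRb : (Rb : ℝ) ≤ ρ * N / ℓ) (hv : v ∈ BR.hbox (v₀ + u) Rb) :
    ‖fc ℓ N v₀ v‖ ≤ 2 * ρ + 3 * (ℓ / N) := by
  have hNr : (0 : ℝ) < N := by exact_mod_cast hN
  have hc : 0 < ℓ / N := by positivity
  have hR : ℓ / N * Rb ≤ ρ := by
    rw [le_div_iff₀ hℓ] at hRb
    rw [div_mul_eq_mul_div, div_le_iff₀ hNr]
    linarith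
  rw [BR.hbox, Finset.mem_product, Finset.mem_Icc, Finset.mem_Icc] at hv
  obtain ⟨⟨h1, h2⟩, h3, h4⟩ := hv
  have hu2 : u.2 = 0 ∧ 0 ≤ u.1 ∧ u.1 ≤ 1 := by
    rcases hu with rfl | rfl <;> simp
  have e1 : (v₀ + u).1 = v₀.1 + u.1 := rfl
  have e2 : (v₀ + u).2 = v₀.2 + u.2 := rfl
  rw [e1] at h1 h2
  rw [e2] at h3 h4
  have k1 : -((Rb : ℝ)) ≤ v.1 - v₀.1 := by
    have : -Rb ≤ v.1 - v₀.1 := by omega
    exact_mod_cast this
  have k2 : (v.1 : ℝ) - v₀.1 ≤ Rb := by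
    have : v.1 - v₀.1 ≤ Rb := by omega
    exact_mod_cast this
  have k3 : (0 : ℝ) ≤ v.2 - v₀.2 := by
    have : 0 ≤ v.2 - v₀.2 := by omega
    exact_mod_cast this
  have k4 : (v.2 : ℝ) - v₀.2 ≤ Rb - 1 := by
    have : v.2 - v₀.2 ≤ Rb - 1 := by omega
    exact_mod_cast this
  refine (Complex.norm_le_abs_re_add_abs_im _).trans ?_
  unfold CL.fc
  simp only
  rw [abs_mul, abs_mul, abs_of_pos hc]
  have b1 : |(v.1 : ℝ) - v₀.1 + 1 / 2| ≤ Rb + 1 := by
    rw [abs_le]; constructor <;> linarith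
  have b2 : |(v.2 : ℝ) - v₀.2 + 1 / 2| ≤ Rb + 1 := by
    rw [abs_le]; constructor <;> linarith
  have b3 := mul_le_mul_of_nonneg_left b1 hc.le
  have b4 := mul_le_mul_of_nonneg_left b2 hc.le
  linarith

/-- The point above the leg is near `0`. -/
theorem top_near {ℓ ϱ μ d τ₀ : ℝ} {c : CutP} {D : Set ℂ} {w : ℂ} (C : CutC ℓ ϱ μ d τ₀ c D w) :
    ‖w - ((d / 4 : ℝ) : ℂ) * c.dv‖ ≤ d / 32 := by
  have h0 := C.ℓd
  have h1 := C.hμℓ
  have hμ := C.hμ
  have hℓ := C.hℓ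
  have hd := C.d_pos
  refine (Complex.norm_le_abs_re_add_abs_im _).trans ?_
  rcases hh : c.hor with _ | _
  · obtain ⟨a1, a2⟩ := C.posv hh
    have hm := C.hmd
    have hm0 := C.hm
    have hq := C.hq
    have hm1 : (0 : ℝ) ≤ 2 * c.m := by
      have : 0 ≤ 2 * c.m := by omega
      exact_mod_cast this
    rcases hp : c.pos with _ | _
    · have hsg : (c.sg : ℝ) = -1 := by simp [CutP.sg, hp]
      have e1 : (w - ((d / 4 : ℝ) : ℂ) * c.dv).re = w.re := by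
        simp [CutP.dv, CutP.sg, hh, hp]
      have e2 : (w - ((d / 4 : ℝ) : ℂ) * c.dv).im = w.im + d / 4 := by
        simp [CutP.dv, CutP.sg, hh, hp]
      rw [hsg] at a2
      rw [e1, e2]
      rw [abs_le] at a1 a2
      have b1 : |w.re| ≤ ℓ * (2 * c.m + 3) + μ := by
        rw [abs_le]; constructor <;> nlinarith
      have b2 : |w.im + d / 4| ≤ μ := by
        rw [abs_le]; constructor <;> linarith
      linarith
    · have hsg : (c.sg : ℝ) = 1 := by simp [CutP.sg, hp]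
      have e1 : (w - ((d / 4 : ℝ) : ℂ) * c.dv).re = w.re := by
        simp [CutP.dv, CutP.sg, hh, hp]
      have e2 : (w - ((d / 4 : ℝ) : ℂ) * c.dv).im = w.im - d / 4 := by
        simp [CutP.dv, CutP.sg, hh, hp]
      rw [hsg] at a2
      rw [e1, e2]
      rw [abs_le] at a1 a2
      have b1 : |w.re| ≤ ℓ * (2 * c.m + 3) + μ := by
        rw [abs_le]; constructor <;> nlinarith
      have b2 : |w.im - d / 4| ≤ μ := by
        rw [abs_le]; constructor <;> linarith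
      linarith
  · obtain ⟨a1, a2⟩ := C.posh hh
    rcases hp : c.pos with _ | _
    · have hsg : (c.sg : ℝ) = -1 := by simp [CutP.sg, hp]
      have e1 : (w - ((d / 4 : ℝ) : ℂ) * c.dv).re = w.re + d / 4 := by
        simp [CutP.dv, CutP.sg, hh, hp]
      have e2 : (w - ((d / 4 : ℝ) : ℂ) * c.dv).im = w.im := by
        simp [CutP.dv, CutP.sg, hh, hp]
      rw [hsg] at a2
      rw [e1, e2]
      rw [abs_le] at a1 a2
      have b1 : |w.re + d / 4| ≤ μ := by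
        rw [abs_le]; constructor <;> linarith
      have b2 : |w.im| ≤ ℓ / 2 + μ := by
        rw [abs_le]; constructor <;> linarith
      linarith
    · have hsg : (c.sg : ℝ) = 1 := by simp [CutP.sg, hp]
      have e1 : (w - ((d / 4 : ℝ) : ℂ) * c.dv).re = w.re - d / 4 := by
        simp [CutP.dv, CutP.sg, hh, hp]
      have e2 : (w - ((d / 4 : ℝ) : ℂ) * c.dv).im = w.im := by
        simp [CutP.dv, CutP.sg, hh, hp]
      rw [hsg] at a2
      rw [e1, e2]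
      rw [abs_le] at a1 a2
      have b1 : |w.re - d / 4| ≤ μ := by
        rw [abs_le]; constructor <;> linarith
      have b2 : |w.im| ≤ ℓ / 2 + μ := by
        rw [abs_le]; constructor <;> linarith
      linarith

/-- The stage and the lattice part of the cut, from a step. -/
theorem slat_of {n : ℕ} {p : ZMod n → ℤ × ℤ} {k : ℕ} {S : Finset (ℤ × ℤ)}
    {A : Finset (Sym2 (ℤ × ℤ))} {j : ℕ} {δ ℓ : ℝ} {N : ℕ} {ψ : ℂ → ℂ} {W : ℝ → ℝ}
    {t T R X Y Rd cd κ d ϱ τ₀ c₀ ρ εn : ℝ} {v₀ : ℤ × ℤ} {c : CutP} {w : ℂ}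
    {jf L E : ℤ × ℤ → ℕ} {s : Stg} {F₀ : ℤ × ℤ} {ip ia ib : ZMod s.mP} {iE iaE : ZMod s.mE}
    (H : Stp p k S A j δ ℓ N ψ W t T R X Y Rd cd κ d ϱ τ₀ c₀ ρ εn v₀ c w jf L E s F₀ ip ia ib
      iE iaE) (hδ : 160 * δ ≤ ϱ) :
    SLat p k S δ N ψ T R (3 * Rd) cd X κ (2 * ℓ / N) d τ₀ v₀ c w jf L E s := by
  have h := H.stg
  have hN : (16 : ℝ) ≤ N := by exact_mod_cast H.lat.hN
  refine ⟨?_, h.ok, h.cut, ?_, h.box, ?_⟩
  · rw [h.eℓ, h.eρ]; exact H.lat
  · rw [h.eℓ]; exact h.eψ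
  · rw [h.eℓ, h.eρ]
    have h1 := H.hNδ'
    have h2 : ℓ / N ≤ 2 * δ := by
      rw [div_le_iff₀ (by linarith)]
      linarith
    linarith

/-- **[POSC]** the cut is near the foot and far from the path, the box is deep. -/
theorem posC {T R X Y Rd cd rc : ℝ} (hRd : 0 < Rd) (hcd : 0 < cd) (hc : Cst T R X Y)
    (hrc : 0 < rc) :
    ∃ κ₃ > 0, ∀ c₀ ρ : ℝ, 0 < c₀ → 0 < ρ → ∃ cb > 0, ∀ ℓ ϱ : ℝ, 0 < ℓ → 0 < ϱ → ∃ d₀ > 0,
    ∀ {n : ℕ} {p : ZMod n → ℤ × ℤ} {k : ℕ} {S : Finset (ℤ × ℤ)} {A : Finset (Sym2 (ℤ × ℤ))}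
      {j : ℕ} {δ : ℝ} {N : ℕ} {ψ : ℂ → ℂ} {W : ℝ → ℝ} {t κ d τ₀ εn : ℝ} {v₀ : ℤ × ℤ} {c : CutP}
      {w : ℂ} {jf L E : ℤ × ℤ → ℕ} {s : Stg} {F₀ : ℤ × ℤ} {ip ia ib : ZMod s.mP}
      {iE iaE : ZMod s.mE},
    κ ≤ κ₃ → d ≤ κ → 2048 * ρ ≤ d → δ ≤ d₀ →
    Stp p k S A j δ ℓ N ψ W t T R X Y Rd cd κ d ϱ τ₀ c₀ ρ εn v₀ c w jf L E s F₀ ip ia ib iE iaE →
    ∀ u ∈ Uset, ∀ Rb : ℤ, (Rb : ℝ) ≤ ρ * N / ℓ →
      PosC δ p k A j ψ W t (kcs s.KB c N v₀ u (L u) (H192.dq p k S)) (BR.hbox (v₀ + u) Rb) rc cb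
        (uX W t (xf ψ p δ (jf u))) := by
  have hX0 := hc.hX0
  refine ⟨min (rc / 64) (X / 32), by positivity, fun c₀ ρ hc₀ hρ => ?_⟩
  obtain ⟨cb, hcb, hdeep⟩ := deep_dom (T := T) (R := R) (Rd := 3 * Rd) (cd := cd) (Y := Y)
    (η := min c₀ (64 * ρ)) (by positivity) hcd hc.hY0 hc.hY hc.hY2 (by positivity)
  refine ⟨cb, hcb, fun ℓ ϱ hℓ hϱ => ⟨ϱ / 160, by positivity, ?_⟩⟩
  intro n p k S A j δ N ψ W t κ d τ₀ εn v₀ c w jf L E s F₀ ip ia ib iE iaE hκ hdκ hρd hδ H u hu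
    Rb hRb
  have Q := slat_of H (by linarith)
  have hstg := H.stg
  have hδ0 := H.dat.hδ
  have eℓ := hstg.eℓ
  have eW := hstg.eW
  have et := hstg.et
  have hNn := H.lat.hN
  have hN : (16 : ℝ) ≤ N := by exact_mod_cast hNn
  have hcc := H.lat.cut
  have hℓd := hcc.ℓd
  have hd := hcc.d_pos
  have hX := hc.hX
  have hX2 := hc.hX2
  have h16 : 16 * (ℓ / N) ≤ ℓ := by
    rw [← mul_div_assoc, div_le_iff₀ (by linarith)]
    nlinarith
  have hκ1 : κ ≤ rc / 64 := hκ.trans (min_le_left _ _)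
  have hκ2 : κ ≤ X / 32 := hκ.trans (min_le_right _ _)
  have hKB : s.KB = KFn c := by
    ext F
    rw [mem_KFn Q.finKF, ← Q.cut.hKB, Finset.mem_coe]
  -- the squares of the cut and of the box
  have hnear : ∀ v ∈ kcs s.KB c N v₀ u (L u) (H192.dq p k S) ∪ BR.hbox (v₀ + u) Rb,
      ∀ z ∈ Dsq δ v, dist (toF δ ℓ N v₀ z) w ≤ d := by
    intro v hv z hz
    have h1 := dist_Dsq_fc (N := N) (v₀ := v₀) hδ0 hℓ hz
    rcases Finset.mem_union.1 hv with hv | hv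
    · rw [kcs, Finset.mem_inter, hKB] at hv
      have h2 := Q.frz_near hu hv.1
      rw [eℓ] at h2
      have h3 := dist_triangle (toF δ ℓ N v₀ z) (fc ℓ N v₀ v) w
      linarith
    · have h2 := fc_hbox hℓ (by omega) hu hRb hv
      have h3 := dist_triangle (toF δ ℓ N v₀ z) (fc ℓ N v₀ v) w
      have h4 := dist_le_norm_add_norm (fc ℓ N v₀ v) w
      have h5 := hcc.w_le
      linarith
  constructor
  · -- cut
    intro v hv z hz hzD
    obtain ⟨y, hy, rfl⟩ := hzD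
    have hy0 : 0 < y.im := Vale.Agent.P164.im_pos_of_dom H.dat.drv.nn hy
    have h1 := H.lat.nearX y hy0.le (by
      rw [psi_toF]
      have := hnear v hv _ hz
      linarith)
    have h2 := xf_near H.lat H.dat.hp H.dat.hS H.dat.hk H.dat.hkn H.isU hu
    set x : ℝ := xf ψ p δ (jf u) with hx
    rw [abs_le] at h2
    have h3 : ‖y - (x : ℂ)‖ ≤ 2 * κ := by
      have e : y - (x : ℂ) = (y - X) + ((X - x : ℝ) : ℂ) := by push_cast; ring
      rw [e]
      refine (norm_add_le _ _).trans ?_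
      rw [← dist_eq_norm, Complex.norm_real, Real.norm_eq_abs]
      have : |X - x| ≤ κ := by rw [abs_le]; constructor <;> linarith [h2.1, h2.2]
      linarith
    have hx1 : 3 * X / 4 ≤ x := by linarith [h2.1]
    obtain ⟨-, h4⟩ := near_x (T := T) (R := R) (x := x) (by linarith) (by linarith [hc.hR])
      (by nlinarith) H.dat.drv hy0 (by linarith)
    exact ⟨y, hy, rfl, _, rfl, by linarith⟩
  · -- far
    intro v hv z hz x hx
    by_contra hcon
    push Not at hcon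
    have h1 := hnear v hv z hz
    have h2 := Q.far_path hX0 hX hX2 H.dat.hp H.dat.hS (by have := H.dat.hkn; omega) H.dat.hA
      H.hj0 H.dat.hj (by rw [eW, et]; exact H.dat.dom) H.dat.dom0 hx
    rw [eℓ] at h2
    have h3 := toF_le (N := N) (v₀ := v₀) hδ0 hℓ (a := 4) hcon.le
    have h4 := dist_triangle_left (toF δ ℓ N v₀ x) w (toF δ ℓ N v₀ z)
    linarith
  · -- box
    intro v hv z hz
    obtain ⟨C₁, k1, k2, k3, k4⟩ := H.cutn.acc W t H.dat.drv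
    have hD := H.cutn.cc W t H.dat.drv
    set P : ℂ := w - ((d / 4 : ℝ) : ℂ) * c.dv with hP
    have hPn : ‖P‖ ≤ d / 32 := top_near hcc
    have hclr := hD.clr (d / 4) (by positivity) (by linarith)
    have hconf := hstg.ok.conf
    rw [hstg.eY, hstg.eψ] at hconf
    have hb : toF δ ℓ N v₀ z ∈ ball P (d / 16) := by
      rw [mem_ball]
      have h1 := dist_Dsq_fc (N := N) (v₀ := v₀) hδ0 hℓ hz
      have h2 := fc_hbox hℓ (by omega) hu hRb hv
      have h3 := dist_triangle (toF δ ℓ N v₀ z) (fc ℓ N v₀ v) P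
      have h4 := dist_le_norm_add_norm (fc ℓ N v₀ v) P
      linarith
    obtain ⟨y, hy, hyz, hn⟩ := hdeep (Psi δ ℓ N v₀ ψ) hconf W t H.dat.drv (C₁ ∪ ball P (d / 16))
      (IsPreconnected.union P k3 (mem_ball_self (by positivity)) k1
        (convex_ball _ _).isPreconnected) (Or.inl k2) (by
        rintro a (ha | ha)
        · exact (ball_subset_ball (min_le_left _ _)).trans (k4 a ha)
        · refine (ball_subset_ball' ?_).trans hclr
          have h1 : min c₀ (64 * ρ) ≤ 64 * ρ := min_le_right _ _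
          have h2 : dist a P ≤ d / 16 := (mem_ball.1 ha).le
          linarith) _ (Or.inr hb)
    refine ⟨y, hy, ?_, hn⟩
    rw [psi_toF] at hyz
    exact toF_inj hδ0 hℓ (by omega) hyz

end Vale.Agent.P167.H531
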