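import Vale.Agent.P167.H531.PosDefs

/-!
# P167, block CONT-ASM: literal Props of the pieces of the assembly
-/

set_option autoImplicit false

namespace Vale.Agent.P167.H531

open Set Metric MeasureTheory
open Vale.Agent.P167 Vale.Agent.P167.E6 Vale.Agent.P167.E2 Vale.Agent.P167.H558
open Vale.Agent.P167.H161 (zp Rd)
open Vale.Agent.P167.H634 (RO LO Near cf)
open Vale.Agent.P167.H756 (HConf Drv)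
open Vale.Agent.P164 (loewnerDomain Zf)
open Vale.Agent.P153.R2.R1 (mb)

/-- `s` is a corner of the square `v`. -/
def CrnS (v s : ℤ × ℤ) : Prop := (s.1 = v.1 ∨ s.1 = v.1 + 1) ∧ (s.2 = v.2 ∨ s.2 = v.2 + 1)

section

variable {n m : ℕ} (p : ZMod n → ℤ × ℤ) (k : ℕ) (S : Finset (ℤ × ℤ))
  (A : Finset (Sym2 (ℤ × ℤ))) (j : ℕ) (Kc Bb : Finset (ℤ × ℤ))

/-- The frozen squares. -/
noncomputable def KK : Finset (ℤ × ℤ) := Rd p k S A j ∪ Kc ∪ Bb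

/-- The frozen configuration. -/
structure Fz (κ ω₀ : Cfg) : Prop where
  rd : ∀ v ∈ Rd p k S A j, ω₀ v = H192.cfg (A : Set (Sym2 (ℤ × ℤ))) v
  kc : ∀ v ∈ Kc, ω₀ v = κ v

/-- The fresh squares of the domain outside of `PE`. -/
def Fo (PE : Finset (ℤ × ℤ)) : Set (ℤ × ℤ) :=
  {v | v ∈ H192.dq p k S ∧ v ∉ KK p k S A j Kc Bb ∧ v ∉ PE}

/-- The fresh squares outside of `PE` whose closed square meets `C`. -/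
def QC (δ : ℝ) (PE : Finset (ℤ × ℤ)) (C : Set ℂ) : Set (ℤ × ℤ) :=
  {v | v ∈ Fo p k S A j Kc Bb PE ∧ (Dsq δ v ∩ C).Nonempty}

/-- The fresh squares outside of `PE` at the even sites `q t`, `i < t < i'`. -/
def Ow (PE : Finset (ℤ × ℤ)) (q : ZMod m → ℤ × ℤ) (i i' : ℕ) : Set (ℤ × ℤ) :=
  {v | v ∈ Fo p k S A j Kc Bb PE ∧ ∃ t : ℕ, i < t ∧ t < i' ∧
    ((q (t : ZMod m)).1 + (q (t : ZMod m)).2) % 2 = 0 ∧ CrnS v (q (t : ZMod m))}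

end

/-- **[SETG]** (634) -/
def S_setg : Prop := ∀ {n m : ℕ} {p : ZMod n → ℤ × ℤ} {k : ℕ} {S : Finset (ℤ × ℤ)}
  {A : Finset (Sym2 (ℤ × ℤ))} {δ : ℝ} {j : ℕ} {ψ : ℂ → ℂ} {W : ℝ → ℝ} {t T R Rd cd Y : ℝ}
  {q : ZMod m → ℤ × ℤ} {PE Kc Bb B : Finset (ℤ × ℤ)} {a l jf : ℕ} {ε h u rc cb : ℝ} {κ ω₀ : Cfg},
  0 < j → CDat δ p k S A j ψ W t T R Rd cd Y → PosC δ p k A j ψ W t Kc Bb rc cb u →
  PosP δ p k S A j ψ W t q PE a l ε h u → CutL p k S jf q PE a l Kc Bb B κ →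
  Fz p k S A j Kc κ ω₀ → Setg p S k jf q PE a l (KK p k S A j Kc Bb) ω₀

/-- **[RFC]** (634) the explored closed squares hang on the free arc before the foot, the explored
open squares and the visited vertices on the wired arc. -/
def S_rfc : Prop := ∀ {n : ℕ} {p : ZMod n → ℤ × ℤ} {k : ℕ} {S : Finset (ℤ × ℤ)}
  {A : Finset (Sym2 (ℤ × ℤ))} {δ : ℝ} {j : ℕ} {ψ : ℂ → ℂ} {W : ℝ → ℝ} {t T R Rd cd Y : ℝ}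
  {Kc Bb : Finset (ℤ × ℤ)} {jf : ℕ} {κ ω₀ : Cfg},
  0 < j → CDat δ p k S A j ψ W t T R Rd cd Y → jf < k →
  (∀ i : ℕ, jf ≤ i → i < k → Unr p k A j i) → Fz p k S A j Kc κ ω₀ →
  (∀ v ∈ H161.Rd p k S A j, ω₀ v = false → ∀ a b, StQ p S v a b →
    a ∈ Kl (StQ p S) (Gcl p k S (KK p k S A j Kc Bb) ω₀) (arcF0 n jf)) ∧
  (∀ i ≤ j - 1, fc (run p k A i) ∈ S → (Sum.inl (fc (run p k A i)) : (ℤ × ℤ) ⊕ ZMod n) ∈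
    Kl (StQ p S) (Gcl p k S (KK p k S A j Kc Bb) ω₀) (arcF0 n jf)) ∧
  (∀ v ∈ H161.Rd p k S A j, ω₀ v = true → ∀ x y, StM 0 v x y → ∃ i ≤ j - 1,
    x = H192.ro (run p k A i).1) ∧
  (∀ i ≤ j - 1, H192.ro (run p k A i).1 ∈
    Kl (StM 0) (Gop p k S (KK p k S A j Kc Bb) ω₀) (H192.ro '' arcV p k (n - 1)))

/-- **[COL1]** (634) collar on the left side. -/
def S_col1 : Prop := ∀ {n m : ℕ} {p : ZMod n → ℤ × ℤ} {k : ℕ} {S : Finset (ℤ × ℤ)}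
  {A : Finset (Sym2 (ℤ × ℤ))} {δ : ℝ} {j : ℕ} {ψ : ℂ → ℂ} {W : ℝ → ℝ} {t T R Rd cd Y : ℝ}
  {q : ZMod m → ℤ × ℤ} {PE Kc Bb : Finset (ℤ × ℤ)} {κ ω₀ : Cfg} {C : Set ℂ} {y : ℤ × ℤ},
  0 < j → CDat δ p k S A j ψ W t T R Rd cd Y → IsPolygon q → Encloses q PE →
  (∀ v ∈ PE, ∀ z ∈ Dsq δ v, ball z (8 * δ) ⊆ ψ '' loewnerDomain W t) →
  Fz p k S A j Kc κ ω₀ → C ⊆ ψ '' loewnerDomain W t → IsPreconnected C →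
  (∀ z ∈ C, ∃ v, v ∉ PE ∧ z ∈ Dsq δ v) → (∃ z ∈ C, Near p k S A δ (j - 1) z) →
  (∀ v ∈ Kc ∪ Bb, Disjoint (Dsq δ v) C) → Disjoint C (RO p k S A δ (j - 1)) →
  (y.1 + y.2) % 2 = 0 → zp δ y ∈ C →
  ∃ a ∈ H192.ro '' arcV p k (n - 1),
    Cn (StM 0) (QC p k S A j Kc Bb δ PE C ∪ Gop p k S (KK p k S A j Kc Bb) ω₀) a y

/-- **[COL2]** (634) collar on the right side, before the foot. -/
def S_col2 : Prop := ∀ {n m : ℕ} {p : ZMod n → ℤ × ℤ} {k : ℕ} {S : Finset (ℤ × ℤ)}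
  {A : Finset (Sym2 (ℤ × ℤ))} {δ : ℝ} {j : ℕ} {ψ : ℂ → ℂ} {W : ℝ → ℝ} {t T R Rd cd Y : ℝ}
  {q : ZMod m → ℤ × ℤ} {PE Kc Bb : Finset (ℤ × ℤ)} {jf : ℕ} {κ ω₀ : Cfg} {C : Set ℂ} {y : ℤ × ℤ},
  0 < j → CDat δ p k S A j ψ W t T R Rd cd Y → IsPolygon q → Encloses q PE →
  (∀ v ∈ PE, ∀ z ∈ Dsq δ v, ball z (8 * δ) ⊆ ψ '' loewnerDomain W t) → jf < k →
  (∀ i : ℕ, jf ≤ i → i < k → Unr p k A j i) →
  Fz p k S A j Kc κ ω₀ → C ⊆ ψ '' loewnerDomain W t → IsPreconnected C →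
  (∀ z ∈ C, ∃ v, v ∉ PE ∧ z ∈ Dsq δ v) → (∃ z ∈ C, Near p k S A δ (j - 1) z) →
  (∀ v ∈ Kc ∪ Bb, Disjoint (Dsq δ v) C) → Disjoint C (LO p k A δ (j - 1)) →
  (y.1 + y.2) % 2 = 1 → zp δ y ∈ C →
  (∀ i : ℕ, jf ≤ i → i < k → Disjoint (Dsq δ (H192.sq (pe p i))) C) →
  ∃ a ∈ arcF0 n jf,
    Cn (StQ p S) (QC p k S A j Kc Bb δ PE C ∪ Gcl p k S (KK p k S A j Kc Bb) ω₀) a (dmo n y)

/-- **[COL4]** (634) collar on the right side, beyond the foot. The last hypothesis: no corner of a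
square which meets `C` is the centre of a visited face. -/
def S_col4 : Prop := ∀ {n m : ℕ} {p : ZMod n → ℤ × ℤ} {k : ℕ} {S : Finset (ℤ × ℤ)}
  {A : Finset (Sym2 (ℤ × ℤ))} {δ : ℝ} {j : ℕ} {ψ : ℂ → ℂ} {W : ℝ → ℝ} {t T R Rd cd Y : ℝ}
  {q : ZMod m → ℤ × ℤ} {PE Kc Bb : Finset (ℤ × ℤ)} {jf : ℕ} {κ ω₀ : Cfg} {C : Set ℂ} {y : ℤ × ℤ},
  0 < j → CDat δ p k S A j ψ W t T R Rd cd Y → IsPolygon q → Encloses q PE →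
  (∀ v ∈ PE, ∀ z ∈ Dsq δ v, ball z (8 * δ) ⊆ ψ '' loewnerDomain W t) → jf < k →
  Fz p k S A j Kc κ ω₀ → C ⊆ ψ '' loewnerDomain W t → IsPreconnected C →
  (∀ z ∈ C, ∃ v, v ∉ PE ∧ z ∈ Dsq δ v) → (∃ z ∈ C, Near p k S A δ (j - 1) z) →
  (∀ v ∈ Kc ∪ Bb, Disjoint (Dsq δ v) C) → Disjoint C (LO p k A δ (j - 1)) →
  (y.1 + y.2) % 2 = 1 → zp δ y ∈ C →
  (∀ i : ℕ, (i < jf ∨ i = n - 1) → Unr p k A j i → Disjoint (Dsq δ (H192.sq (pe p i))) C) →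
  (∀ i ≤ j - 1, fc (run p k A i) ∈ S → ∀ v, CrnS v (H192.rf (fc (run p k A i))) →
    Disjoint (Dsq δ v) C) →
  ∃ a ∈ arcF n jf k,
    Cn (StQ p S) (QC p k S A j Kc Bb δ PE C ∪ Gcl p k S (KK p k S A j Kc Bb) ω₀) a (dmo n y)

/-- **[WALK]** (542) outer walk between two odd sites `q i`, `q (i + 2 c)` of the polygon; the foot
`q l` is not strictly between them. -/
def S_walk : Prop := ∀ {n m : ℕ} {p : ZMod n → ℤ × ℤ} {k : ℕ} {S : Finset (ℤ × ℤ)}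
  {A : Finset (Sym2 (ℤ × ℤ))} {δ : ℝ} {j : ℕ} {ψ : ℂ → ℂ} {W : ℝ → ℝ} {t T R Rd cd Y : ℝ}
  {q : ZMod m → ℤ × ℤ} {PE Kc Bb B : Finset (ℤ × ℤ)} {a l jf : ℕ} {ε h u rc cb : ℝ} {κ ω₀ : Cfg},
  0 < j → CDat δ p k S A j ψ W t T R Rd cd Y → PosC δ p k A j ψ W t Kc Bb rc cb u →
  PosP δ p k S A j ψ W t q PE a l ε h u → CutL p k S jf q PE a l Kc Bb B κ →
  Fz p k S A j Kc κ ω₀ → ∀ i c : ℕ, ((q (i : ZMod m)).1 + (q (i : ZMod m)).2) % 2 = 1 →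
  i + 2 * c ≤ m → 0 < l → l < m → (i + 2 * c < l ∨ l < i) →
  Cn (StQ p S) (Ow p k S A j Kc Bb PE q i (i + 2 * c) ∪ Gcl p k S (KK p k S A j Kc Bb) ω₀)
    (dmo n (q (i : ZMod m))) (dmo n (q ((i + 2 * c : ℕ) : ZMod m)))

/-- **[LABV]** (450) the visited faces are conformally near the origin. -/
def S_labv : Prop := ∀ {T R Rd cd Y u₀ : ℝ}, 0 ≤ T → 0 ≤ R → 0 < Rd → 0 < cd → 0 < Y → 8 * R ≤ Y →
  64 * T ≤ Y ^ 2 → 0 < u₀ → 64 * R ≤ u₀ → 1024 * T ≤ u₀ ^ 2 → ∃ d₀ > 0,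
  ∀ {n : ℕ} {p : ZMod n → ℤ × ℤ} {k : ℕ} {S : Finset (ℤ × ℤ)} {A : Finset (Sym2 (ℤ × ℤ))} {δ : ℝ}
    {j : ℕ} {ψ : ℂ → ℂ} {W : ℝ → ℝ} {t : ℝ}, 0 < j → δ ≤ d₀ →
    CDat δ p k S A j ψ W t T R Rd cd Y → ∀ i ≤ j - 1, fc (run p k A i) ∈ S →
    ∃ w ∈ loewnerDomain W t, ψ w = cf δ (fc (run p k A i)) ∧ ‖Zf W w t‖ ≤ u₀ / 2

/-- **[LABW]** (450) the points near the visited faces are conformally near the origin. -/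
def S_labw : Prop := ∀ {T R Rd cd Y u₀ : ℝ}, 0 ≤ T → 0 ≤ R → 0 < Rd → 0 < cd → 0 < Y → 8 * R ≤ Y →
  64 * T ≤ Y ^ 2 → 0 < u₀ → 64 * R ≤ u₀ → 1024 * T ≤ u₀ ^ 2 → ∃ d₀ > 0,
  ∀ {n : ℕ} {p : ZMod n → ℤ × ℤ} {k : ℕ} {S : Finset (ℤ × ℤ)} {A : Finset (Sym2 (ℤ × ℤ))} {δ : ℝ}
    {j : ℕ} {ψ : ℂ → ℂ} {W : ℝ → ℝ} {t : ℝ}, 0 < j → δ ≤ d₀ →
    CDat δ p k S A j ψ W t T R Rd cd Y → ∀ i ≤ j - 1, fc (run p k A i) ∈ S →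
    ∀ v, CrnS v (H192.rf (fc (run p k A i))) → ∀ z ∈ Dsq δ v, z ∈ ψ '' loewnerDomain W t →
    ∃ w ∈ loewnerDomain W t, ψ w = z ∧ ‖Zf W w t‖ ≤ u₀ / 2

end Vale.Agent.P167.H531
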