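import Vale.Agent.P167.H531.Arm2
import Vale.Agent.P167.H531.AsmDefs

/-!
# P167, CONT-ASM: segments of fresh squares are inside of the domain minus the path
-/

set_option linter.unusedSectionVars false

namespace Vale.Agent.P167.H531

open Set Vale.Agent.P167 Vale.Agent.P167.E6 Vale.Agent.P167.E2
open Vale.Agent.P167.Fjord
open Vale.Agent.P145.FB (PStep)
open Vale.Agent.P167.H161 (zp zp_re zp_im SegIn zp_ro zp_rf)

variable {n : ℕ} {p : ZMod n → ℤ × ℤ} {S : Finset (ℤ × ℤ)} {k : ℕ} {A : Finset (Sym2 (ℤ × ℤ))}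

/-- The domain minus the path up to the time `j`. -/
def Dt (δ : ℝ) (p : ZMod n → ℤ × ℤ) (k : ℕ) (S : Finset (ℤ × ℤ)) (A : Finset (Sym2 (ℤ × ℤ)))
    (j : ℕ) : Set ℂ := Om δ S \ pl p k δ A '' Icc 0 (j : ℝ)

theorem mem_Dt {δ : ℝ} (hδ : 0 < δ) {j : ℕ} {z : ℂ} : (δ : ℂ) * z ∈ Dt δ p k S A j ↔
    z ∈ O1 (S : Set (ℤ × ℤ)) ∧ ∀ t, 0 ≤ t → t ≤ (j : ℝ) → lin (xv p k A) t ≠ z := by
  have hδ' : (δ : ℂ) ≠ 0 := by exact_mod_cast hδ.ne'
  unfold Dt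
  rw [mem_sdiff, mem_Om hδ]
  refine and_congr_right fun _ => ?_
  constructor
  · intro h t h0 h1 he
    exact h ⟨t, ⟨h0, h1⟩, by rw [pl, he]⟩
  · rintro h ⟨t, ⟨h0, h1⟩, he⟩
    exact h t h0 h1 (mul_left_cancel₀ hδ' he)

theorem exists_unit {δ : ℝ} (hδ : 0 < δ) (z : ℂ) : ∃ w, z = (δ : ℂ) * w := by
  have hδ' : (δ : ℂ) ≠ 0 := by exact_mod_cast hδ.ne'
  exact ⟨z / δ, by field_simp⟩

theorem zp_one (δ : ℝ) (s : ℤ × ℤ) : zp δ s = (δ : ℂ) * zp 1 s := by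
  apply Complex.ext
  · rw [Complex.re_ofReal_mul, zp_re, zp_re]; ring
  · rw [Complex.im_ofReal_mul, zp_im, zp_im]; ring

theorem zp1_sub (s : ℤ × ℤ) : (zp 1 s).re - (zp 1 s).im = s.1 := by
  rw [zp_re, zp_im]; ring

theorem zp1_add (s : ℤ × ℤ) : (zp 1 s).re + (zp 1 s).im = s.2 := by
  rw [zp_re, zp_im]; ring

theorem mem_Dsq {δ : ℝ} (hδ : 0 < δ) {v : ℤ × ℤ} {z : ℂ} :
    (δ : ℂ) * z ∈ Dsq δ v ↔ z ∈ Bq v := by
  have e : ∀ a b : ℝ, |a| + |b| ≤ δ / 2 ↔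
      (a + b ≤ δ / 2 ∧ a - b ≤ δ / 2 ∧ -a + b ≤ δ / 2 ∧ -a - b ≤ δ / 2) := by
    intro a b
    constructor
    · intro h
      have h1 := le_abs_self a
      have h2 := neg_le_abs a
      have h3 := le_abs_self b
      have h4 := neg_le_abs b
      refine ⟨?_, ?_, ?_, ?_⟩ <;> linarith
    · rintro ⟨h1, h2, h3, h4⟩
      rcases abs_cases a with ⟨e1, -⟩ | ⟨e1, -⟩ <;> rcases abs_cases b with ⟨e2, -⟩ | ⟨e2, -⟩ <;>
        rw [e1, e2] <;> linarith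
  show |((δ : ℂ) * z).re - (zp δ v).re - δ / 2| + |((δ : ℂ) * z).im - (zp δ v).im| ≤ δ / 2 ↔ _
  rw [e, Complex.re_ofReal_mul, Complex.im_ofReal_mul, zp_re, zp_im]
  constructor
  · rintro ⟨h1, h2, h3, h4⟩
    refine ⟨?_, ?_, ?_, ?_⟩
    · by_contra hc; push Not at hc; nlinarith
    · by_contra hc; push Not at hc; nlinarith
    · by_contra hc; push Not at hc; nlinarith
    · by_contra hc; push Not at hc; nlinarith
  · rintro ⟨h1, h2, h3, h4⟩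
    refine ⟨?_, ?_, ?_, ?_⟩ <;> nlinarith

theorem crn_bq {v s : ℤ × ℤ} (h : CrnS v s) : zp 1 s ∈ Bq v := by
  obtain ⟨h1, h2⟩ := h
  simp only [Bq, mem_ofPred_eq, zp1_sub, zp1_add]
  rcases h1 with h1 | h1 <;> rcases h2 with h2 | h2 <;> rw [h1, h2] <;> push_cast <;>
    exact ⟨by linarith, by linarith, by linarith, by linarith⟩

theorem crn_Dsq {δ : ℝ} (hδ : 0 < δ) {v s : ℤ × ℤ} (h : CrnS v s) : zp δ s ∈ Dsq δ v := by
  rw [zp_one, mem_Dsq hδ]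
  exact crn_bq h

/-- The edge of the square `v` was not read. -/
def Unread (p : ZMod n → ℤ × ℤ) (k : ℕ) (A : Finset (Sym2 (ℤ × ℤ))) (j : ℕ) (v : ℤ × ℤ) : Prop :=
  ∀ i < j - 1, ahead (run p k A i) ≠ H192.ed v

theorem cast_le {j : ℕ} : (j : ℝ) ≤ ((j - 1 : ℕ) : ℝ) + 1 := by
  have : j ≤ (j - 1) + 1 := by omega
  exact_mod_cast this

/-- The midpoint of a fresh square. -/
theorem mq_Dt {δ : ℝ} (hδ : 0 < δ) {j : ℕ} (hj : j - 1 ≤ len p k A) {v : ℤ × ℤ}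
    (hv : H192.ed v ∈ edges S) (hun : Unread p k A j v) : (δ : ℂ) * mq v ∈ Dt δ p k S A j := by
  rw [mem_Dt hδ]
  exact ⟨mq_O1 hv, fun t h0 h1 => free_open hj hun (mq_bo v) h0 (h1.trans cast_le)⟩

/-- **The closed square of a fresh edge is star shaped in the domain minus the path.** -/
theorem star_Dt {δ : ℝ} (hδ : 0 < δ) {j : ℕ} (hj : j - 1 ≤ len p k A) {v : ℤ × ℤ}
    (hv : H192.ed v ∈ edges S) (hun : Unread p k A j v) {z : ℂ} (hz : z ∈ Dsq δ v)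
    (hzD : z ∈ Dt δ p k S A j) : segment ℝ ((δ : ℂ) * mq v) z ⊆ Dt δ p k S A j := by
  obtain ⟨w, rfl⟩ := exists_unit hδ z
  rw [mem_Dsq hδ] at hz
  rw [mem_Dt hδ] at hzD
  intro y hy
  rw [segment_eq_image'] at hy
  obtain ⟨s, ⟨h0, h1⟩, rfl⟩ := hy
  have e : (fun θ : ℝ => (δ : ℂ) * mq v + θ • ((δ : ℂ) * w - (δ : ℂ) * mq v)) s =
      (δ : ℂ) * (mq v + (s : ℂ) * (w - mq v)) := by
    simp only [Complex.real_smul]
    ring
  rw [e, mem_Dt hδ]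
  refine ⟨star_O1 hv hz hzD.1 h0 h1, fun t g0 g1 => ?_⟩
  rcases h1.eq_or_lt with h | h
  · rw [h, Complex.ofReal_one, one_mul, add_sub_cancel]
    exact hzD.2 t g0 g1
  · refine free_open hj hun ?_ g0 (g1.trans cast_le)
    obtain ⟨k1, k2, k3, k4⟩ := hz
    have f1 : (mq v + (s : ℂ) * (w - mq v)).re =
        ((v.1 : ℝ) + v.2 + 1) / 2 + s * (w.re - ((v.1 : ℝ) + v.2 + 1) / 2) := by
      rw [Complex.add_re, Complex.re_ofReal_mul, Complex.sub_re]; rfl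
    have f2 : (mq v + (s : ℂ) * (w - mq v)).im =
        ((v.2 : ℝ) - v.1) / 2 + s * (w.im - ((v.2 : ℝ) - v.1) / 2) := by
      rw [Complex.add_im, Complex.im_ofReal_mul, Complex.sub_im]; rfl
    have e1 : (mq v + (s : ℂ) * (w - mq v)).re - (mq v + (s : ℂ) * (w - mq v)).im =
        v.1 + 1 / 2 + s * (w.re - w.im - v.1 - 1 / 2) := by rw [f1, f2]; ring
    have e2 : (mq v + (s : ℂ) * (w - mq v)).re + (mq v + (s : ℂ) * (w - mq v)).im =
        v.2 + 1 / 2 + s * (w.re + w.im - v.2 - 1 / 2) := by rw [f1, f2]; ring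
    show _ < _ ∧ _ < _ ∧ _ < _ ∧ _ < _
    rw [e1, e2]
    have aux : ∀ x : ℝ, -(1 / 2) ≤ x → x ≤ 1 / 2 → -(1 / 2) < s * x ∧ s * x < 1 / 2 := by
      intro x hx1 hx2
      constructor <;> nlinarith
    obtain ⟨a1, a2⟩ := aux (w.re - w.im - v.1 - 1 / 2) (by linarith) (by linarith)
    obtain ⟨a3, a4⟩ := aux (w.re + w.im - v.2 - 1 / 2) (by linarith) (by linarith)
    refine ⟨?_, ?_, ?_, ?_⟩ <;> linarith

/-- A site of the domain is not on the path. -/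
theorem site_Dt {δ : ℝ} (hδ : 0 < δ) {j : ℕ} (hj : j - 1 ≤ len p k A) {s : ℤ × ℤ}
    (hs : zp δ s ∈ Om δ S) : zp δ s ∈ Dt δ p k S A j := by
  rw [zp_one] at hs ⊢
  rw [mem_Dt hδ]
  rw [mem_Om hδ] at hs
  exact ⟨hs, fun t h0 h1 => free_site hj (zp1_sub s) (zp1_add s) h0 (h1.trans cast_le)⟩

/-- The centre of an enclosed face. -/
theorem face_Om {δ : ℝ} (hδ : 0 < δ) {s : ℤ × ℤ} (hs : (s.1 + s.2) % 2 = 1)
    (hf : H192.rf' s ∈ S) : zp δ s ∈ Om δ S := by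
  rw [zp_one, mem_Om hδ]
  refine ⟨_, hf, ?_, ?_, ?_, ?_⟩
  all_goals
    simp only [zp_re, zp_im, H192.rf']
    have h1 : 2 * ((s.1 + s.2 - 1) / 2) = s.1 + s.2 - 1 := by omega
    have h2 : 2 * ((s.2 - s.1 - 1) / 2) = s.2 - s.1 - 1 := by omega
    have h1' : (2 : ℝ) * (((s.1 + s.2 - 1) / 2 : ℤ) : ℝ) = s.1 + s.2 - 1 := by exact_mod_cast h1
    have h2' : (2 : ℝ) * (((s.2 - s.1 - 1) / 2 : ℤ) : ℝ) = s.2 - s.1 - 1 := by exact_mod_cast h2
    linarith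

/-- A face whose centre is in `Om` is enclosed. -/
theorem Om_face {δ : ℝ} (hδ : 0 < δ) {s : ℤ × ℤ} (hs : (s.1 + s.2) % 2 = 1)
    (hf : zp δ s ∈ Om δ S) : H192.rf' s ∈ S := by
  rw [zp_one, mem_Om hδ] at hf
  obtain ⟨f, hfS, g1, g2, g3, g4⟩ := hf
  simp only [zp_re, zp_im] at g1 g2 g3 g4
  have h1 : 2 * ((s.1 + s.2 - 1) / 2) = s.1 + s.2 - 1 := by omega
  have h2 : 2 * ((s.2 - s.1 - 1) / 2) = s.2 - s.1 - 1 := by omega
  have e : H192.rf' s = f := by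
    have a1 : s.1 + s.2 < 2 * f.1 + 3 := by
      have : ((s.1 + s.2 : ℤ) : ℝ) < ((2 * f.1 + 3 : ℤ) : ℝ) := by push_cast; linarith
      exact_mod_cast this
    have a2 : 2 * f.1 - 1 < s.1 + s.2 := by
      have : ((2 * f.1 - 1 : ℤ) : ℝ) < ((s.1 + s.2 : ℤ) : ℝ) := by push_cast; linarith
      exact_mod_cast this
    have a3 : s.2 - s.1 < 2 * f.2 + 3 := by
      have : ((s.2 - s.1 : ℤ) : ℝ) < ((2 * f.2 + 3 : ℤ) : ℝ) := by push_cast; linarith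
      exact_mod_cast this
    have a4 : 2 * f.2 - 1 < s.2 - s.1 := by
      have : ((2 * f.2 - 1 : ℤ) : ℝ) < ((s.2 - s.1 : ℤ) : ℝ) := by push_cast; linarith
      exact_mod_cast this
    exact Prod.ext (by simp only [H192.rf']; omega) (by simp only [H192.rf']; omega)
  rw [e]
  exact hfS

/-- The two ends of the edge of a square. -/
theorem even_crn {v s : ℤ × ℤ} (h : CrnS v s) (hs : (s.1 + s.2) % 2 = 0) :
    ∃ u r, s = H192.ro u ∧ H192.ed v = s(u, u + dir r) := by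
  obtain ⟨h1, h2⟩ := h
  have key : ∀ r : Fin 4, v = face s r → ∃ u r, s = H192.ro u ∧ H192.ed v = s(u, u + dir r) := by
    intro r hr
    refine ⟨H192.ro' s, r, (H192.ro_ro' (by rw [Int.even_iff]; exact hs)).symm, ?_⟩
    rw [← H192.ed_sq ⟨_, _, rfl⟩, sq_dir, H192.ro_ro' (by rw [Int.even_iff]; exact hs), ← hr]
  rcases h1 with h1 | h1 <;> rcases h2 with h2 | h2
  · exact key 0 (by rw [face0]; exact Prod.ext h1.symm h2.symm)
  · exact key 3 (by rw [face3]; exact Prod.ext (by simp only; omega) (by simp only; omega))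
  · exact key 1 (by rw [face1]; exact Prod.ext (by simp only; omega) (by simp only; omega))
  · exact key 2 (by rw [face2]; exact Prod.ext (by simp only; omega) (by simp only; omega))

/-- The ends of the edges are in the domain. -/
theorem even_Om {δ : ℝ} (hδ : 0 < δ) {v s : ℤ × ℤ} (h : CrnS v s) (hs : (s.1 + s.2) % 2 = 0)
    (hv : H192.ed v ∈ edges S) : zp δ s ∈ Om δ S := by
  obtain ⟨u, r, rfl, h2⟩ := even_crn h hs
  rw [h2] at hv
  rw [zp_ro]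
  have h3 := mem_region_edge (S := S) hδ.le (v := u) r hv le_rfl zero_le_one
  have h4 := mem_Om_of hδ (u := 0) h3 (by simp) (by simp)
  simpa [epn] using h4

theorem pstep_crn {F : Set (ℤ × ℤ)} {s t : ℤ × ℤ} (h : PStep F s t) :
    ∃ v ∈ F, CrnS v s ∧ CrnS v t ∧ zp 1 s + zp 1 t = 2 * mq v := by
  obtain ⟨h1, h2, h3⟩ := h
  refine ⟨_, h3, ?_, ?_, ?_⟩
  · simp only [CrnS]; omega
  · simp only [CrnS]; omega
  · have e1 : (2 * min s.1 t.1 + 1 : ℤ) = s.1 + t.1 := by omega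
    have e2 : (2 * min s.2 t.2 + 1 : ℤ) = s.2 + t.2 := by omega
    have e1' : (2 * ((min s.1 t.1 : ℤ) : ℝ) + 1) = s.1 + t.1 := by exact_mod_cast e1
    have e2' : (2 * ((min s.2 t.2 : ℤ) : ℝ) + 1) = s.2 + t.2 := by exact_mod_cast e2
    apply Complex.ext
    · rw [Complex.add_re, zp_re, zp_re]
      simp only [mq, Complex.mul_re, Complex.re_ofNat, Complex.im_ofNat, zero_mul, sub_zero]
      linarith
    · rw [Complex.add_im, zp_im, zp_im]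
      simp only [mq, Complex.mul_im, Complex.re_ofNat, Complex.im_ofNat, zero_mul, add_zero]
      linarith

/-- A diagonal of a fresh square. -/
theorem seg_diag {δ : ℝ} (hδ : 0 < δ) {j : ℕ} (hj : j - 1 ≤ len p k A) {v : ℤ × ℤ}
    (hv : H192.ed v ∈ edges S) (hun : Unread p k A j v) {s t : ℤ × ℤ} (hs : CrnS v s)
    (ht : CrnS v t) (hst : zp 1 s + zp 1 t = 2 * mq v) (h1 : zp δ s ∈ Om δ S)
    (h2 : zp δ t ∈ Om δ S) : segment ℝ (zp δ s) (zp δ t) ⊆ Dt δ p k S A j := by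
  have k1 := star_Dt hδ hj hv hun (crn_Dsq hδ hs) (site_Dt hδ hj h1)
  have k2 := star_Dt hδ hj hv hun (crn_Dsq hδ ht) (site_Dt hδ hj h2)
  intro y hy
  rw [segment_eq_image'] at hy
  obtain ⟨θ, ⟨h0, h1⟩, rfl⟩ := hy
  have em : (δ : ℂ) * mq v = (zp δ s + zp δ t) / 2 := by
    rw [zp_one δ s, zp_one δ t, ← mul_add, hst]
    ring
  rcases le_total θ (1 / 2) with h | h
  · apply k1
    rw [segment_symm, segment_eq_image', em]
    refine ⟨2 * θ, ⟨by linarith, by linarith⟩, ?_⟩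
    simp only [Complex.real_smul]
    push_cast
    ring
  · apply k2
    rw [segment_eq_image', em]
    refine ⟨2 * θ - 1, ⟨by linarith, by linarith⟩, ?_⟩
    simp only [Complex.real_smul]
    push_cast
    ring

/-- Fresh squares. -/
def FrS (p : ZMod n → ℤ × ℤ) (k : ℕ) (S : Finset (ℤ × ℤ)) (A : Finset (Sym2 (ℤ × ℤ))) (j : ℕ) :
    Set (ℤ × ℤ) := {v | H192.ed v ∈ edges S ∧ Unread p k A j v}

/-- Fresh squares with both faces enclosed. -/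
def FrI (p : ZMod n → ℤ × ℤ) (k : ℕ) (S : Finset (ℤ × ℤ)) (A : Finset (Sym2 (ℤ × ℤ))) (j : ℕ) :
    Set (ℤ × ℤ) :=
  {v | v ∈ FrS p k S A j ∧ ∀ s, CrnS v s → (s.1 + s.2) % 2 = 1 → H192.rf' s ∈ S}

theorem segIn0 {δ : ℝ} (hδ : 0 < δ) {j : ℕ} (hj : j - 1 ≤ len p k A) :
    SegIn δ (Dt δ p k S A j) 0 (FrS p k S A j) := by
  intro s t hs hst
  obtain ⟨v, hv, h1, h2, h3⟩ := pstep_crn hst
  obtain ⟨a1, a2, -⟩ := hst
  exact seg_diag hδ hj hv.1 hv.2 h1 h2 h3 (even_Om hδ h1 hs hv.1)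
    (even_Om hδ h2 (by omega) hv.1)

theorem segIn1 {δ : ℝ} (hδ : 0 < δ) {j : ℕ} (hj : j - 1 ≤ len p k A) :
    SegIn δ (Dt δ p k S A j) 1 (FrI p k S A j) := by
  intro s t hs hst
  obtain ⟨v, hv, h1, h2, h3⟩ := pstep_crn hst
  obtain ⟨a1, a2, -⟩ := hst
  exact seg_diag hδ hj hv.1.1 hv.1.2 h1 h2 h3 (face_Om hδ hs (hv.2 s h1 hs))
    (face_Om hδ (by omega) (hv.2 t h2 (by omega)))

end Vale.Agent.P167.H531
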