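import Vale.Agent.P167.H531.AsmDefs

/-!
# P167, block CONT-ASM: the final statement (literal)

Order of the constants: `T R Rd cd Y u₀ U`, then `rc₀` (accuracy of the cut), then `cb` (depth of the
box) and `e`, then the accuracy `ε`, the size `h` of the collar and the mesh `d₀`.
-/

set_option autoImplicit false

namespace Vale.Agent.P167.H531

open Set Metric MeasureTheory
open Vale.Agent.P167 Vale.Agent.P167.E6 Vale.Agent.P167.E2 Vale.Agent.P167.H558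

/-- **[HCMP]** the hypothesis `hcmp` of `CL.geo_i'`. -/
def S_hcmp : Prop := ∀ {T R Rd cd Y u₀ U : ℝ}, 0 ≤ T → 0 ≤ R → 0 < Rd → 0 < cd → 0 < Y →
  8 * R ≤ Y → 64 * T ≤ Y ^ 2 → 0 < u₀ → u₀ ≤ U → 64 * R ≤ u₀ → 1024 * T ≤ u₀ ^ 2 →
  ∃ rc₀ > 0, ∀ cb > 0, ∀ e > 0, ∃ ε > 0, ∃ h > 0, ∃ d₀ > 0,
  ∀ {n m : ℕ} {δ : ℝ} {p : ZMod n → ℤ × ℤ} {k : ℕ} {S : Finset (ℤ × ℤ)}
    {A : Finset (Sym2 (ℤ × ℤ))} {j : ℕ} {ψ : ℂ → ℂ} {W : ℝ → ℝ} {t : ℝ}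
    {q : ZMod m → ℤ × ℤ} {PE Kc Bb B : Finset (ℤ × ℤ)} {a l jf : ℕ} {u rc : ℝ} {κ : Cfg}
    {L : Set (ℤ × ℤ)},
    0 < j → δ ≤ d₀ → rc ≤ rc₀ → u₀ ≤ u → u ≤ U →
    CDat δ p k S A j ψ W t T R Rd cd Y → Lab δ p k S A j ψ W t ε → PosF δ p k A j ψ W t ε jf u →
    PosC δ p k A j ψ W t Kc Bb rc cb u → PosE δ ψ W t Kc Bb PE ε u →
    PosP δ p k S A j ψ W t q PE a l ε h u → CutL p k S jf q PE a l Kc Bb B κ →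
    (∀ z : ℤ × ℤ, (z.1 + z.2) % 2 = 0 → (z ∈ L ↔ z ∈ arcM q 0 0 a)) →
    ∀ ω₀ : Cfg, (∀ v ∈ H161.Rd p k S A j, ω₀ v = H192.cfg (A : Set (Sym2 (ℤ × ℤ))) v) →
      (∀ v ∈ Kc, ω₀ v = κ v) → (∀ v ∈ B, ω₀ v = true) →
      cpr fair (StM 0) (H192.dq p k S) (H161.Rd p k S A j ∪ Kc ∪ Bb) {H192.ro (p (jf : ZMod n))}
          (CL.wst p k) ω₀ ≤
        cpr fair (StM 0) PE (H161.Rd p k S A j ∪ Kc ∪ Bb) {q (l : ZMod m)} L ω₀ +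
          ENNReal.ofReal e ∧
      cpr fair (StM 0) PE (H161.Rd p k S A j ∪ Kc ∪ Bb) {q (l : ZMod m)} L ω₀ ≤
        cpr fair (StM 0) (H192.dq p k S) (H161.Rd p k S A j ∪ Kc ∪ Bb)
          {H192.ro (p (jf : ZMod n))} (CL.wst p k) ω₀ + ENNReal.ofReal e

end Vale.Agent.P167.H531
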