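import Vale.Agent.P167.H531.Asm5
import Vale.Agent.P167.H531.HcmpDef
import Vale.Agent.P167.H450.Labw

/-!
# P167, CONT-ASM: **the comparison `hcmp`** (`S_hcmp`)
-/

set_option linter.unusedSectionVars false

namespace Vale.Agent.P167.H531

open Set Metric MeasureTheory Vale.Agent.P167 Vale.Agent.P167.E6 Vale.Agent.P167.E2
open Vale.Agent.P167.H558
open Vale.Agent.P167.H161 (zp Cin)
open Vale.Agent.P167.H756 (HConf Drv)
open Vale.Agent.P164 (loewnerDomain Zf)
open Vale.Agent.P153.R2.R1 (mb)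
open scoped ENNReal

variable {n m : ℕ} {δ : ℝ} {p : ZMod n → ℤ × ℤ} {k : ℕ} {S : Finset (ℤ × ℤ)}
    {A : Finset (Sym2 (ℤ × ℤ))} {j : ℕ} {ψ : ℂ → ℂ} {W : ℝ → ℝ} {t T R Rd cd Y : ℝ}
    {q : ZMod m → ℤ × ℤ} {PE Kc Bb B : Finset (ℤ × ℤ)} {a l jf : ℕ} {ε h u rc cb : ℝ} {κ ω₀ : Cfg}
    {u₀ U c : ℝ}

/-- The classes. -/
theorem Ctx.cls (X : Ctx δ p k S A j ψ W t T R Rd cd Y q PE Kc Bb B a l jf ε h u rc cb κ ω₀ u₀ U c)
    (hB : ∀ v ∈ B, ω₀ v = true) : Cls p k S A j jf Kc Bb ω₀ := by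
  obtain ⟨h1, -, h3, -⟩ := H634.s_rfc (Bb := Bb) X.j0 X.dat X.cl.hjk X.pf.unr X.fz
  refine ⟨h1, h3, fun v hvK hvD hω x y hs => ?_⟩
  rw [X.fz.kc v hvK] at hω
  have h4 := X.cl.ok.cls v hvD hvK hω x y hs
  refine ⟨_, rfl, h4.mono ?_⟩
  rintro i (⟨g1, g2, g3⟩ | ⟨g2, g3⟩)
  · have g3' : i ∈ Kc := Finset.mem_coe.1 g3
    refine ⟨?_, ?_, g2⟩
    · show ω₀ i = true
      rw [X.fz.kc i g3']
      exact g1
    · rw [Finset.mem_coe, KK, Finset.mem_union, Finset.mem_union]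
      exact Or.inl (Or.inr g3')
  · have g3' : i ∈ B := Finset.mem_coe.1 g3
    refine ⟨hB i g3', ?_, g2⟩
    rw [Finset.mem_coe, KK, Finset.mem_union]
    exact Or.inr (X.cl.hBB g3')

/-- **The comparison of the crossing probabilities.** -/
theorem hcmp : S_hcmp := by
  intro T R Rd cd Y u₀ U hT hR hRd hcd hY0 hY hY2 hu₀ hU h64 h1024
  obtain ⟨c, hgeo⟩ := exists_geo1 hu₀ hU
  have hc := hgeo.pos
  refine ⟨c / 4, by positivity, ?_⟩
  intro cb hcb e he
  set e' : ℝ := e / 4 with he'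
  have he'0 : 0 < e' := by positivity
  obtain ⟨r₀, d₁, hr₀, hd₁, hzin⟩ := H450.zin (T := T) (R := R) hRd hcd hY0 hY hY2 hc he'0
  obtain ⟨a₁, ha₁, ha₁c, d₂, hd₂, hrad1⟩ := exists_rad (T := T) (R := R) hRd hcd hY0 hY hY2 he'0 hc
  set r1 : ℝ := min r₀ a₁ with hr1
  have hr10 : 0 < r1 := lt_min hr₀ ha₁
  obtain ⟨a₂, ha₂, ha₂c, d₃, hd₃, hrad2⟩ := exists_rad (T := T) (R := R) hRd hcd hY0 hY hY2 he'0
    (show 0 < min (r1 / 2) (min c cb) by positivity)
  obtain ⟨a₃, ha₃, ha₃c, d₄, hd₄, hrad3⟩ := exists_rad (T := T) (R := R) hRd hcd hY0 hY hY2 he'0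
    (show 0 < min c cb by positivity)
  set ε : ℝ := min (min c r1) (min a₂ a₃) / 16 with hε
  have hε0 : 0 < ε := by positivity
  have e1 : 16 * ε ≤ c := by
    have : 16 * ε = min (min c r1) (min a₂ a₃) := by rw [hε]; ring
    rw [this]; exact (min_le_left _ _).trans (min_le_left _ _)
  have e2 : 16 * ε ≤ r1 := by
    have : 16 * ε = min (min c r1) (min a₂ a₃) := by rw [hε]; ring
    rw [this]; exact (min_le_left _ _).trans (min_le_right _ _)
  have e3 : 16 * ε ≤ a₂ := by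
    have : 16 * ε = min (min c r1) (min a₂ a₃) := by rw [hε]; ring
    rw [this]; exact (min_le_right _ _).trans (min_le_left _ _)
  have e4 : 16 * ε ≤ a₃ := by
    have : 16 * ε = min (min c r1) (min a₂ a₃) := by rw [hε]; ring
    rw [this]; exact (min_le_right _ _).trans (min_le_right _ _)
  obtain ⟨η, hη, hsm⟩ := small_chi (T := T) (R := R) hRd hcd hY0 hY hY2 hε0
  obtain ⟨d₅, hd₅, hlab⟩ := H450.s_labw hT hR hRd hcd hY0 hY hY2 hu₀ h64 h1024
  refine ⟨ε, hε0, η, hη, min (min d₁ d₂) (min (min d₃ d₄) (min d₅ (η / 8))), by positivity, ?_⟩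
  intro n m δ p k S A j ψ W t q PE Kc Bb B a l jf u rc κ L hj hδ hrc hu hU' hdat hlb hpf hpc hpe hpp
    hcl hL ω₀ hω1 hω2 hω3
  have q1 : δ ≤ d₁ := hδ.trans ((min_le_left _ _).trans (min_le_left _ _))
  have q2 : δ ≤ d₂ := hδ.trans ((min_le_left _ _).trans (min_le_right _ _))
  have q3 : δ ≤ d₃ := hδ.trans ((min_le_right _ _).trans ((min_le_left _ _).trans (min_le_left _ _)))
  have q4 : δ ≤ d₄ := hδ.trans ((min_le_right _ _).trans ((min_le_left _ _).trans (min_le_right _ _)))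
  have q5 : δ ≤ d₅ := hδ.trans ((min_le_right _ _).trans ((min_le_right _ _).trans (min_le_left _ _)))
  have q6 : δ ≤ η / 8 :=
    hδ.trans ((min_le_right _ _).trans ((min_le_right _ _).trans (min_le_right _ _)))
  have hmax : max η (8 * δ) = η := max_eq_left (by linarith)
  have hfz : Fz p k S A j Kc κ ω₀ := ⟨hω1, hω2⟩
  have X : Ctx δ p k S A j ψ W t T R Rd cd Y q PE Kc Bb B a l jf ε η u rc cb κ ω₀ u₀ U c :=
    { j0 := hj
      dat := hdat
      lab := hlb
      pf := hpf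
      pc := hpc
      pce := hpe
      pp := hpp
      cl := hcl
      fz := hfz
      geo := hgeo
      hu := hu
      hU := hU'
      u0 := hu₀
      eps := hε0
      epsc := by linarith
      rcc := by linarith
      sm := by
        rw [hmax]
        exact hsm ψ hdat.conf W t hdat.drv
      vis := fun i hi hS v hv z hz hzD => hlab hj q5 hdat i hi hS v hv z hz hzD }
  have hs : Setg p S k jf q PE a l (KK p k S A j Kc Bb) ω₀ :=
    H634.s_setg hj hdat hpc hpp hcl hfz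
  have hrad : ∀ {a b d : ℝ}, Rad T R Rd cd Y a b e' d → δ ≤ d → Rad T R Rd cd Y a b e' δ :=
    fun h hd ψ hψ W t H ξ hξ δ' hδ' hδd F => h ψ hψ W t H ξ hξ δ' hδ' (hδd.trans hd) F
  have hr : Radii T R Rd cd Y c cb ε r1 (a₃ / 2) a₁ a₂ a₃ r₀ e' δ :=
    { e0 := he'0.le
      eps := by linarith
      eps2 := by linarith
      epsf := by linarith
      rfc := by
        have h5 : a₃ < c := by
          have := min_le_left c cb
          linarith
        linarith
      rfa := by linarith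
      r1a := min_le_right _ _
      r1c := (min_le_right _ _).trans (by linarith)
      r10 := min_le_left _ _
      rad1 := hrad hrad1 q2
      rad2 := hrad hrad2 q3
      rad3 := hrad hrad3 q4 }
  have hu1 : c ≤ dist (mb 1 Complex.I (u : ℂ)) (-1) := by
    have := hgeo.neg u hu
    have h5 : 2 * c ≤ dist (mb 1 Complex.I (u : ℂ)) (-1) := this
    linarith
  have hu2 : c ≤ dist (mb 1 Complex.I (u : ℂ)) 1 := by
    have := hgeo.one u X.u_nonneg hU'
    have h5 : 2 * c ≤ dist (mb 1 Complex.I (u : ℂ)) 1 := this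
    linarith
  have zneg := hzin (ω₀ := ω₀) (ξ := -1) q1 hdat hpc hpp hs.hin (by simp) hu1 (by linarith)
    (by linarith)
  have zone := hzin (ω₀ := ω₀) (ξ := 1) q1 hdat hpc hpp hs.hin (by simp) hu2 (by linarith)
    (by linarith)
  have hz : Zns δ p k S A j ψ W t q PE Kc Bb a l ω₀ r₀ e' :=
    { z1 := by
        rintro ξ (rfl | rfl)
        · exact zneg.1 _ fun y hy => hy
        · exact zone.1 _ fun y hy => hy
      z2 := zneg.2 (Ici u) l m _ (fun x hx => by
        have h5 : 2 * c ≤ dist (mb 1 Complex.I (x : ℂ)) (-1) := hgeo.neg x (hu.trans hx)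
        linarith) hpp.pos4 fun y hy => hy
      z4 := zone.2 (Icc 0 u) a l _ (fun x hx => by
        have h5 : 2 * c ≤ dist (mb 1 Complex.I (x : ℂ)) 1 := hgeo.one x hx.1 (hx.2.trans hU')
        linarith) hpp.pos2 fun y hy => hy }
  have hcls := X.cls hω3
  have e5 : 4 * e' = e := by rw [he']; ring
  have i1 := X.le hcls hs hL hr hz le_rfl
  have i2 := X.ge hcls hs hL hr hz le_rfl
  rw [e5] at i1 i2
  exact ⟨i2, i1⟩

end Vale.Agent.P167.H531
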