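import Vale.Agent.P167.H531.Freeze

/-!
# P167, block CONT-LAT: the comparison for frozen configurations

`K` is a finite set of frozen edges (explored edges of the domain `D` and a near box inside of the
inner domain `P`), `ω₀` the frozen configuration. All hypotheses are about honest sites and paths.
-/

namespace Vale.Agent.P167.H531

open Vale.Agent.P167.H558 MeasureTheory Set
open scoped ENNReal

variable {ι V V' : Type*}
variable {St : ι → V → V → Prop} {St' : ι → V' → V' → Prop} {D P K : Finset ι}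
  {A1 A3 B1 B3 : Set V} {A2 A4 B2 B4 : Set V'}

/-- The site `x` is an end of an edge of `P`. -/
def Touch (St : ι → V → V → Prop) (P : Finset ι) (x : V) : Prop := ∃ i ∈ P, ∃ y, St i y x

/-- The frozen edges of `D` outside of `P` do not touch `P`. -/
def Iso (St : ι → V → V → Prop) (D P K : Finset ι) (B : Set V) : Prop :=
  ∀ i ∈ D, i ∈ K → i ∉ P → ∀ a b, St i a b → a ∉ B ∧ ¬ Touch St P a

theorem cr_iso (hP : P ⊆ D) {B : Set V} (hiso : Iso St D P K B)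
    {s F : Set ι} {C : Set V} [DecidableEq ι] :
    Cr St ((F ∩ ↑(P \ K)) ∪ fo D K s) B C ↔ Cr St (((F \ ↑K) ∪ (s ∩ ↑K)) ∩ ↑P) B C := by
  rw [← split_eq]
  constructor
  · rintro ⟨u, hu, v, hv, h⟩
    refine ⟨u, hu, v, hv, ?_⟩
    have key : ∀ w, Cn St ((F ∩ ↑(P \ K)) ∪ fo D K s) u w →
        Cn St ((F ∩ ↑(P \ K)) ∪ fo P K s) u w ∧ (w ∈ B ∨ Touch St P w) := by
      intro w hw
      induction hw with
      | refl => exact ⟨Cn.refl _ _, Or.inl hu⟩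
      | @tail b c _ hbc ih =>
        obtain ⟨ih1, ih2⟩ := ih
        obtain ⟨i, hi, hs⟩ := hbc
        have hiP : i ∈ P := by
          rcases hi with hi | hi
          · have := hi.2
            rw [Finset.coe_sdiff] at this
            exact this.1
          · by_contra hcon
            obtain ⟨h1, h2⟩ := hiso i hi.2.2 hi.2.1 hcon b c hs
            rcases ih2 with h3 | h3
            · exact h1 h3
            · exact h2 h3
        refine ⟨ih1.tail ⟨i, ?_, hs⟩, Or.inr ⟨i, hiP, b, hs⟩⟩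
        rcases hi with hi | hi
        · exact Or.inl hi
        · exact Or.inr ⟨hi.1, hi.2.1, hiP⟩
    exact (key v h).1
  · intro h
    refine h.mono ?_
    rintro i (hi | hi)
    · exact Or.inl hi
    · exact Or.inr ⟨hi.1, hi.2.1, hP hi.2.2⟩

/-- The inner quad in the quotient of the outer frozen domain. -/
theorem IsQuad.freeze_sub [DecidableEq ι] (hS : IsSt St) (hS' : IsSt St')
    (h : IsQuad St St' P B1 B3 B2 B4) (hP : P ⊆ D) (hiso : Iso St D P K B1)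
    (hiso' : Iso St' D P K B2) (s : Set ι) :
    IsQuad (qSt hS (fo D K s)) (qSt hS' (fo D K sᶜ)) (P \ K)
      (cl hS (fo D K s) '' B1) (cl hS (fo D K s) '' B3)
      (cl hS' (fo D K sᶜ) '' B2) (cl hS' (fo D K sᶜ) '' B4) where
  dich F := by
    rw [cr_q, cr_q, cr_iso hP hiso, cr_iso hP hiso', ← compl_split]
    exact h.dich _
  excl F := by
    rw [cr_q, cr_q, cr_iso hP hiso, cr_iso hP hiso', ← compl_split]
    exact h.excl _

/-- Lift of a path of classes to an honest path up to the first site of `A4` or of a non trivial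
class. -/
theorem lift_honest (hS' : IsSt St') {G F : Set ι} {b : V'} {c : Quotient (frz hS' G)}
    (hc : c ∈ cl hS' G '' A4) (h : CnIn (qSt hS' G) F (cl hS' G '' A2)ᶜ (cl hS' G b) c) :
    ∃ e, (cl hS' G e ∈ cl hS' G '' A4 ∨ ∃ x, x ≠ e ∧ cl hS' G x = cl hS' G e) ∧
      CnIn St' F {x | cl hS' G x ∉ cl hS' G '' A2} b e := by
  by_contra hcon
  push Not at hcon
  obtain ⟨hb, h⟩ := h
  have key : ∀ w, Relation.ReflTransGen (fun a b => (∃ i ∈ F, qSt hS' G i a b) ∧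
      b ∈ (cl hS' G '' A2)ᶜ) (cl hS' G b) w →
      ∃ x, cl hS' G x = w ∧ CnIn St' F {x | cl hS' G x ∉ cl hS' G '' A2} b x := by
    intro w hw
    induction hw with
    | refl => exact ⟨b, rfl, hb, Relation.ReflTransGen.refl⟩
    | @tail w w' _ hww ih =>
      obtain ⟨x, rfl, hx⟩ := ih
      obtain ⟨⟨i, hi, u, v, huv, hu, hv⟩, hw'⟩ := hww
      have hux : u = x := by
        by_contra hne
        exact hcon x (Or.inr ⟨u, hne, hu⟩) hx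
      subst hux
      refine ⟨v, hv, hx.1, hx.2.tail ⟨⟨i, hi, huv⟩, ?_⟩⟩
      show cl hS' G v ∉ _
      rw [hv]
      exact hw'
  obtain ⟨x, hx, hbx⟩ := key c h
  exact hcon x (Or.inl (hx ▸ hc)) hbx

/-- Data of the collar between the frozen domain `D` and the inner domain `P`, in terms of honest
sites: `G` (`G'`) are the frozen open (closed) edges of `D`. -/
structure FCollar (St : ι → V → V → Prop) (St' : ι → V' → V' → Prop) (D P K : Finset ι)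
    (G G' : Set ι) (A1 A3 : Set V) (A2 A4 : Set V') (B1 B3 : Set V) (B2 : Set V')
    (q1 q3 : V → Set ι) (q2 : V' → Set ι) (U1 U3 : V → Set V') : Prop where
  sub : P ⊆ D
  q1_sub : ∀ y ∈ B1, q1 y ⊆ (↑D \ ↑K) \ ↑P
  q3_sub : ∀ y ∈ B3, q3 y ⊆ (↑D \ ↑K) \ ↑P
  q2_sub : ∀ y ∈ B2, q2 y ⊆ (↑D \ ↑K) \ ↑P
  q1_conn : ∀ y ∈ B1, ∃ a ∈ A1, Cn St (q1 y ∪ G) a y
  q3_conn : ∀ y ∈ B3, ∃ a ∈ A3, Cn St (q3 y ∪ G) y a
  q2_conn : ∀ y ∈ B2, ∃ a ∈ A2, Cn St' (q2 y ∪ G') a y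
  disj1 : ∀ y ∈ B1, ∀ y' ∈ B2, Disjoint (q1 y) (q2 y')
  disj3 : ∀ y ∈ B3, ∀ y' ∈ B2, Disjoint (q3 y) (q2 y')
  sep1 : ∀ y ∈ B1, ∀ i ∈ q1 y, ∀ a b, St' i a b → ∀ e,
    ((∃ c ∈ A4, Cn St' G' c e) ∨ ∃ x, x ≠ e ∧ Cn St' G' x e) →
    ¬ CnIn St' (↑D \ ↑K) (U1 y ∩ {x | ¬ ∃ c ∈ A2, Cn St' G' c x}) b e
  sep3 : ∀ y ∈ B3, ∀ i ∈ q3 y, ∀ a b, St' i a b → ∀ e,
    ((∃ c ∈ A4, Cn St' G' c e) ∨ ∃ x, x ≠ e ∧ Cn St' G' x e) →
    ¬ CnIn St' (↑D \ ↑K) (U3 y ∩ {x | ¬ ∃ c ∈ A2, Cn St' G' c x}) b e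

theorem mem_cl_iff (hS' : IsSt St') {G : Set ι} {A : Set V'} {x : V'} :
    cl hS' G x ∈ cl hS' G '' A ↔ ∃ c ∈ A, Cn St' G c x := by
  constructor
  · rintro ⟨c, hc, h⟩
    exact ⟨c, hc, cl_eq_iff.1 h⟩
  · rintro ⟨c, hc, h⟩
    exact ⟨c, hc, cl_eq_iff.2 h⟩

section prob

variable [Countable ι] [DecidableEq ι]

omit [Countable ι] in
/-- The arm event of classes gives an honest arm. -/
theorem armD_honest (hS' : IsSt St') {G : Set ι} {Q : Set ι} {U : Set V'}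
    (h : ∀ i ∈ Q, ∀ a b, St' i a b → ∀ e,
      ((∃ c ∈ A4, Cn St' G c e) ∨ ∃ x, x ≠ e ∧ Cn St' G x e) →
      ¬ CnIn St' (↑D \ ↑K) (U ∩ {x | ¬ ∃ c ∈ A2, Cn St' G c x}) b e) :
    ArmD (qSt hS' G) (D \ K) Q (cl hS' G '' A2) (cl hS' G '' A4) ⊆ ArmE St' Q U := by
  rintro ω ⟨i, hi, _, _, ⟨a, b, hs, rfl, rfl⟩, c, hc, hp⟩
  obtain ⟨e, he, hbe⟩ := lift_honest hS' hc hp
  have hset : {x | cl hS' G x ∉ cl hS' G '' A2} = {x | ¬ ∃ c ∈ A2, Cn St' G c x} := by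
    ext x
    simp only [mem_ofPred_eq, mem_cl_iff hS']
  rw [hset] at hbe
  have he' : (∃ c ∈ A4, Cn St' G c e) ∨ ∃ x, x ≠ e ∧ Cn St' G x e := by
    rcases he with he | ⟨x, hx, he⟩
    · exact Or.inl ((mem_cl_iff hS').1 he)
    · exact Or.inr ⟨x, hx, cl_eq_iff.1 he⟩
  have hsub : (Op ω)ᶜ ∩ (↑(D \ K) : Set ι) ⊆ ↑D \ ↑K := by
    intro j hj
    have := hj.2
    rwa [Finset.coe_sdiff] at this
  obtain ⟨r, hr, hbr⟩ := hbe.exit hsub (h i hi a b hs e he')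
  exact ⟨i, hi, a, b, hs, r, hr, hbr.mono inter_subset_left⟩

variable (ν : Measure Bool) [IsProbabilityMeasure ν]

/-- **CONT-LAT for frozen configurations.** -/
theorem cont_frozen (hS : IsSt St) (hS' : IsSt St') (hP : IsQuad St St' P B1 B3 B2 B4)
    (hD : IsQuad St St' D A1 A3 A2 A4) (hiso : Iso St D P K B1) (hiso' : Iso St' D P K B2)
    {ω₀ : ι → Bool} {q1 q3 : V → Set ι} {q2 : V' → Set ι} {U1 U3 : V → Set V'}
    (hc : FCollar St St' D P K (fo D K (Op ω₀)) (fo D K (Op ω₀)ᶜ) A1 A3 A2 A4 B1 B3 B2 q1 q3 q2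
      U1 U3) {e1 e3 : ℝ≥0∞}
    (hq1 : ∀ y ∈ B1, (Pm ν ι) (ArmE St' (q1 y) (U1 y)) ≤ e1)
    (hq3 : ∀ y ∈ B3, (Pm ν ι) (ArmE St' (q3 y) (U3 y)) ≤ e3) :
    (Pm ν ι) {ω | Cr St (Op (glue (↑K) ω₀ ω) ∩ ↑P) B1 B3 ∧
        ¬ Cr St (Op (glue (↑K) ω₀ ω) ∩ ↑D) A1 A3} ≤
      (e1 + e3) * (Pm ν ι) {ω | Cr St (Op (glue (↑K) ω₀ ω) ∩ ↑P) B1 B3} := by
  classical
  set G := fo D K (Op ω₀) with hG
  set G' := fo D K (Op ω₀)ᶜ with hG'
  have hQD := hD.freeze hS hS' K (Op ω₀)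
  have hQP := hP.freeze_sub hS hS' hc.sub hiso hiso' (Op ω₀)
  -- representatives
  let rp : Quotient (frz hS G) → V := fun c => if h : ∃ y ∈ B1, cl hS G y = c then h.choose else
    (cl_surj c).choose
  have hrp : ∀ c ∈ cl hS G '' B1, rp c ∈ B1 ∧ cl hS G (rp c) = c := by
    intro c hcc
    have h : ∃ y ∈ B1, cl hS G y = c := hcc
    have e : rp c = h.choose := dif_pos h
    rw [e]
    exact h.choose_spec
  let rp3 : Quotient (frz hS G) → V := fun c => if h : ∃ y ∈ B3, cl hS G y = c then h.choose else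
    (cl_surj c).choose
  have hrp3 : ∀ c ∈ cl hS G '' B3, rp3 c ∈ B3 ∧ cl hS G (rp3 c) = c := by
    intro c hcc
    have h : ∃ y ∈ B3, cl hS G y = c := hcc
    have e : rp3 c = h.choose := dif_pos h
    rw [e]
    exact h.choose_spec
  let rp2 : Quotient (frz hS' G') → V' := fun c => if h : ∃ y ∈ B2, cl hS' G' y = c then h.choose
    else (cl_surj c).choose
  have hrp2 : ∀ c ∈ cl hS' G' '' B2, rp2 c ∈ B2 ∧ cl hS' G' (rp2 c) = c := by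
    intro c hcc
    have h : ∃ y ∈ B2, cl hS' G' y = c := hcc
    have e : rp2 c = h.choose := dif_pos h
    rw [e]
    exact h.choose_spec
  have hcoeD : (↑(D \ K) : Set ι) \ ↑(P \ K) = (↑D \ ↑K) \ ↑P := by
    ext i
    simp only [Finset.coe_sdiff, mem_sdiff, Finset.mem_coe]
    tauto
  have hcol : Collar0 (qSt hS G) (qSt hS' G') (D \ K) (P \ K) (cl hS G '' A1) (cl hS G '' A3)
      (cl hS' G' '' A2) (cl hS G '' B1) (cl hS G '' B3) (cl hS' G' '' B2) ∅ ∅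
      (fun c => q1 (rp c)) (fun c => q3 (rp3 c)) (fun c => q2 (rp2 c)) := by
    refine ⟨Finset.sdiff_subset_sdiff hc.sub subset_rfl, ?_, ?_, ?_, ?_, ?_, ?_, ?_, ?_⟩
    · intro c h1 _
      rw [hcoeD]
      exact hc.q1_sub _ (hrp c h1).1
    · intro c h1 _
      rw [hcoeD]
      exact hc.q3_sub _ (hrp3 c h1).1
    · intro c h1
      rw [hcoeD]
      exact hc.q2_sub _ (hrp2 c h1).1
    · intro c h1 _
      obtain ⟨a, ha, h2⟩ := hc.q1_conn _ (hrp c h1).1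
      refine ⟨cl hS G a, ⟨a, ha, rfl⟩, ?_⟩
      have := (cn_q hS G (q1 (rp c)) a (rp c)).2 h2
      rwa [(hrp c h1).2] at this
    · intro c h1 _
      obtain ⟨a, ha, h2⟩ := hc.q3_conn _ (hrp3 c h1).1
      refine ⟨cl hS G a, ⟨a, ha, rfl⟩, ?_⟩
      have := (cn_q hS G (q3 (rp3 c)) (rp3 c) a).2 h2
      rwa [(hrp3 c h1).2] at this
    · intro c h1
      obtain ⟨a, ha, h2⟩ := hc.q2_conn _ (hrp2 c h1).1
      refine ⟨cl hS' G' a, ⟨a, ha, rfl⟩, ?_⟩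
      have := (cn_q hS' G' (q2 (rp2 c)) a (rp2 c)).2 h2
      rwa [(hrp2 c h1).2] at this
    · intro c h1 _ c' h2
      exact hc.disj1 _ (hrp c h1).1 _ (hrp2 c' h2).1
    · intro c h1 _ c' h2
      exact hc.disj3 _ (hrp3 c h1).1 _ (hrp2 c' h2).1
  have hmain := cont_gen ν (isSt_q hS' G') hQP hQD hcol (e1 := e1) (e3 := e3)
    (fun c h1 _ => (measure_mono (armD_honest hS' (hc.sep1 _ (hrp c h1).1))).trans
      (hq1 _ (hrp c h1).1))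
    (fun c h1 _ => (measure_mono (armD_honest hS' (hc.sep3 _ (hrp3 c h1).1))).trans
      (hq3 _ (hrp3 c h1).1))
  have hz1 : {ω : ι → Bool | Cr (qSt hS G) (Op ω ∩ ↑(P \ K)) (cl hS G '' B1 ∩ ∅)
      (cl hS G '' B3)} = ∅ := by
    ext ω
    simp [Cr]
  have hz2 : {ω : ι → Bool | Cr (qSt hS G) (Op ω ∩ ↑(P \ K)) (cl hS G '' B1)
      (cl hS G '' B3 ∩ ∅)} = ∅ := by
    ext ω
    simp [Cr]
  rw [hz1, hz2, measure_empty, add_zero, add_zero] at hmain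
  have ep : ∀ ω : ι → Bool, Cr (qSt hS G) (Op ω ∩ ↑(P \ K)) (cl hS G '' B1) (cl hS G '' B3) ↔
      Cr St (Op (glue (↑K) ω₀ ω) ∩ ↑P) B1 B3 := by
    intro ω
    rw [cr_q, cr_iso hc.sub hiso, Op_glue]
  have ed : ∀ ω : ι → Bool, Cr (qSt hS G) (Op ω ∩ ↑(D \ K)) (cl hS G '' A1) (cl hS G '' A3) ↔
      Cr St (Op (glue (↑K) ω₀ ω) ∩ ↑D) A1 A3 := fun ω => (cr_glue hS D K A1 A3 ω₀ ω).symm
  have hmain2 : (Pm ν ι) {ω | Cr (qSt hS G) (Op ω ∩ ↑(P \ K)) (cl hS G '' B1) (cl hS G '' B3) ∧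
      ¬ Cr (qSt hS G) (Op ω ∩ ↑(D \ K)) (cl hS G '' A1) (cl hS G '' A3)} ≤
      (e1 + e3) * (Pm ν ι) {ω | Cr (qSt hS G) (Op ω ∩ ↑(P \ K)) (cl hS G '' B1)
        (cl hS G '' B3)} := hmain
  simp only [ep, ed] at hmain2
  exact hmain2

theorem glue_flp (K : Set ι) (ω₀ ω : ι → Bool) :
    glue K (flp ω₀) (flp ω) = flp (glue K ω₀ ω) := by
  funext i
  by_cases hi : i ∈ K
  · rw [glue_mem hi]
    show (!ω₀ i) = !(glue K ω₀ ω i)
    rw [glue_mem hi]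
  · rw [glue_not_mem hi]
    show (!ω i) = !(glue K ω₀ ω i)
    rw [glue_not_mem hi]

/-- Events of the glued configuration which only depend on the edges of `D` are measurable. -/
theorem meas_glue_cr {W : Type*} {StW : ι → W → W → Prop} (D K : Finset ι) (A B : Set W)
    (ω₀ : ι → Bool) : MeasurableSet {ω : ι → Bool | Cr StW (Op (glue (↑K) ω₀ ω) ∩ ↑D) A B} := by
  refine meas_of_dep (K := D) fun ω1 ω2 h12 h' => ?_
  have hsub : Op (glue (↑K) ω₀ ω1) ∩ (↑D : Set ι) ⊆ Op (glue (↑K) ω₀ ω2) ∩ ↑D := by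
    rintro i ⟨h1, h2⟩
    refine ⟨?_, h2⟩
    simp only [Op, mem_ofPred_eq] at h1 ⊢
    by_cases hi : i ∈ (↑K : Set ι)
    · rw [glue_mem hi] at h1 ⊢
      exact h1
    · rw [glue_not_mem hi] at h1 ⊢
      rwa [h12 i h2]
  exact Cr.mono hsub h'

/-- **CONT-LAT for frozen configurations, dual form.** -/
theorem cont_frozen' (hν : ν.map not = ν) (hS : IsSt St) (hS' : IsSt St')
    (hP : IsQuad St St' P B1 B3 B2 B4) (hD : IsQuad St St' D A1 A3 A2 A4)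
    (hiso : Iso St D P K B1) (hiso' : Iso St' D P K B2)
    {ω₀ : ι → Bool} {q2 q4 : V' → Set ι} {q1 : V → Set ι} {U2 U4 : V' → Set V}
    (hc : FCollar St' St D P K (fo D K (Op ω₀)ᶜ) (fo D K (Op ω₀)) A2 A4 A1 A3 B2 B4 B1 q2 q4 q1
      U2 U4) {e2 e4 : ℝ≥0∞}
    (hq2 : ∀ y ∈ B2, (Pm ν ι) (ArmE St (q2 y) (U2 y)) ≤ e2)
    (hq4 : ∀ y ∈ B4, (Pm ν ι) (ArmE St (q4 y) (U4 y)) ≤ e4) :
    (Pm ν ι) {ω | Cr St (Op (glue (↑K) ω₀ ω) ∩ ↑D) A1 A3 ∧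
        ¬ Cr St (Op (glue (↑K) ω₀ ω) ∩ ↑P) B1 B3} ≤
      (e2 + e4) * (Pm ν ι) {ω | ¬ Cr St (Op (glue (↑K) ω₀ ω) ∩ ↑P) B1 B3} := by
  have hO : Op (flp ω₀) = (Op ω₀)ᶜ := Op_flp ω₀
  have hO' : (Op (flp ω₀))ᶜ = Op ω₀ := by rw [hO, compl_compl]
  have hc' : FCollar St' St D P K (fo D K (Op (flp ω₀))) (fo D K (Op (flp ω₀))ᶜ) A2 A4 A1 A3
      B2 B4 B1 q2 q4 q1 U2 U4 := by
    rw [hO', hO]
    exact hc
  have h := cont_frozen ν hS' hS hP.dual hD.dual hiso' hiso hc' hq2 hq4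
  have hfl : ∀ s : Set (ι → Bool), MeasurableSet s → (Pm ν ι) s = (Pm ν ι) (flp ⁻¹' s) := by
    intro s hs
    conv_lhs => rw [← Pm_flp ν hν]
    rw [Measure.map_apply measurable_flp hs]
  have hm1 : MeasurableSet {ω : ι → Bool | Cr St' (Op (glue (↑K) (flp ω₀) ω) ∩ ↑P) B2 B4} :=
    meas_glue_cr P K B2 B4 (flp ω₀)
  have hm2 : MeasurableSet {ω : ι → Bool | Cr St' (Op (glue (↑K) (flp ω₀) ω) ∩ ↑P) B2 B4 ∧
      ¬ Cr St' (Op (glue (↑K) (flp ω₀) ω) ∩ ↑D) A2 A4} :=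
    hm1.inter (meas_glue_cr D K A2 A4 (flp ω₀)).compl
  rw [hfl _ hm2, hfl _ hm1] at h
  have hxor : ∀ (K : Finset ι) (C1 C3 : Set V) (C2 C4 : Set V'), IsQuad St St' K C1 C3 C2 C4 →
      ∀ ω : ι → Bool, Cr St' ((Op ω)ᶜ ∩ ↑K) C2 C4 ↔ ¬ Cr St (Op ω ∩ ↑K) C1 C3 := by
    intro K C1 C3 C2 C4 hK ω
    constructor
    · exact fun h1 h2 => hK.excl _ h2 h1
    · exact fun h1 => (hK.dich _).resolve_left h1
  have e1 : flp ⁻¹' {ω : ι → Bool | Cr St' (Op (glue (↑K) (flp ω₀) ω) ∩ ↑P) B2 B4 ∧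
      ¬ Cr St' (Op (glue (↑K) (flp ω₀) ω) ∩ ↑D) A2 A4} =
      {ω | Cr St (Op (glue (↑K) ω₀ ω) ∩ ↑D) A1 A3 ∧
        ¬ Cr St (Op (glue (↑K) ω₀ ω) ∩ ↑P) B1 B3} := by
    ext ω
    simp only [mem_preimage, mem_ofPred_eq]
    rw [glue_flp, Op_flp, hxor P B1 B3 B2 B4 hP, hxor D A1 A3 A2 A4 hD, not_not]
    exact and_comm
  have e2' : flp ⁻¹' {ω : ι → Bool | Cr St' (Op (glue (↑K) (flp ω₀) ω) ∩ ↑P) B2 B4} =
      {ω | ¬ Cr St (Op (glue (↑K) ω₀ ω) ∩ ↑P) B1 B3} := by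
    ext ω
    simp only [mem_preimage, mem_ofPred_eq]
    rw [glue_flp, Op_flp, hxor P B1 B3 B2 B4 hP]
  rw [e1, e2'] at h
  exact h

/-- The conditional crossing probability of the inner domain is at most the one of the outer
domain up to a small error. -/
theorem cpr_le (hS : IsSt St) (hS' : IsSt St') (hP : IsQuad St St' P B1 B3 B2 B4)
    (hD : IsQuad St St' D A1 A3 A2 A4) (hiso : Iso St D P K B1) (hiso' : Iso St' D P K B2)
    {ω₀ : ι → Bool} {q1 q3 : V → Set ι} {q2 : V' → Set ι} {U1 U3 : V → Set V'}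
    (hc : FCollar St St' D P K (fo D K (Op ω₀)) (fo D K (Op ω₀)ᶜ) A1 A3 A2 A4 B1 B3 B2 q1 q3 q2
      U1 U3) {e1 e3 : ℝ≥0∞}
    (hq1 : ∀ y ∈ B1, (Pm ν ι) (ArmE St' (q1 y) (U1 y)) ≤ e1)
    (hq3 : ∀ y ∈ B3, (Pm ν ι) (ArmE St' (q3 y) (U3 y)) ≤ e3) :
    cpr ν St P K B1 B3 ω₀ ≤ cpr ν St D K A1 A3 ω₀ + (e1 + e3) := by
  have h := cont_frozen ν hS hS' hP hD hiso hiso' hc hq1 hq3
  have h2 : {ω : ι → Bool | Cr St (Op (glue (↑K) ω₀ ω) ∩ ↑P) B1 B3} ⊆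
      {ω | Cr St (Op (glue (↑K) ω₀ ω) ∩ ↑D) A1 A3} ∪
        {ω | Cr St (Op (glue (↑K) ω₀ ω) ∩ ↑P) B1 B3 ∧
          ¬ Cr St (Op (glue (↑K) ω₀ ω) ∩ ↑D) A1 A3} := by
    intro ω hω
    by_cases h3 : Cr St (Op (glue (↑K) ω₀ ω) ∩ ↑D) A1 A3
    · exact Or.inl h3
    · exact Or.inr ⟨hω, h3⟩
  refine (measure_mono h2).trans ((measure_union_le _ _).trans ?_)
  unfold cpr
  gcongr
  refine h.trans ?_
  calc (e1 + e3) * _ ≤ (e1 + e3) * 1 := by gcongr; exact prob_le_one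
    _ = e1 + e3 := mul_one _

/-- The conditional crossing probability of the outer domain is at most the one of the inner
domain up to a small error. -/
theorem cpr_ge (hν : ν.map not = ν) (hS : IsSt St) (hS' : IsSt St')
    (hP : IsQuad St St' P B1 B3 B2 B4) (hD : IsQuad St St' D A1 A3 A2 A4)
    (hiso : Iso St D P K B1) (hiso' : Iso St' D P K B2)
    {ω₀ : ι → Bool} {q2 q4 : V' → Set ι} {q1 : V → Set ι} {U2 U4 : V' → Set V}
    (hc : FCollar St' St D P K (fo D K (Op ω₀)ᶜ) (fo D K (Op ω₀)) A2 A4 A1 A3 B2 B4 B1 q2 q4 q1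
      U2 U4) {e2 e4 : ℝ≥0∞}
    (hq2 : ∀ y ∈ B2, (Pm ν ι) (ArmE St (q2 y) (U2 y)) ≤ e2)
    (hq4 : ∀ y ∈ B4, (Pm ν ι) (ArmE St (q4 y) (U4 y)) ≤ e4) :
    cpr ν St D K A1 A3 ω₀ ≤ cpr ν St P K B1 B3 ω₀ + (e2 + e4) := by
  have h := cont_frozen' ν hν hS hS' hP hD hiso hiso' hc hq2 hq4
  have h2 : {ω : ι → Bool | Cr St (Op (glue (↑K) ω₀ ω) ∩ ↑D) A1 A3} ⊆
      {ω | Cr St (Op (glue (↑K) ω₀ ω) ∩ ↑P) B1 B3} ∪
        {ω | Cr St (Op (glue (↑K) ω₀ ω) ∩ ↑D) A1 A3 ∧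
          ¬ Cr St (Op (glue (↑K) ω₀ ω) ∩ ↑P) B1 B3} := by
    intro ω hω
    by_cases h3 : Cr St (Op (glue (↑K) ω₀ ω) ∩ ↑P) B1 B3
    · exact Or.inl h3
    · exact Or.inr ⟨hω, h3⟩
  refine (measure_mono h2).trans ((measure_union_le _ _).trans ?_)
  unfold cpr
  gcongr
  refine h.trans ?_
  calc (e2 + e4) * _ ≤ (e2 + e4) * 1 := by gcongr; exact prob_le_one
    _ = e2 + e4 := mul_one _

end prob

end Vale.Agent.P167.H531
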