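import Vale.Agent.P167.H531.Poly

/-!
# P167, block E4: polygons of the medial grid, Green's identity mod 2 and the dichotomy

Squares model (`P167/Defs`): the square `v` has the corners `v, v + (1,0), v + (1,1), v + (0,1)`, an
open square joins its two even corners, a closed square its two odd corners. `D` is the set of the
squares enclosed by the simple closed polygon `q` of the lattice of all sites.
-/

set_option linter.unusedSectionVars false

namespace Vale.Agent.P167.H531

open Vale.Agent.P167.E6 Vale.Agent.P167.E2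

/-- The square `v` joins the sites `x`, `y` of parity `c`. -/
def StM (c : ℤ) (v x y : ℤ × ℤ) : Prop :=
  v = (min x.1 y.1, min x.2 y.2) ∧ (y.1 = x.1 + 1 ∨ y.1 = x.1 - 1) ∧
    (y.2 = x.2 + 1 ∨ y.2 = x.2 - 1) ∧ (x.1 + x.2) % 2 = c

theorem isSt_M (c : ℤ) : IsSt (StM c) where
  symm := by
    rintro v x y ⟨h1, h2, h3, h4⟩
    refine ⟨by rw [h1, min_comm x.1, min_comm x.2], by omega, by omega, by omega⟩
  pair := by
    rintro v x y x' y' ⟨h1, h2, h3, h4⟩ ⟨h1', h2', h3', h4'⟩
    rw [h1] at h1'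
    rw [Prod.ext_iff] at h1'
    obtain ⟨h5, h6⟩ := h1'
    simp only at h5 h6
    simp only [Prod.ext_iff]
    omega

/-! ### Sides of squares -/

/-- The corner of the square `v` from which its side `r` starts (counterclockwise). -/
def cn (v : ℤ × ℤ) (r : Fin 4) : ℤ × ℤ := v + ![(0, 0), (1, 0), (1, 1), (0, 1)] r

theorem cn0 (v : ℤ × ℤ) : cn v 0 = (v.1, v.2) := by simp [cn]
theorem cn1 (v : ℤ × ℤ) : cn v 1 = (v.1 + 1, v.2) := by apply Prod.ext <;> simp [cn]
theorem cn2 (v : ℤ × ℤ) : cn v 2 = (v.1 + 1, v.2 + 1) := by apply Prod.ext <;> simp [cn]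
theorem cn3 (v : ℤ × ℤ) : cn v 3 = (v.1, v.2 + 1) := by apply Prod.ext <;> simp [cn]

theorem face_cn (v : ℤ × ℤ) (r : Fin 4) : face (cn v r) r = v := by
  revert r
  refine forall4 ?_ ?_ ?_ ?_
  · rw [cn0, face0]
  · rw [cn1, face1]; apply Prod.ext <;> simp
  · rw [cn2, face2]; apply Prod.ext <;> simp
  · rw [cn3, face3]; apply Prod.ext <;> simp

theorem cn_face (a : ℤ × ℤ) (r : Fin 4) : cn (face a r) r = a := by
  revert r
  refine forall4 ?_ ?_ ?_ ?_
  · rw [face0, cn0]
  · rw [face1, cn1]; apply Prod.ext <;> simp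
  · rw [face2, cn2]; apply Prod.ext <;> simp
  · rw [face3, cn3]; apply Prod.ext <;> simp

/-- The side `r` of the square `v`. -/
def sd (v : ℤ × ℤ) (r : Fin 4) : Sym2 (ℤ × ℤ) := s(cn v r, cn v r + dir r)

/-- The square on the other side. -/
def nbr (v : ℤ × ℤ) (r : Fin 4) : ℤ × ℤ := face (cn v r) (r - 1)

theorem cn_nbr (v : ℤ × ℤ) (r : Fin 4) : cn (nbr v r) (r + 2) = cn v r + dir r := by
  have h : nbr v r = face (cn v r + dir r) (r + 2) := by rw [face_right]; rfl
  rw [h, cn_face]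

theorem sd_nbr (v : ℤ × ℤ) (r : Fin 4) : sd (nbr v r) (r + 2) = sd v r := by
  rw [sd, sd, cn_nbr, dir_add_two']
  exact Sym2.eq_swap

theorem nbr_nbr (v : ℤ × ℤ) (r : Fin 4) : nbr (nbr v r) (r + 2) = v := by
  have h : nbr (nbr v r) (r + 2) = face (cn v r + dir r) (r + 1) := by
    have e : r + 2 - 1 = r + 1 := by revert r; decide
    rw [nbr, cn_nbr, e]
  rw [h, face_left, face_cn]

variable {n : ℕ} {q : ZMod n → ℤ × ℤ} {D : Finset (ℤ × ℤ)}

section

variable (hq : IsPolygon q) (hD : Encloses q D)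
include hq hD

/-- **Stokes mod 2.** -/
theorem stokes (P : Sym2 (ℤ × ℤ) → ZMod 2) :
    ∑ v ∈ D, ∑ r : Fin 4, P (sd v r) = ∑ i ∈ Finset.range n, P (pe q (i : ZMod n)) := by
  classical
  have hn : NeZero n := ⟨by have := hq.1; omega⟩
  rw [← Finset.sum_product' (s := D) (t := Finset.univ) (f := fun v r => P (sd v r))]
  rw [← Finset.sum_filter_add_sum_filter_not _ (fun x : (ℤ × ℤ) × Fin 4 => nbr x.1 x.2 ∈ D)]
  have h1 : ∑ x ∈ (D ×ˢ Finset.univ).filter (fun x : (ℤ × ℤ) × Fin 4 => nbr x.1 x.2 ∈ D),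
      P (sd x.1 x.2) = 0 := by
    refine Finset.sum_involution (fun x _ => (nbr x.1 x.2, x.2 + 2)) ?_ ?_ ?_ ?_
    · intro x _
      simp only
      rw [sd_nbr, two_eq]
    · intro x _ _ h
      have h2 := congrArg Prod.snd h
      simp only at h2
      have h3 : ∀ r : Fin 4, r + 2 ≠ r := by decide
      exact h3 _ h2
    · intro x hx
      rw [Finset.mem_filter, Finset.mem_product] at hx ⊢
      refine ⟨⟨hx.2, Finset.mem_univ _⟩, ?_⟩
      simp only
      rw [nbr_nbr]
      exact hx.1.1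
    · intro x _
      refine Prod.ext ?_ ?_
      · simp only
        rw [nbr_nbr]
      · simp only
        have h3 : ∀ r : Fin 4, r + 2 + 2 = r := by decide
        exact h3 _
  rw [h1, zero_add]
  symm
  refine Finset.sum_bij (fun i _ => (fi q (i : ZMod n), ro q (i : ZMod n))) ?_ ?_ ?_ ?_
  · intro i _
    rw [Finset.mem_filter, Finset.mem_product]
    refine ⟨⟨fi_mem hq hD _, Finset.mem_univ _⟩, ?_⟩
    simp only [nbr, fi]
    rw [cn_face]
    exact (enc_out hq hD).2
  · intro i hi j hj h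
    rw [Finset.mem_range] at hi hj
    have h2 := congrArg Prod.fst h
    have h3 := congrArg Prod.snd h
    simp only [fi] at h2 h3
    have h4 : q (i : ZMod n) = q (j : ZMod n) := by
      rw [← cn_face (q (i : ZMod n)) (ro q i), h2, h3, cn_face]
    exact cast_inj (by omega) hi hj (hq.2.1 h4)
  · rintro ⟨v, r⟩ hx
    rw [Finset.mem_filter, Finset.mem_product] at hx
    obtain ⟨⟨hv, -⟩, hnb⟩ := hx
    simp only at hv hnb
    obtain ⟨i, h2, h3⟩ := (hD (cn v r) r).2 ⟨by rw [face_cn]; exact hv, hnb⟩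
    refine ⟨i.val, Finset.mem_range.2 (ZMod.val_lt i), ?_⟩
    rw [ZMod.natCast_zmod_val]
    have h4 : r = ro q i := ro_unique hq (by rw [h3, h2])
    refine Prod.ext ?_ h4.symm
    show face (q i) (ro q i) = v
    rw [h2, ← h4, face_cn]
  · intro i _
    simp only [sd, fi]
    rw [cn_face, pe_eq hq]

/-- Product of the values at the ends. -/
def pr2 (u : ℤ × ℤ → ZMod 2) : Sym2 (ℤ × ℤ) → ZMod 2 :=
  Sym2.lift ⟨fun x y => u x * u y, fun _ _ => mul_comm _ _⟩

omit hq hD in
theorem sum_sides (u : ℤ × ℤ → ZMod 2) (v : ℤ × ℤ) :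
    ∑ r : Fin 4, pr2 u (sd v r) = (u v + u (v + (1, 1))) * (u (v + (1, 0)) + u (v + (0, 1))) := by
  have c0 : cn v 0 = v := by rw [cn0]
  have e0 : pr2 u (sd v 0) = u v * u (v + (1, 0)) := by
    show u (cn v 0) * u (cn v 0 + dir 0) = _
    rw [c0, dir0]
  have e1 : pr2 u (sd v 1) = u (v + (1, 0)) * u (v + (1, 1)) := by
    show u (cn v 1) * u (cn v 1 + dir 1) = _
    simp [cn, dir1, add_assoc]
  have e2 : pr2 u (sd v 2) = u (v + (1, 1)) * u (v + (0, 1)) := by
    show u (cn v 2) * u (cn v 2 + dir 2) = _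
    simp [cn, dir2, add_assoc]
  have e3 : pr2 u (sd v 3) = u (v + (0, 1)) * u v := by
    show u (cn v 3) * u (cn v 3 + dir 3) = _
    have c3 : cn v 3 = v + (0, 1) := by rw [cn3]; apply Prod.ext <;> simp
    have c4 : v + (0, 1) + dir 3 = v := by rw [dir3]; apply Prod.ext <;> simp
    rw [c3, c4]
  rw [Fin.sum_univ_four, e0, e1, e2, e3]
  ring

end

/-- The sites of parity `c` with indices in `[i, j]`. -/
def arcM (q : ZMod n → ℤ × ℤ) (c : ℤ) (i j : ℕ) : Set (ℤ × ℤ) :=
  {x | ∃ k : ℕ, i ≤ k ∧ k ≤ j ∧ x = q (k : ZMod n) ∧ (x.1 + x.2) % 2 = c}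

theorem par_step (hq : IsPolygon q) (i : ZMod n) :
    ((q (i + 1)).1 + (q (i + 1)).2 + (q i).1 + (q i).2) % 2 = 1 := by
  obtain ⟨r, hr⟩ := hq.2.2 i
  rw [hr]
  revert r
  refine forall4 ?_ ?_ ?_ ?_ <;> intro _ <;>
    simp only [dir0, dir1, dir2, dir3, Prod.fst_add, Prod.snd_add] <;> omega

theorem zmod2_cases (x : ZMod 2) : x = 0 ∨ x = 1 := by
  revert x; decide

/-- **Dichotomy for a polygon of the medial grid.** -/
theorem med_dich (hq : IsPolygon q) (hD : Encloses q D) {a b c : ℕ} (hab : a ≤ b) (hbc : b ≤ c)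
    (hcn : c ≤ n) (F : Set (ℤ × ℤ)) :
    Cr (StM 0) (F ∩ ↑D) (arcM q 0 0 a) (arcM q 0 b c) ∨
      Cr (StM 1) (Fᶜ ∩ ↑D) (arcM q 1 a b) (arcM q 1 c n) := by
  classical
  have hn : NeZero n := ⟨by have := hq.1; omega⟩
  by_contra hcon
  push Not at hcon
  obtain ⟨h1, h2⟩ := hcon
  -- the function `u`
  let C : ℤ × ℤ → Prop := fun x => ∃ y ∈ arcM q 0 0 a, Cn (StM 0) (F ∩ ↑D) y x
  let X : ℤ × ℤ → Prop := fun x => ∃ y ∈ arcM q 1 a b, Cn (StM 1) (Fᶜ ∩ ↑D) y x
  let u : ℤ × ℤ → ZMod 2 := fun x => if (x.1 + x.2) % 2 = 0 then (if C x then 1 else 0)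
    else (if X x then 1 else 0)
  have hC : ∀ v x y, v ∈ F → v ∈ D → StM 0 v x y → u x = u y := by
    intro v x y hF hv hs
    have hx : (x.1 + x.2) % 2 = 0 := hs.2.2.2
    have hy : (y.1 + y.2) % 2 = 0 := ((isSt_M 0).symm _ _ _ hs).2.2.2
    have : C x ↔ C y := by
      constructor
      · rintro ⟨z, hz, h⟩
        exact ⟨z, hz, h.tail ⟨v, ⟨hF, hv⟩, hs⟩⟩
      · rintro ⟨z, hz, h⟩
        exact ⟨z, hz, h.tail ⟨v, ⟨hF, hv⟩, (isSt_M 0).symm _ _ _ hs⟩⟩
    simp only [u, hx, hy, if_true, this]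
  have hX : ∀ v x y, v ∉ F → v ∈ D → StM 1 v x y → u x = u y := by
    intro v x y hF hv hs
    have hx : (x.1 + x.2) % 2 = 1 := hs.2.2.2
    have hy : (y.1 + y.2) % 2 = 1 := ((isSt_M 1).symm _ _ _ hs).2.2.2
    have : X x ↔ X y := by
      constructor
      · rintro ⟨z, hz, h⟩
        exact ⟨z, hz, h.tail ⟨v, ⟨hF, hv⟩, hs⟩⟩
      · rintro ⟨z, hz, h⟩
        exact ⟨z, hz, h.tail ⟨v, ⟨hF, hv⟩, (isSt_M 1).symm _ _ _ hs⟩⟩
    simp only [u, hx, hy, this]
    simp
  -- every square contributes zero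
  have hsq : ∀ v ∈ D, ∑ r : Fin 4, pr2 u (sd v r) = 0 := by
    intro v hv
    rw [sum_sides]
    have d1 : ∀ c : ℤ, (v.1 + v.2) % 2 = c → StM c v v (v + (1, 1)) := by
      intro c hc
      refine ⟨?_, ?_, ?_, hc⟩
      · apply Prod.ext <;> simp
      · left; simp
      · left; simp
    have d2 : ∀ c : ℤ, (v.1 + v.2 + 1) % 2 = c → StM c v (v + (1, 0)) (v + (0, 1)) := by
      intro c hc
      refine ⟨?_, ?_, ?_, ?_⟩
      · apply Prod.ext <;> simp
      · right; simp
      · left; simp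
      · simp only [Prod.fst_add, Prod.snd_add]
        omega
    rcases Int.emod_two_eq_zero_or_one (v.1 + v.2) with hp | hp
    · by_cases hF : v ∈ F
      · rw [hC v _ _ hF hv (d1 0 hp), two_eq, zero_mul]
      · rw [hX v _ _ hF hv (d2 1 (by omega)), two_eq, mul_zero]
    · by_cases hF : v ∈ F
      · rw [hC v _ _ hF hv (d2 0 (by omega)), two_eq, mul_zero]
      · rw [hX v _ _ hF hv (d1 1 hp), two_eq, zero_mul]
  have hst := stokes hq hD (pr2 u)
  rw [Finset.sum_eq_zero hsq] at hst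
  -- the boundary values
  set U : ℕ → ZMod 2 := fun i => u (q (i : ZMod n)) with hU
  have hpe : ∀ i : ℕ, pr2 u (pe q (i : ZMod n)) = U i * U (i + 1) := by
    intro i
    show u (q i) * u (q (i + 1)) = _
    simp only [hU]
    push_cast
    rfl
  simp only [hpe] at hst
  have par : ∀ i : ℕ, ((q (i : ZMod n)).1 + (q (i : ZMod n)).2) % 2 = 0 ∨
      ((q (i : ZMod n)).1 + (q (i : ZMod n)).2) % 2 = 1 := fun i => Int.emod_two_eq_zero_or_one _
  have parS : ∀ i : ℕ, ((q ((i + 1 : ℕ) : ZMod n)).1 + (q ((i + 1 : ℕ) : ZMod n)).2 +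
      (q (i : ZMod n)).1 + (q (i : ZMod n)).2) % 2 = 1 := by
    intro i
    have := par_step hq (i : ZMod n)
    push_cast
    exact this
  have uA1 : ∀ i : ℕ, i ≤ a → ((q (i : ZMod n)).1 + (q (i : ZMod n)).2) % 2 = 0 → U i = 1 := by
    intro i hi hp
    have : C (q (i : ZMod n)) := ⟨_, ⟨i, Nat.zero_le _, hi, rfl, hp⟩, Cn.refl _ _⟩
    simp only [hU, u, hp, this, if_true]
  have uA2 : ∀ i : ℕ, a ≤ i → i ≤ b → ((q (i : ZMod n)).1 + (q (i : ZMod n)).2) % 2 = 1 →
      U i = 1 := by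
    intro i hi hi' hp
    have : X (q (i : ZMod n)) := ⟨_, ⟨i, hi, hi', rfl, hp⟩, Cn.refl _ _⟩
    simp only [hU, u, hp, this, if_true]
    simp
  have uA3 : ∀ i : ℕ, b ≤ i → i ≤ c → ((q (i : ZMod n)).1 + (q (i : ZMod n)).2) % 2 = 0 →
      U i = 0 := by
    intro i hi hi' hp
    have : ¬ C (q (i : ZMod n)) := by
      rintro ⟨z, hz, h⟩
      exact h1 ⟨z, hz, _, ⟨i, hi, hi', rfl, hp⟩, h⟩
    simp only [hU, u, hp, this, if_true, if_false]
  have uA4 : ∀ i : ℕ, c ≤ i → i ≤ n → ((q (i : ZMod n)).1 + (q (i : ZMod n)).2) % 2 = 1 →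
      U i = 0 := by
    intro i hi hi' hp
    have : ¬ X (q (i : ZMod n)) := by
      rintro ⟨z, hz, h⟩
      exact h2 ⟨z, hz, _, ⟨i, hi, hi', rfl, hp⟩, h⟩
    simp only [hU, u, hp, this, if_false]
    simp
  -- first part of the boundary
  have hsum1 : ∀ j : ℕ, j ≤ b → ∑ i ∈ Finset.range j, U i * U (i + 1) = U 0 + U j + (j : ZMod 2) := by
    intro j
    induction j with
    | zero =>
      intro _
      rw [Finset.sum_range_zero]
      simp only [Nat.cast_zero, add_zero]
      rw [two_eq]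
    | succ j ih =>
      intro hj
      rw [Finset.sum_range_succ, ih (by omega)]
      have hone : U j = 1 ∨ U (j + 1) = 1 := by
        have h3 := parS j
        rcases par j with hp | hp
        · rcases Nat.lt_or_ge j a with hja | hja
          · exact Or.inl (uA1 j hja.le hp)
          · exact Or.inr (uA2 (j + 1) (by omega) hj (by omega))
        · rcases Nat.lt_or_ge j a with hja | hja
          · exact Or.inr (uA1 (j + 1) hja (by omega))
          · exact Or.inl (uA2 j hja (by omega) hp)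
      push_cast
      generalize U 0 = x
      rcases hone with h3 | h3 <;> rw [h3]
      · rw [one_mul]
        have : x + 1 + (j : ZMod 2) + U (j + 1) = x + U (j + 1) + (j + 1) := by ring
        exact this
      · rw [mul_one]
        have : x + U j + (j : ZMod 2) + U j = x + 1 + (j + 1) + (U j + U j) + (1 + 1) := by
          have h4 : (1 : ZMod 2) + 1 = 0 := by decide
          rw [two_eq (U j), h4]
          have : x + U j + (j : ZMod 2) + U j = x + j + (U j + U j) := by ring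
          rw [this, two_eq]
          have : x + 1 + ((j : ZMod 2) + 1) + 0 + 0 = x + j + (1 + 1) := by ring
          rw [this, h4]
        rw [this, two_eq (U j)]
        have h4 : (1 : ZMod 2) + 1 = 0 := by decide
        rw [h4]
        ring
  have hsum2 : ∀ j : ℕ, b ≤ j → j ≤ n → ∑ i ∈ Finset.range j, U i * U (i + 1) =
      ∑ i ∈ Finset.range b, U i * U (i + 1) := by
    intro j hj
    induction j, hj using Nat.le_induction with
    | base => intro _; rfl
    | succ j hj ih =>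
      intro hjn
      rw [Finset.sum_range_succ, ih (by omega)]
      have hzero : U j = 0 ∨ U (j + 1) = 0 := by
        have h3 := parS j
        rcases par j with hp | hp
        · rcases Nat.lt_or_ge j c with hjc | hjc
          · exact Or.inl (uA3 j hj hjc.le hp)
          · exact Or.inr (uA4 (j + 1) (by omega) hjn (by omega))
        · rcases Nat.lt_or_ge j c with hjc | hjc
          · exact Or.inr (uA3 (j + 1) (by omega) hjc (by omega))
          · exact Or.inl (uA4 j hjc (by omega) hp)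
      rcases hzero with h3 | h3 <;> rw [h3] <;> simp
  rw [hsum2 n (by omega) le_rfl, hsum1 b le_rfl] at hst
  -- parity along the polygon
  have hpar : ∀ j : ℕ, ((q (j : ZMod n)).1 + (q (j : ZMod n)).2) % 2 =
      ((q ((0 : ℕ) : ZMod n)).1 + (q ((0 : ℕ) : ZMod n)).2 + j) % 2 := by
    intro j
    induction j with
    | zero => simp
    | succ j ih =>
      have := parS j
      push_cast
      push_cast at this ih
      omega
  have hqn : q ((0 : ℕ) : ZMod n) = q ((n : ℕ) : ZMod n) := by simp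
  have hb := hpar b
  have e0 : U 0 = if ((q ((0 : ℕ) : ZMod n)).1 + (q ((0 : ℕ) : ZMod n)).2) % 2 = 0 then 1 else 0 := by
    rcases par 0 with hp | hp
    · rw [if_pos hp]
      exact uA1 0 (Nat.zero_le _) hp
    · rw [if_neg (by omega)]
      have h3 : U 0 = U n := by simp only [hU]; rw [hqn]
      rw [h3]
      refine uA4 n hcn le_rfl ?_
      rw [← hqn]
      exact hp
  have eb : U b = if ((q (b : ZMod n)).1 + (q (b : ZMod n)).2) % 2 = 0 then 0 else 1 := by
    rcases par b with hp | hp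
    · rw [if_pos hp]
      exact uA3 b le_rfl hbc hp
    · rw [if_neg (by omega)]
      exact uA2 b hab le_rfl hp
  rw [e0, eb] at hst
  have hbz : (b : ZMod 2) = if b % 2 = 0 then 0 else 1 := by
    rcases Nat.mod_two_eq_zero_or_one b with h | h
    · rw [if_pos h, ZMod.natCast_eq_zero_iff]
      omega
    · rw [if_neg (by omega)]
      have : ((b : ℕ) : ZMod 2) = ((b % 2 : ℕ) : ZMod 2) := by simp
      rw [this, h]
      rfl
  rw [hbz] at hst
  have h01 : (0 : ZMod 2) ≠ 1 := by decide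
  rcases par 0 with hp0 | hp0 <;> rcases Nat.mod_two_eq_zero_or_one b with hb2 | hb2
  · rw [if_pos hp0, if_pos (by omega), if_pos hb2] at hst
    exact h01 (by rw [hst]; ring)
  · rw [if_pos hp0, if_neg (by omega), if_neg (by omega)] at hst
    exact h01 (by rw [hst]; decide)
  · rw [if_neg (by omega), if_neg (by omega), if_pos hb2] at hst
    exact h01 (by rw [hst]; ring)
  · rw [if_neg (by omega), if_pos (by omega), if_neg (by omega)] at hst
    exact h01 (by rw [hst]; ring)

end Vale.Agent.P167.H531
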