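import Vale.Agent.P167.E2.Pol

/-!
# P167, block E4: cycles mod 2 of the square lattice and their potentials on the faces
-/

set_option linter.unusedSimpArgs false

namespace Vale.Agent.P167.H531

open Vale.Agent.P167.E6 Vale.Agent.P167.E2

/-- The boundary mod 2 of a chain of edges at the vertex `w`. -/
def bd (z : Sym2 (ℤ × ℤ) → ZMod 2) (w : ℤ × ℤ) : ZMod 2 :=
  z s(w, w + dir 0) + z s(w, w + dir 1) + z s(w, w + dir 2) + z s(w, w + dir 3)

/-- A single edge. -/
def sg (e e' : Sym2 (ℤ × ℤ)) : ZMod 2 := if e' = e then 1 else 0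

/-- The indicator of a vertex. -/
def iv (u w : ℤ × ℤ) : ZMod 2 := if w = u then 1 else 0

theorem bd_add (z z' : Sym2 (ℤ × ℤ) → ZMod 2) (w : ℤ × ℤ) :
    bd (fun e => z e + z' e) w = bd z w + bd z' w := by
  unfold bd; ring

theorem bd_zero (w : ℤ × ℤ) : bd (fun _ => 0) w = 0 := by
  unfold bd; ring

theorem edge_eq_iff (w u : ℤ × ℤ) (r s : Fin 4) :
    s(w, w + dir r) = s(u, u + dir s) ↔
      (w = u ∧ r = s) ∨ (w = u + dir s ∧ r = s + 2) := by
  rw [Sym2.eq_iff]
  constructor
  · rintro (⟨h1, h2⟩ | ⟨h1, h2⟩)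
    · subst h1
      exact Or.inl ⟨rfl, add_dir_inj h2⟩
    · refine Or.inr ⟨h1, ?_⟩
      subst h1
      have h3 : u + dir s + dir r = u + dir s + dir (s + 2) := by rw [h2, dir_add_two']
      exact add_dir_inj h3
  · rintro (⟨rfl, rfl⟩ | ⟨rfl, rfl⟩)
    · exact Or.inl ⟨rfl, rfl⟩
    · exact Or.inr ⟨rfl, dir_add_two' _ _⟩

theorem bd_sg (u : ℤ × ℤ) (s : Fin 4) (w : ℤ × ℤ) :
    bd (sg s(u, u + dir s)) w = iv u w + iv (u + dir s) w := by
  unfold bd sg iv
  simp only [edge_eq_iff]
  by_cases h1 : w = u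
  · have h2 : ¬ w = u + dir s := fun h => add_dir_ne u s (h ▸ h1.symm ▸ rfl)
    subst h1
    have h3 : ¬ w = w + dir s := fun h => add_dir_ne w s h.symm
    simp only [h3, true_and, false_and, or_false, if_true, if_false, add_zero]
    revert s
    intro s _ _
    fin_cases s <;> simp
  · by_cases h2 : w = u + dir s
    · simp only [h1, h2, true_and, false_and, false_or, if_true, if_false, zero_add]
      have h3 : ¬ u + dir s = u := add_dir_ne u s
      simp only [h3, false_and, false_or, if_false, zero_add]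
      clear h1 h2 h3
      fin_cases s <;> simp
    · simp only [h1, h2, false_and, or_false, if_false, add_zero]

theorem two_eq (x : ZMod 2) : x + x = 0 := CharTwo.add_self_eq_zero x

/-- The potential of a chain: number of vertical edges on the right of the face. -/
noncomputable def pot (N : ℤ) (z : Sym2 (ℤ × ℤ) → ZMod 2) (f : ℤ × ℤ) : ZMod 2 :=
  ∑ t ∈ Finset.Ioc f.1 N, z s((t, f.2), (t, f.2) + dir 1)

theorem pot_zero {N : ℤ} {z : Sym2 (ℤ × ℤ) → ZMod 2} {f : ℤ × ℤ} (h : N ≤ f.1) :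
    pot N z f = 0 := by
  unfold pot
  rw [Finset.Ioc_eq_empty (by omega)]
  rfl

theorem pot_left {N : ℤ} {z : Sym2 (ℤ × ℤ) → ZMod 2}
    (hN : ∀ (v : ℤ × ℤ) (r : Fin 4), N < v.1 → z s(v, v + dir r) = 0) (x y : ℤ) :
    pot N z (x - 1, y) = z s((x, y), (x, y) + dir 1) + pot N z (x, y) := by
  by_cases h : N < x
  · rw [pot_zero (show N ≤ x - 1 by omega), pot_zero (show N ≤ x by omega), hN _ _ h]
    rfl
  · unfold pot
    have : Finset.Ioc (x - 1) N = insert x (Finset.Ioc x N) := by
      ext t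
      simp only [Finset.mem_Ioc, Finset.mem_insert]
      omega
    simp only [this]
    rw [Finset.sum_insert (by simp)]

theorem pot_down {N : ℤ} {z : Sym2 (ℤ × ℤ) → ZMod 2}
    (hN : ∀ (v : ℤ × ℤ) (r : Fin 4), N < v.1 → z s(v, v + dir r) = 0)
    (hz : ∀ w, bd z w = 0) (x y : ℤ) :
    pot N z (x, y) + pot N z (x, y - 1) = z s((x, y), (x, y) + dir 0) := by
  -- induction on `N - x`
  have key : ∀ m : ℕ, ∀ x : ℤ, N - x < m →
      pot N z (x, y) + pot N z (x, y - 1) = z s((x, y), (x, y) + dir 0) := by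
    intro m
    induction m with
    | zero =>
      intro x hx
      rw [pot_zero (show N ≤ x by push_cast at hx; omega),
        pot_zero (show N ≤ x by push_cast at hx; omega),
        hN _ _ (show N < x by push_cast at hx; omega)]
      rfl
    | succ m ih =>
      intro x hx
      have h1 := ih (x + 1) (by push_cast at hx; omega)
      have h2 := pot_left hN (x + 1) y
      have h3 := pot_left hN (x + 1) (y - 1)
      rw [add_sub_cancel_right] at h2 h3
      rw [h2, h3]
      have h4 := hz (x + 1, y)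
      unfold bd at h4
      have e1 : s(((x + 1, y) : ℤ × ℤ), (x + 1, y) + dir 2) = s(((x, y) : ℤ × ℤ), (x, y) + dir 0) := by
        rw [edge_eq_iff]
        right
        refine ⟨?_, rfl⟩
        simp [dir0]
      have e2 : s(((x + 1, y) : ℤ × ℤ), (x + 1, y) + dir 3) =
          s(((x + 1, y - 1) : ℤ × ℤ), (x + 1, y - 1) + dir 1) := by
        rw [edge_eq_iff]
        right
        refine ⟨?_, rfl⟩
        simp [dir1]
      rw [e1, e2] at h4
      have h5 : z s(((x + 1, y) : ℤ × ℤ), (x + 1, y) + dir 1) + pot N z (x + 1, y) +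
          (z s(((x + 1, y - 1) : ℤ × ℤ), (x + 1, y - 1) + dir 1) + pot N z (x + 1, y - 1)) =
          z s(((x + 1, y) : ℤ × ℤ), (x + 1, y) + dir 1) +
          z s(((x + 1, y - 1) : ℤ × ℤ), (x + 1, y - 1) + dir 1) +
          (pot N z (x + 1, y) + pot N z (x + 1, y - 1)) := by ring
      rw [h5, h1]
      generalize z s(((x + 1, y) : ℤ × ℤ), (x + 1, y) + dir 1) = a at h4 ⊢
      generalize z s(((x + 1, y - 1) : ℤ × ℤ), (x + 1, y - 1) + dir 1) = b at h4 ⊢
      generalize z s(((x + 1, y) : ℤ × ℤ), (x + 1, y) + dir 0) = c at h4 ⊢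
      generalize z s(((x, y) : ℤ × ℤ), (x, y) + dir 0) = d at h4 ⊢
      clear h1 h2 h3 h5 ih
      revert a b c d
      decide
  exact key (N - x + 1).toNat x (by omega)

/-- **The potential of a cycle**: crossing an edge changes it by the value of the edge. -/
theorem pot_jump {N : ℤ} {z : Sym2 (ℤ × ℤ) → ZMod 2}
    (hN : ∀ (v : ℤ × ℤ) (r : Fin 4), N < v.1 → z s(v, v + dir r) = 0)
    (hz : ∀ w, bd z w = 0) (v : ℤ × ℤ) (r : Fin 4) :
    pot N z (face v r) + pot N z (face v (r - 1)) = z s(v, v + dir r) := by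
  obtain ⟨x, y⟩ := v
  have hd : ∀ x y : ℤ, pot N z (face (x, y) 0) + pot N z (face (x, y) 3) =
      z s((x, y), (x, y) + dir 0) := by
    intro x y
    rw [face0, face3]
    exact pot_down hN hz x y
  have hl : ∀ x y : ℤ, pot N z (face (x, y) 1) + pot N z (face (x, y) 0) =
      z s((x, y), (x, y) + dir 1) := by
    intro x y
    rw [face0, face1, pot_left hN x y, add_assoc, two_eq, add_zero]
  revert r
  refine forall4 ?_ ?_ ?_ ?_
  · exact hd x y
  · exact hl x y
  · rw [f4_2m]
    have h := hd (x - 1) y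
    have e1 : s(((x, y) : ℤ × ℤ), (x, y) + dir 2) = s(((x - 1, y) : ℤ × ℤ), (x - 1, y) + dir 0) := by
      rw [edge_eq_iff]
      right
      refine ⟨?_, rfl⟩
      simp [dir0]
    rw [e1, ← h, add_comm, face0, face1, face2, face3]
  · rw [f4_3m]
    have h := hl x (y - 1)
    have e1 : s(((x, y) : ℤ × ℤ), (x, y) + dir 3) = s(((x, y - 1) : ℤ × ℤ), (x, y - 1) + dir 1) := by
      rw [edge_eq_iff]
      right
      refine ⟨?_, rfl⟩
      simp [dir1]
    rw [e1, ← h, add_comm, face0, face1, face2, face3]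

end Vale.Agent.P167.H531
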