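import Vale.Agent.P167.H558.Stop2

/-!
# P167, block CONT-LAT: crossing probabilities of a domain and of an inner domain

Abstract form: `ι` = edges (squares), `V` = sites of one colour, `V'` = sites of the other colour,
`St i u v` (`St' i u v`): the edge `i` joins the sites `u`, `v` of the first (second) colour.
A quad is a finite set of edges `D` with four arcs `A1, A3 ⊆ V`, `A2, A4 ⊆ V'` for which the usual
dichotomy of planar duality holds.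
-/

namespace Vale.Agent.P167.H531

open Vale.Agent.P167.H558 MeasureTheory Set
open scoped ENNReal

variable {ι V V' : Type*}

/-- `u` and `v` are joined by a path with edges in `F`. -/
def Cn (St : ι → V → V → Prop) (F : Set ι) (u v : V) : Prop :=
  Relation.ReflTransGen (fun a b => ∃ i ∈ F, St i a b) u v

/-- `u` and `v` are joined by a path with edges in `F` and sites in `U`. -/
def CnIn (St : ι → V → V → Prop) (F : Set ι) (U : Set V) (u v : V) : Prop :=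
  u ∈ U ∧ Relation.ReflTransGen (fun a b => (∃ i ∈ F, St i a b) ∧ b ∈ U) u v

/-- There is a path with edges in `F` from `A` to `B`. -/
def Cr (St : ι → V → V → Prop) (F : Set ι) (A B : Set V) : Prop :=
  ∃ u ∈ A, ∃ v ∈ B, Cn St F u v

/-- The edge `i` joins exactly one unordered pair of sites. -/
structure IsSt (St : ι → V → V → Prop) : Prop where
  symm : ∀ i a b, St i a b → St i b a
  pair : ∀ i a b c d, St i a b → St i c d → (c = a ∧ d = b) ∨ (c = b ∧ d = a)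

/-- A quad: primal crossing from `A1` to `A3` or dual crossing from `A2` to `A4`, never both. -/
structure IsQuad (St : ι → V → V → Prop) (St' : ι → V' → V' → Prop) (D : Finset ι)
    (A1 A3 : Set V) (A2 A4 : Set V') : Prop where
  dich : ∀ F : Set ι, Cr St (F ∩ D) A1 A3 ∨ Cr St' (Fᶜ ∩ D) A2 A4
  excl : ∀ F : Set ι, Cr St (F ∩ D) A1 A3 → ¬ Cr St' (Fᶜ ∩ D) A2 A4

variable {St : ι → V → V → Prop} {St' : ι → V' → V' → Prop} {D P : Finset ι}
  {A1 A3 B1 B3 : Set V} {A2 A4 B2 B4 : Set V'}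

theorem Cn.refl (F : Set ι) (u : V) : Cn St F u u := Relation.ReflTransGen.refl

theorem Cn.trans {F : Set ι} {u v w : V} (h : Cn St F u v) (h' : Cn St F v w) : Cn St F u w :=
  Relation.ReflTransGen.trans h h'

theorem Cn.mono {F F' : Set ι} (hF : F ⊆ F') {u v : V} (h : Cn St F u v) : Cn St F' u v :=
  Relation.ReflTransGen.mono (fun _ _ ⟨i, hi, hs⟩ => ⟨i, hF hi, hs⟩) _ _ h

theorem Cn.symm (hS : IsSt St) {F : Set ι} {u v : V} (h : Cn St F u v) : Cn St F v u := by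
  induction h with
  | refl => exact Cn.refl F u
  | tail _ hxy ih =>
    obtain ⟨i, hi, hs⟩ := hxy
    exact (Relation.ReflTransGen.single ⟨i, hi, hS.symm i _ _ hs⟩).trans ih

theorem Cr.mono {F F' : Set ι} (hF : F ⊆ F') {A B : Set V} (h : Cr St F A B) : Cr St F' A B := by
  obtain ⟨u, hu, v, hv, h⟩ := h
  exact ⟨u, hu, v, hv, h.mono hF⟩

/-- Duality and a quarter turn: the quad with the colours exchanged. -/
theorem IsQuad.dual (h : IsQuad St St' D A1 A3 A2 A4) : IsQuad St' St D A2 A4 A1 A3 where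
  dich F := by
    have := h.dich Fᶜ
    rw [compl_compl] at this
    exact this.symm
  excl F h1 h2 := by
    have := h.excl Fᶜ h2
    rw [compl_compl] at this
    exact this h1

theorem IsQuad.flip (hS : IsSt St) (hS' : IsSt St') (h : IsQuad St St' D A1 A3 A2 A4) :
    IsQuad St St' D A3 A1 A4 A2 where
  dich F := by
    rcases h.dich F with ⟨u, hu, v, hv, h1⟩ | ⟨u, hu, v, hv, h1⟩
    · exact Or.inl ⟨v, hv, u, hu, h1.symm hS⟩
    · exact Or.inr ⟨v, hv, u, hu, h1.symm hS'⟩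
  excl F h1 h2 := by
    obtain ⟨u, hu, v, hv, h1⟩ := h1
    obtain ⟨u', hu', v', hv', h2⟩ := h2
    exact h.excl F ⟨v, hv, u, hu, h1.symm hS⟩ ⟨v', hv', u', hu', h2.symm hS'⟩

/-- A path either avoids `Q` or has a last edge in `Q`. -/
theorem Cn.last {F Q : Set ι} {u w : V} (h : Cn St F u w) :
    Cn St (F \ Q) u w ∨ ∃ i ∈ Q, i ∈ F ∧ ∃ a b, St i a b ∧ Cn St (F \ Q) b w := by
  induction h using Relation.ReflTransGen.head_induction_on with
  | refl => exact Or.inl (Cn.refl _ _)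
  | @head a b hab _ ih =>
    rcases ih with h1 | h1
    · obtain ⟨i, hi, hs⟩ := hab
      by_cases hQ : i ∈ Q
      · exact Or.inr ⟨i, hQ, hi, a, b, hs, h1⟩
      · exact Or.inl ((Relation.ReflTransGen.single ⟨i, ⟨hi, hQ⟩, hs⟩).trans h1)
    · exact Or.inr h1

/-- A path which does not stay in `U` leaves `U`. -/
theorem Cn.exit {F F' : Set ι} (hF : F ⊆ F') {U : Set V} {u w : V} (h : Cn St F u w)
    (hn : ¬ CnIn St F' U u w) : ∃ r, r ∉ U ∧ Cn St F u r := by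
  by_contra hcon
  push Not at hcon
  apply hn
  refine ⟨by_contra fun hu => hcon u hu (Cn.refl _ _), ?_⟩
  clear hn
  induction h with
  | refl => exact Relation.ReflTransGen.refl
  | @tail a b hab hb ih =>
    obtain ⟨i, hi, hs⟩ := hb
    refine ih.tail ⟨⟨i, hF hi, hs⟩, by_contra fun hbU => hcon b hbU ?_⟩
    exact Relation.ReflTransGen.tail hab ⟨i, hi, hs⟩

/-- A path either avoids `A` or contains a path from `A` to its end. -/
theorem Cn.avoid {F : Set ι} {A : Set V} {b c : V} (h : Cn St F b c) :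
    CnIn St F Aᶜ b c ∨ ∃ x ∈ A, Cn St F x c := by
  induction h using Relation.ReflTransGen.head_induction_on with
  | refl =>
    by_cases hc : c ∈ A
    · exact Or.inr ⟨c, hc, Cn.refl _ _⟩
    · exact Or.inl ⟨hc, Relation.ReflTransGen.refl⟩
  | @head a b hab hbc ih =>
    rcases ih with ⟨hb, hp⟩ | ih
    · by_cases ha : a ∈ A
      · exact Or.inr ⟨a, ha, Relation.ReflTransGen.head hab hbc⟩
      · exact Or.inl ⟨ha, Relation.ReflTransGen.head ⟨hab, hb⟩ hp⟩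
    · exact Or.inr ih

theorem CnIn.mono {F F' : Set ι} (hF : F ⊆ F') {U U' : Set V} (hU : U ⊆ U') {u v : V}
    (h : CnIn St F U u v) : CnIn St F' U' u v := by
  refine ⟨hU h.1, ?_⟩
  exact Relation.ReflTransGen.mono (fun _ _ ⟨⟨i, hi, hs⟩, hb⟩ => ⟨⟨i, hF hi, hs⟩, hU hb⟩) _ _ h.2

theorem CnIn.cn {F : Set ι} {U : Set V} {u v : V} (h : CnIn St F U u v) : Cn St F u v :=
  Relation.ReflTransGen.mono (fun _ _ h => h.1) _ _ h.2

/-- A path in `W` which does not stay in `U` leaves `U`. -/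
theorem CnIn.exit {F F' : Set ι} (hF : F ⊆ F') {U W : Set V} {u w : V} (h : CnIn St F W u w)
    (hn : ¬ CnIn St F' (U ∩ W) u w) : ∃ r, r ∉ U ∧ Cn St F u r := by
  by_contra hcon
  push Not at hcon
  apply hn
  obtain ⟨hu, h⟩ := h
  refine ⟨⟨by_contra fun hu => hcon u hu (Cn.refl _ _), hu⟩, ?_⟩
  clear hn
  induction h with
  | refl => exact Relation.ReflTransGen.refl
  | @tail a b hab hb ih =>
    obtain ⟨⟨i, hi, hs⟩, hbW⟩ := hb
    refine ih.tail ⟨⟨i, hF hi, hs⟩, by_contra fun hbU => hcon b hbU ?_, hbW⟩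
    exact Relation.ReflTransGen.tail (Relation.ReflTransGen.mono (fun _ _ h => h.1) _ _ hab)
      ⟨i, hi, hs⟩

/-- The edges of a past explored cluster: a site of the cluster of `B` through the edges `F` of
`P`. -/
def Cl (St : ι → V → V → Prop) (F : Set ι) (B : Set V) : Set V := {r | ∃ y ∈ B, Cn St F y r}

/-- Data of the collar between `D` and the inner domain `P`: for every site `y` of the arc `B1`
(`B3`) of `P` outside of the zone `Z1` (`Z3`) a path `q1 y` (`q3 y`) from the arc `A1` (`A3`) of `D`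
to `y` outside of `P`; for every site of `B2` a path `q2 y` from `A2` to `y` outside of `P` which
does not meet the former paths. -/
structure Collar0 (St : ι → V → V → Prop) (St' : ι → V' → V' → Prop) (D P : Finset ι)
    (A1 A3 : Set V) (A2 : Set V') (B1 B3 : Set V) (B2 : Set V') (Z1 Z3 : Set V)
    (q1 q3 : V → Set ι) (q2 : V' → Set ι) : Prop where
  sub : P ⊆ D
  q1_sub : ∀ y ∈ B1, y ∉ Z1 → q1 y ⊆ ↑D \ ↑P
  q3_sub : ∀ y ∈ B3, y ∉ Z3 → q3 y ⊆ ↑D \ ↑P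
  q2_sub : ∀ y ∈ B2, q2 y ⊆ ↑D \ ↑P
  q1_conn : ∀ y ∈ B1, y ∉ Z1 → ∃ a ∈ A1, Cn St (q1 y) a y
  q3_conn : ∀ y ∈ B3, y ∉ Z3 → ∃ a ∈ A3, Cn St (q3 y) y a
  q2_conn : ∀ y ∈ B2, ∃ a ∈ A2, Cn St' (q2 y) a y
  disj1 : ∀ y ∈ B1, y ∉ Z1 → ∀ y' ∈ B2, Disjoint (q1 y) (q2 y')
  disj3 : ∀ y ∈ B3, y ∉ Z3 → ∀ y' ∈ B2, Disjoint (q3 y) (q2 y')

/-- Moreover every dual path of `D` off `A2` from an end of an edge of `q1 y` (`q3 y`) to `A4` leaves
the set `U1 y` (`U3 y`). -/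
structure Collar (St : ι → V → V → Prop) (St' : ι → V' → V' → Prop) (D P : Finset ι)
    (A1 A3 : Set V) (A2 A4 : Set V') (B1 B3 : Set V) (B2 : Set V') (Z1 Z3 : Set V)
    (q1 q3 : V → Set ι) (q2 : V' → Set ι) (U1 U3 : V → Set V') : Prop extends
    Collar0 St St' D P A1 A3 A2 B1 B3 B2 Z1 Z3 q1 q3 q2 where
  sep1 : ∀ y ∈ B1, y ∉ Z1 → ∀ i ∈ q1 y, ∀ a b, St' i a b → ∀ c ∈ A4,
    ¬ CnIn St' ↑D (U1 y ∩ A2ᶜ) b c
  sep3 : ∀ y ∈ B3, y ∉ Z3 → ∀ i ∈ q3 y, ∀ a b, St' i a b → ∀ c ∈ A4,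
    ¬ CnIn St' ↑D (U3 y ∩ A2ᶜ) b c

section det

variable {Z1 Z3 : Set V} {q1 q3 : V → Set ι} {q2 : V' → Set ι} {U1 U3 : V → Set V'}

/-- The explored edges: the edges of `P` with an end in the dual cluster of `B2`. -/
def ES (St' : ι → V' → V' → Prop) (P : Finset ι) (B2 : Set V') (F : Set ι) : Set ι :=
  {i | i ∈ P ∧ ∃ r ∈ Cl St' (Fᶜ ∩ ↑P) B2, ∃ r', St' i r r'}

/-- The cluster only depends on the explored edges. -/
theorem cl_congr {F F' : Set ι} (h : ∀ i ∈ ES St' P B2 F, i ∈ F ↔ i ∈ F') :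
    Cl St' (Fᶜ ∩ ↑P) B2 ⊆ Cl St' (F'ᶜ ∩ ↑P) B2 := by
  rintro r ⟨y, hy, hr⟩
  refine ⟨y, hy, ?_⟩
  induction hr with
  | refl => exact Cn.refl _ _
  | @tail a b hab hb ih =>
    obtain ⟨i, ⟨hiF, hiP⟩, hs⟩ := hb
    have hi : i ∈ ES St' P B2 F := ⟨hiP, a, ⟨y, hy, hab⟩, b, hs⟩
    exact ih.tail ⟨i, ⟨fun h' => hiF ((h i hi).2 h'), hiP⟩, hs⟩

theorem cl_congr_rev {F F' : Set ι} (h : ∀ i ∈ ES St' P B2 F, i ∈ F ↔ i ∈ F') :
    Cl St' (F'ᶜ ∩ ↑P) B2 ⊆ Cl St' (Fᶜ ∩ ↑P) B2 := by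
  rintro r ⟨y, hy, hr⟩
  refine ⟨y, hy, ?_⟩
  induction hr with
  | refl => exact Cn.refl _ _
  | @tail a b hab hb ih =>
    obtain ⟨i, ⟨hiF, hiP⟩, hs⟩ := hb
    have hi : i ∈ ES St' P B2 F := ⟨hiP, a, ⟨y, hy, ih⟩, b, hs⟩
    exact ih.tail ⟨i, ⟨fun h' => hiF ((h i hi).1 h'), hiP⟩, hs⟩

theorem cl_eq {F F' : Set ι} (h : ∀ i ∈ ES St' P B2 F, i ∈ F ↔ i ∈ F') :
    Cl St' (F'ᶜ ∩ ↑P) B2 = Cl St' (Fᶜ ∩ ↑P) B2 :=
  Subset.antisymm (cl_congr_rev h) (cl_congr h)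

theorem es_eq {F F' : Set ι} (h : ∀ i ∈ ES St' P B2 F, i ∈ F ↔ i ∈ F') :
    ES St' P B2 F' = ES St' P B2 F := by
  unfold ES
  rw [cl_eq h]

/-- If there is no dual crossing of `P` then there is a primal crossing with explored edges. -/
theorem exists_explored (hP : IsQuad St St' P B1 B3 B2 B4) {F : Set ι}
    (h : ¬ Cr St' (Fᶜ ∩ ↑P) B2 B4) : Cr St (F ∩ ES St' P B2 F) B1 B3 := by
  rcases hP.dich (F ∩ ES St' P B2 F) with h1 | h1
  · exact h1.mono inter_subset_left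
  · exfalso
    obtain ⟨y, hy, v, hv, hp⟩ := h1
    apply h
    refine ⟨y, hy, v, hv, ?_⟩
    clear hv
    induction hp with
    | refl => exact Cn.refl _ _
    | @tail a b hab hb ih =>
      obtain ⟨i, ⟨hiF, hiP⟩, hs⟩ := hb
      have hi : i ∈ ES St' P B2 F := ⟨hiP, a, ⟨y, hy, ih⟩, b, hs⟩
      exact ih.tail ⟨i, ⟨fun h' => hiF ⟨h', hi⟩, hiP⟩, hs⟩

/-- The deterministic core: if `P` is crossed by explored edges between two good sites and `D` is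
not crossed then there is a fresh dual path from a collar path to `A4` which avoids `A2`. -/
theorem fresh_to (hS' : IsSt St') (hD : IsQuad St St' D A1 A3 A2 A4)
    (hc : Collar0 St St' D P A1 A3 A2 B1 B3 B2 Z1 Z3 q1 q3 q2) {F : Set ι}
    {y1 y3 : V} (h1 : y1 ∈ B1) (h1Z : y1 ∉ Z1) (h3 : y3 ∈ B3) (h3Z : y3 ∉ Z3)
    (hg : Cn St (F ∩ ES St' P B2 F) y1 y3) (hn : ¬ Cr St (F ∩ ↑D) A1 A3) :
    (∃ i ∈ q1 y1, ∃ a b, St' i a b ∧ ∃ c ∈ A4,
      CnIn St' (Fᶜ ∩ (↑D \ ES St' P B2 F)) A2ᶜ b c) ∨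
    (∃ i ∈ q3 y3, ∃ a b, St' i a b ∧ ∃ c ∈ A4,
      CnIn St' (Fᶜ ∩ (↑D \ ES St' P B2 F)) A2ᶜ b c) := by
  classical
  set S : Set ι := ES St' P B2 F with hSdef
  have hSP : S ⊆ ↑P := fun i hi => hi.1
  have hSD : S ⊆ ↑D := fun i hi => hc.sub hi.1
  -- the primal path through the collar
  set G : Set ι := (F ∩ S) ∪ q1 y1 ∪ q3 y3 with hG
  have hprim : Cr St (G ∩ ↑D) A1 A3 := by
    obtain ⟨a, ha, hqa⟩ := hc.q1_conn y1 h1 h1Z
    obtain ⟨b, hb, hqb⟩ := hc.q3_conn y3 h3 h3Z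
    refine ⟨a, ha, b, hb, ?_⟩
    refine (hqa.mono ?_).trans ((hg.mono ?_).trans (hqb.mono ?_))
    · exact fun i hi => ⟨Or.inl (Or.inr hi), (hc.q1_sub y1 h1 h1Z hi).1⟩
    · exact fun i hi => ⟨Or.inl (Or.inl hi), hSD hi.2⟩
    · exact fun i hi => ⟨Or.inr hi, (hc.q3_sub y3 h3 h3Z hi).1⟩
  have hno : ¬ Cr St' (Gᶜ ∩ ↑D) A2 A4 := hD.excl G hprim
  obtain ⟨a2, ha2, a4, ha4, hpi⟩ := (hD.dich F).resolve_left hn
  set Q : Set ι := q1 y1 ∪ q3 y3 with hQ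
  rcases hpi.last (Q := Q) with h | ⟨i, hiQ, hiF, a, b, hs, h⟩
  · exfalso
    apply hno
    refine ⟨a2, ha2, a4, ha4, h.mono ?_⟩
    rintro j ⟨⟨hjF, hjD⟩, hjQ⟩
    refine ⟨?_, hjD⟩
    rintro ((hj | hj) | hj)
    · exact hjF hj.1
    · exact hjQ (Or.inl hj)
    · exact hjQ (Or.inr hj)
  · -- the path after its last passage through the collar paths is fresh
    have hfresh : Cn St' (((Fᶜ ∩ ↑D) \ Q) \ S) b a4 := by
      rcases h.last (Q := S) with h' | ⟨j, hjS, ⟨⟨hjF, hjD⟩, hjQ⟩, r, r', hs', h'⟩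
      · exact h'
      · exfalso
        obtain ⟨hjP, r0, hr0, r0', hs0⟩ := hjS
        have hr' : r' ∈ Cl St' (Fᶜ ∩ ↑P) B2 := by
          obtain ⟨y, hy, hyr⟩ := hr0
          rcases hS'.pair j _ _ _ _ hs' hs0 with ⟨e1, -⟩ | ⟨e1, -⟩
          · rw [e1] at hyr
            exact ⟨y, hy, hyr.tail ⟨j, ⟨hjF, hjP⟩, hs'⟩⟩
          · rw [e1] at hyr
            exact ⟨y, hy, hyr⟩
        obtain ⟨y2, hy2, hy2r⟩ := hr'
        obtain ⟨a2', ha2', hq2⟩ := hc.q2_conn y2 hy2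
        apply hno
        refine ⟨a2', ha2', a4, ha4, (hq2.mono ?_).trans ((hy2r.mono ?_).trans (h'.mono ?_))⟩
        · intro k hk
          have hk' := hc.q2_sub y2 hy2 hk
          refine ⟨?_, hk'.1⟩
          rintro ((hj | hj) | hj)
          · exact hk'.2 (hSP hj.2)
          · exact (Set.disjoint_left.1 (hc.disj1 y1 h1 h1Z y2 hy2)) hj hk
          · exact (Set.disjoint_left.1 (hc.disj3 y3 h3 h3Z y2 hy2)) hj hk
        · rintro k ⟨hkF, hkP⟩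
          refine ⟨?_, hc.sub hkP⟩
          rintro ((hj | hj) | hj)
          · exact hkF hj.1
          · exact (hc.q1_sub y1 h1 h1Z hj).2 hkP
          · exact (hc.q3_sub y3 h3 h3Z hj).2 hkP
        · rintro k ⟨⟨⟨hkF, hkD⟩, hkQ⟩, -⟩
          refine ⟨?_, hkD⟩
          rintro ((hj | hj) | hj)
          · exact hkF hj.1
          · exact hkQ (Or.inl hj)
          · exact hkQ (Or.inr hj)
    have hsub : ((Fᶜ ∩ ↑D) \ Q) \ S ⊆ Fᶜ ∩ (↑D \ S) := fun k hk => ⟨hk.1.1.1, hk.1.1.2, hk.2⟩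
    have hav : CnIn St' (((Fᶜ ∩ ↑D) \ Q) \ S) A2ᶜ b a4 := by
      rcases hfresh.avoid (A := A2) with h1 | ⟨x, hx, h1⟩
      · exact h1
      · exfalso
        apply hno
        refine ⟨x, hx, a4, ha4, h1.mono ?_⟩
        rintro k ⟨⟨⟨hkF, hkD⟩, hkQ⟩, -⟩
        refine ⟨?_, hkD⟩
        rintro ((hj | hj) | hj)
        · exact hkF hj.1
        · exact hkQ (Or.inl hj)
        · exact hkQ (Or.inr hj)
    rcases hiQ with hi | hi
    · exact Or.inl ⟨i, hi, a, b, hs, a4, ha4, hav.mono hsub subset_rfl⟩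
    · exact Or.inr ⟨i, hi, a, b, hs, a4, ha4, hav.mono hsub subset_rfl⟩

/-- The same with arms which leave `U1 y1`, `U3 y3`. -/
theorem fresh_arm (hS' : IsSt St') (hD : IsQuad St St' D A1 A3 A2 A4)
    (hc : Collar St St' D P A1 A3 A2 A4 B1 B3 B2 Z1 Z3 q1 q3 q2 U1 U3) {F : Set ι}
    {y1 y3 : V} (h1 : y1 ∈ B1) (h1Z : y1 ∉ Z1) (h3 : y3 ∈ B3) (h3Z : y3 ∉ Z3)
    (hg : Cn St (F ∩ ES St' P B2 F) y1 y3) (hn : ¬ Cr St (F ∩ ↑D) A1 A3) :
    (∃ i ∈ q1 y1, ∃ a b, St' i a b ∧ ∃ r, r ∉ U1 y1 ∧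
      Cn St' (Fᶜ ∩ (↑D \ ES St' P B2 F)) b r) ∨
    (∃ i ∈ q3 y3, ∃ a b, St' i a b ∧ ∃ r, r ∉ U3 y3 ∧
      Cn St' (Fᶜ ∩ (↑D \ ES St' P B2 F)) b r) := by
  have hsub' : Fᶜ ∩ (↑D \ ES St' P B2 F) ⊆ (↑D : Set ι) := fun k hk => hk.2.1
  rcases fresh_to hS' hD hc.toCollar0 h1 h1Z h3 h3Z hg hn with
    ⟨i, hi, a, b, hs, a4, ha4, hp⟩ | ⟨i, hi, a, b, hs, a4, ha4, hp⟩
  · obtain ⟨r, hr, hbr⟩ := hp.exit hsub' (hc.sep1 y1 h1 h1Z i hi a b hs a4 ha4)
    exact Or.inl ⟨i, hi, a, b, hs, r, hr, hbr⟩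
  · obtain ⟨r, hr, hbr⟩ := hp.exit hsub' (hc.sep3 y3 h3 h3Z i hi a b hs a4 ha4)
    exact Or.inr ⟨i, hi, a, b, hs, r, hr, hbr⟩

end det

end Vale.Agent.P167.H531
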