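import Vale.Agent.P167.E2.Path
import Vale.Agent.P167.H531.Chain
import Vale.Agent.P167.H531.Quad

/-!
# P167, block E4: a lattice polygon with four arcs is a quad (exclusion)

The sites of the second colour are the enclosed faces and the outer sides of the edges of the
polygon.
-/

set_option linter.unusedSectionVars false

namespace Vale.Agent.P167.H531

open Vale.Agent.P167.E6 Vale.Agent.P167.E2

/-- The edges of the square lattice as edges between vertices. -/
def StE (e : Sym2 (ℤ × ℤ)) (u v : ℤ × ℤ) : Prop := e = s(u, v) ∧ ∃ r, v = u + dir r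

theorem isSt_E : IsSt StE where
  symm := by
    rintro e a _ ⟨rfl, r, rfl⟩
    exact ⟨Sym2.eq_swap, r + 2, (dir_add_two' r a).symm⟩
  pair := by
    rintro e a b c d ⟨rfl, -⟩ ⟨h, -⟩
    rcases Sym2.eq_iff.1 h with ⟨h1, h2⟩ | ⟨h1, h2⟩
    · exact Or.inl ⟨h1.symm, h2.symm⟩
    · exact Or.inr ⟨h2.symm, h1.symm⟩

variable {n : ℕ} {p : ZMod n → ℤ × ℤ} {S : Finset (ℤ × ℤ)}

/-- The edge of the polygon after `p i`. -/
def pe (p : ZMod n → ℤ × ℤ) (i : ZMod n) : Sym2 (ℤ × ℤ) := s(p i, p (i + 1))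

/-- The inner face at the edge of the polygon after `p i`. -/
noncomputable def fi (p : ZMod n → ℤ × ℤ) (i : ZMod n) : ℤ × ℤ := face (p i) (ro p i)

/-- The outer face at the edge of the polygon after `p i`. -/
noncomputable def fo' (p : ZMod n → ℤ × ℤ) (i : ZMod n) : ℤ × ℤ := face (p i) (ro p i - 1)

theorem pe_eq (hp : IsPolygon p) (i : ZMod n) : pe p i = s(p i, p i + dir (ro p i)) := by
  rw [pe, ro_spec hp]

theorem pe_inj (hp : IsPolygon p) {i j : ZMod n} (h : pe p i = pe p j) : i = j := by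
  rw [pe_eq hp, pe_eq hp, edge_eq_iff] at h
  rcases h with ⟨h, -⟩ | ⟨h1, h2⟩
  · exact hp.2.1 h
  · exfalso
    rw [← ro_spec hp] at h1
    have h3 : i = j + 1 := hp.2.1 h1
    have h4 : p (i + 1) = p j := by
      rw [ro_spec hp i, h2, h1, ro_spec hp j, dir_add_two']
    have h5 : i + 1 = j := hp.2.1 h4
    have h6 : (2 : ZMod n) = 0 := by linear_combination h5 - h3
    have h7 : ((2 : ℕ) : ZMod n) = 0 := by exact_mod_cast h6
    rw [ZMod.natCast_eq_zero_iff] at h7
    have := Nat.le_of_dvd (by norm_num) h7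
    have := hp.1
    omega

/-- The edges as edges between the enclosed faces and the outer sides of the polygon. -/
def StF (p : ZMod n → ℤ × ℤ) (S : Finset (ℤ × ℤ)) (e : Sym2 (ℤ × ℤ))
    (x y : (ℤ × ℤ) ⊕ ZMod n) : Prop :=
  (∃ v r, e = s(v, v + dir r) ∧ face v r ∈ S ∧ face v (r - 1) ∈ S ∧ x = Sum.inl (face v r) ∧
    y = Sum.inl (face v (r - 1))) ∨
  (∃ i, e = pe p i ∧ x = Sum.inl (fi p i) ∧ y = Sum.inr i) ∨
  (∃ i, e = pe p i ∧ x = Sum.inr i ∧ y = Sum.inl (fi p i))

theorem inner_ne_pe (hp : IsPolygon p) (hS : Encloses p S) {v : ℤ × ℤ} {r : Fin 4}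
    (h1 : face v r ∈ S) (h2 : face v (r - 1) ∈ S) (i : ZMod n) :
    s(v, v + dir r) ≠ pe p i := by
  intro h
  rw [pe_eq hp, edge_eq_iff] at h
  have ho := (enc_out hp hS (i := i)).2
  rcases h with ⟨rfl, rfl⟩ | ⟨rfl, rfl⟩
  · exact ho h2
  · rw [face_right] at h1
    exact ho h1

theorem isSt_F (hp : IsPolygon p) (hS : Encloses p S) : IsSt (StF p S) where
  symm := by
    rintro e x y (⟨v, r, rfl, h1, h2, rfl, rfl⟩ | ⟨i, rfl, rfl, rfl⟩ | ⟨i, rfl, rfl, rfl⟩)
    · refine Or.inl ⟨v + dir r, r + 2, ?_, ?_, ?_, ?_, ?_⟩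
      · rw [dir_add_two']
        exact Sym2.eq_swap
      · rwa [face_right]
      · have : r + 2 - 1 = r + 1 := by
          clear h1 h2
          revert r; decide
        rw [this, face_left]
        exact h1
      · rw [face_right]
      · have : r + 2 - 1 = r + 1 := by
          clear h1 h2
          revert r; decide
        rw [this, face_left]
    · exact Or.inr (Or.inr ⟨i, rfl, rfl, rfl⟩)
    · exact Or.inr (Or.inl ⟨i, rfl, rfl, rfl⟩)
  pair := by
    rintro e a b c d (⟨v, r, rfl, h1, h2, rfl, rfl⟩ | ⟨i, rfl, rfl, rfl⟩ | ⟨i, rfl, rfl, rfl⟩)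
      (⟨v', r', he, h1', h2', rfl, rfl⟩ | ⟨j, he, rfl, rfl⟩ | ⟨j, he, rfl, rfl⟩)
    · rw [edge_eq_iff] at he
      rcases he with ⟨rfl, rfl⟩ | ⟨rfl, rfl⟩
      · exact Or.inl ⟨rfl, rfl⟩
      · right
        have : r' + 2 - 1 = r' + 1 := by
          clear h1 h2 h1' h2'
          revert r'; decide
        rw [this, face_left, face_right]
        exact ⟨rfl, rfl⟩
    · exact absurd he (inner_ne_pe hp hS h1 h2 j)
    · exact absurd he (inner_ne_pe hp hS h1 h2 j)
    · exact absurd he.symm (inner_ne_pe hp hS h1' h2' i)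
    · obtain rfl := pe_inj hp he
      exact Or.inl ⟨rfl, rfl⟩
    · obtain rfl := pe_inj hp he
      exact Or.inr ⟨rfl, rfl⟩
    · exact absurd he.symm (inner_ne_pe hp hS h1' h2' i)
    · obtain rfl := pe_inj hp he
      exact Or.inr ⟨rfl, rfl⟩
    · obtain rfl := pe_inj hp he
      exact Or.inl ⟨rfl, rfl⟩

/-- The vertices `p a, …, p b`. -/
def arcV (p : ZMod n → ℤ × ℤ) (a b : ℕ) : Set (ℤ × ℤ) := {v | ∃ i : ℕ, a ≤ i ∧ i ≤ b ∧ v = p i}

/-- The outer sides of the edges `a, …, b - 1` of the polygon. -/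
def arcF (n : ℕ) (a b : ℕ) : Set ((ℤ × ℤ) ⊕ ZMod n) :=
  {x | ∃ i : ℕ, a ≤ i ∧ i < b ∧ x = Sum.inr (i : ZMod n)}

/-- The outer sides of the edges `-1, 0, …, l - 1` of the polygon. -/
def arcF0 (n : ℕ) (l : ℕ) : Set ((ℤ × ℤ) ⊕ ZMod n) :=
  {x | ∃ i : ℕ, i ≤ l ∧ x = Sum.inr ((i : ZMod n) - 1)}

open Classical in
/-- The edges of the quad: the edges of the domain without the edges of the polygon inside of the
arcs `k, …, n - 1` and `l, …, m`. -/
noncomputable def DE (p : ZMod n → ℤ × ℤ) (S : Finset (ℤ × ℤ)) (k l m : ℕ) :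
    Finset (Sym2 (ℤ × ℤ)) :=
  (edges S).filter fun e => ¬ ∃ i : ℕ, ((k ≤ i ∧ i + 1 < n) ∨ (l ≤ i ∧ i < m)) ∧ e = pe p i

theorem mem_DE {k l m : ℕ} {e : Sym2 (ℤ × ℤ)} : e ∈ DE p S k l m ↔ e ∈ edges S ∧
    ¬ ∃ i : ℕ, ((k ≤ i ∧ i + 1 < n) ∨ (l ≤ i ∧ i < m)) ∧ e = pe p i := by
  classical
  exact Finset.mem_filter

/-! ### Exclusion -/

theorem sg_ne {e e' : Sym2 (ℤ × ℤ)} (h : sg e e' ≠ 0) : e' = e := by
  by_contra hc
  exact h (if_neg hc)

/-- A path gives a chain. -/
theorem chain_of_cn {G : Set (Sym2 (ℤ × ℤ))} {u v : ℤ × ℤ} (h : Cn StE G u v) :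
    ∃ z : Sym2 (ℤ × ℤ) → ZMod 2, (∀ e, z e ≠ 0 → e ∈ G) ∧ ∀ w, bd z w = iv u w + iv v w := by
  induction h with
  | refl => exact ⟨fun _ => 0, fun e h => absurd rfl h, fun w => by rw [bd_zero, two_eq]⟩
  | @tail b c _ hbc ih =>
    obtain ⟨z, hz, hb⟩ := ih
    obtain ⟨e, he, rfl, r, rfl⟩ := hbc
    refine ⟨fun e' => z e' + sg s(b, b + dir r) e', ?_, ?_⟩
    · intro e' he'
      by_cases h1 : z e' = 0
      · simp only [h1, zero_add] at he'
        rw [sg_ne he']
        exact he
      · exact hz e' h1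
    · intro w
      rw [bd_add, hb, bd_sg]
      have : iv u w + iv b w + (iv b w + iv (b + dir r) w) =
          iv u w + iv (b + dir r) w + (iv b w + iv b w) := by ring
      rw [this, two_eq, add_zero]

/-- The chain of the arc from `p a` to `p b`. -/
noncomputable def zarc (p : ZMod n → ℤ × ℤ) (a b : ℕ) (e : Sym2 (ℤ × ℤ)) : ZMod 2 :=
  ∑ t ∈ Finset.Ico a b, sg (pe p t) e

theorem zarc_ne {a b : ℕ} {e : Sym2 (ℤ × ℤ)} (h : zarc p a b e ≠ 0) :
    ∃ t : ℕ, a ≤ t ∧ t < b ∧ e = pe p t := by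
  obtain ⟨t, ht, h1⟩ := Finset.exists_ne_zero_of_sum_ne_zero h
  rw [Finset.mem_Ico] at ht
  exact ⟨t, ht.1, ht.2, sg_ne h1⟩

theorem bd_zarc (hp : IsPolygon p) {a b : ℕ} (hab : a ≤ b) (w : ℤ × ℤ) :
    bd (zarc p a b) w = iv (p a) w + iv (p b) w := by
  induction b, hab using Nat.le_induction with
  | base =>
    have : zarc p a a = fun _ => 0 := by
      funext e
      simp [zarc]
    rw [this, bd_zero, two_eq]
  | succ b hab ih =>
    have : zarc p a (b + 1) = fun e => zarc p a b e + sg (pe p b) e := by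
      funext e
      rw [zarc, Finset.sum_Ico_succ_top hab]
      rfl
    rw [this, bd_add, ih, pe_eq hp, bd_sg, ← ro_spec hp]
    push_cast
    have : iv (p a) w + iv (p b) w + (iv (p b) w + iv (p (b + 1)) w) =
        iv (p a) w + iv (p (b + 1)) w + (iv (p b) w + iv (p b) w) := by ring
    rw [this, two_eq, add_zero]

theorem zarc_pe (hp : IsPolygon p) {a b s : ℕ} (hb : b ≤ n) (hs : s < n) :
    zarc p a b (pe p s) = if a ≤ s ∧ s < b then 1 else 0 := by
  have hn : n ≠ 0 := by omega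
  have h1 : ∀ t ∈ Finset.Ico a b, sg (pe p t) (pe p s) = if s = t then (1 : ZMod 2) else 0 := by
    intro t ht
    rw [Finset.mem_Ico] at ht
    unfold sg
    by_cases h : s = t
    · subst h
      simp
    · rw [if_neg h, if_neg]
      intro h2
      exact h (cast_inj hn hs (by omega) (pe_inj hp h2))
  rw [zarc, Finset.sum_congr rfl h1, Finset.sum_ite_eq]
  simp [Finset.mem_Ico]

section

variable (hp : IsPolygon p) (hS : Encloses p S)
include hp hS

theorem pe_mem (i : ZMod n) : pe p i ∈ edges S := p_edge hp hS i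

theorem fi_mem (i : ZMod n) : fi p i ∈ S := (enc_out hp hS).1

theorem fo_not_mem (i : ZMod n) : fo' p i ∉ S := (enc_out hp hS).2

/-- The next outer face around the vertex `p (i + 1)`. -/
theorem fo_eq (i : ZMod n) : fo' p i = face (p (i + 1)) (ri p (i + 1)) := by
  rw [fo', ri, add_sub_cancel_right, ro_spec hp i, face_right]

/-- A function on the faces which does not jump outside of the domain has the same value on all
outer faces at the polygon. -/
theorem ext_const {h : ℤ × ℤ → ZMod 2}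
    (hj : ∀ (v : ℤ × ℤ) (r : Fin 4), s(v, v + dir r) ∉ edges S → h (face v r) = h (face v (r - 1)))
    (i j : ZMod n) : h (fo' p i) = h (fo' p j) := by
  have hn : NeZero n := ⟨by have := hp.1; omega⟩
  -- around one vertex
  have key : ∀ i : ZMod n, ∀ t : ℕ, t < (ro p i - ri p i).val →
      h (face (p i) (ri p i + Fin.ofNat 4 t)) = h (face (p i) (ri p i)) := by
    intro i t
    induction t with
    | zero =>
      intro _
      have : ri p i + Fin.ofNat 4 0 = ri p i := by
        generalize ri p i = r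
        revert r
        decide
      rw [this]
    | succ t ih =>
      intro ht
      obtain ⟨h1, h2⟩ := val_aux (ro p i) (ri p i) t (by omega) ht
      have h3 := (ext_iff hp hS).2 h1
      have h4 := (ext_iff hp hS).2 h2
      have h5 : s(p i, p i + dir (ri p i + Fin.ofNat 4 t + 1)) ∉ edges S := by
        rw [mem_edges, fin4_2]
        tauto
      have h6 := hj _ _ h5
      rw [fin4_2] at h6
      have h7 : t < 4 := by omega
      have : ri p i + Fin.ofNat 4 t + 1 = ri p i + Fin.ofNat 4 (t + 1) := by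
        clear h1 h2 h3 h4 h5 h6 ht ih
        generalize ri p i = r
        interval_cases t <;> revert r <;> decide
      rw [← this, h6]
      exact ih (by omega)
  have step : ∀ i : ZMod n, h (fo' p (i + 1)) = h (fo' p i) := by
    intro i
    have h0 : ro p (i + 1) ≠ ri p (i + 1) := (ri_ne_ro hp hS).symm
    have h1 : 0 < (ro p (i + 1) - ri p (i + 1)).val := by
      rw [Nat.pos_iff_ne_zero]
      intro h
      exact h0 (sub_eq_zero.1 (Fin.ext h))
    have h2 := key (i + 1) _ (show (ro p (i + 1) - ri p (i + 1)).val - 1 <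
      (ro p (i + 1) - ri p (i + 1)).val by omega)
    rw [cast_aux _ _ h0] at h2
    rw [fo_eq hp hS i]
    exact h2
  have all : ∀ t : ℕ, h (fo' p (t : ZMod n)) = h (fo' p 0) := by
    intro t
    induction t with
    | zero => simp
    | succ t ih =>
      rw [← ih]
      push_cast
      exact step _
  have e : ∀ i : ZMod n, h (fo' p i) = h (fo' p 0) := by
    intro i
    have := all i.val
    rwa [ZMod.natCast_zmod_val] at this
  rw [e i, e j]

theorem quad_excl {k l m : ℕ} (hmk : m < k) (hkn : k < n) {F : Set (Sym2 (ℤ × ℤ))}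
    (h1 : Cr StE (F ∩ ↑(DE p S k l m)) (arcV p k (n - 1)) (arcV p l m))
    (h2 : Cr (StF p S) (Fᶜ ∩ ↑(DE p S k l m)) (arcF0 n l) (arcF n m k)) : False := by
  classical
  have hn : NeZero n := ⟨by omega⟩
  obtain ⟨_, ⟨i, hik, hin, rfl⟩, _, ⟨j, hlj, hjm, rfl⟩, hcn⟩ := h1
  obtain ⟨z0, hz0, hb0⟩ := chain_of_cn hcn
  set z : Sym2 (ℤ × ℤ) → ZMod 2 := fun e => z0 e + zarc p j i e with hz
  have hsupp : ∀ e, e ∉ edges S → z e = 0 := by
    intro e he
    have h1 : z0 e = 0 := by
      by_contra hc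
      exact he (mem_DE.1 (hz0 e hc).2).1
    have h2 : zarc p j i e = 0 := by
      by_contra hc
      obtain ⟨t, -, -, rfl⟩ := zarc_ne hc
      exact he (pe_mem hp hS _)
    show z0 e + zarc p j i e = 0
    rw [h1, h2, add_zero]
  have hbd : ∀ w, bd z w = 0 := by
    intro w
    rw [hz, bd_add, hb0, bd_zarc hp (by omega)]
    have : iv (p i) w + iv (p j) w + (iv (p j) w + iv (p i) w) =
        (iv (p i) w + iv (p i) w) + (iv (p j) w + iv (p j) w) := by ring
    rw [this, two_eq, two_eq, add_zero]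
  obtain ⟨N, hN⟩ : ∃ N : ℤ, ∀ f ∈ S, f.1 < N := by
    obtain ⟨M, hM⟩ := (S.image Prod.fst).exists_le
    exact ⟨M + 1, fun f hf => Int.lt_add_one_of_le (hM f.1 (Finset.mem_image_of_mem _ hf))⟩
  have hfar : ∀ (v : ℤ × ℤ) (r : Fin 4), N < v.1 → z s(v, v + dir r) = 0 := by
    intro v r hv
    apply hsupp
    rw [mem_edges]
    have hx : ∀ r : Fin 4, face v r ∉ S := by
      refine forall4 ?_ ?_ ?_ ?_ <;> intro h <;> have := hN _ h
      · rw [face0] at this; simp only at this; omega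
      · rw [face1] at this; simp only at this; omega
      · rw [face2] at this; simp only at this; omega
      · rw [face3] at this; simp only at this; omega
    rintro (h | h)
    · exact hx _ h
    · exact hx _ h
  have hjump := pot_jump hfar hbd
  have hconst : ∀ i' : ZMod n, pot N z (fo' p i') = pot N z (fo' p 0) := by
    intro i'
    refine ext_const hp hS ?_ i' 0
    intro v r he
    have h := hjump v r
    rw [hsupp _ he] at h
    exact CharTwo.add_eq_zero.1 h
  -- the function on the dual sites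
  let H : (ℤ × ℤ) ⊕ ZMod n → ZMod 2 := Sum.elim (pot N z) fun t =>
    pot N z (fo' p 0) + if m ≤ t.val ∧ t.val < k then 1 else 0
  have hpe : ∀ t : ZMod n, pe p t ∈ Fᶜ ∩ (↑(DE p S k l m) : Set (Sym2 (ℤ × ℤ))) →
      H (Sum.inl (fi p t)) = H (Sum.inr t) := by
    rintro t ⟨hF, hD⟩
    have ht : t.val < n := ZMod.val_lt t
    have hc : ((t.val : ℕ) : ZMod n) = t := ZMod.natCast_zmod_val t
    have h1 : z0 (pe p t) = 0 := by
      by_contra hcon
      exact hF (hz0 _ hcon).1
    have h2 := zarc_pe hp (a := j) (b := i) (s := t.val) (by omega) ht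
    rw [hc] at h2
    have h3 := (mem_DE.1 (Finset.mem_coe.1 hD)).2
    have h4 : (j ≤ t.val ∧ t.val < i) ↔ (m ≤ t.val ∧ t.val < k) := by
      constructor
      · rintro ⟨h5, h6⟩
        refine ⟨?_, ?_⟩
        · by_contra hcon
          exact h3 ⟨t.val, Or.inr ⟨by omega, by omega⟩, by rw [hc]⟩
        · by_contra hcon
          exact h3 ⟨t.val, Or.inl ⟨by omega, by omega⟩, by rw [hc]⟩
      · rintro ⟨h5, h6⟩
        exact ⟨by omega, by omega⟩
    have h5 := hjump (p t) (ro p t)
    rw [← pe_eq hp] at h5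
    have h6 : z (pe p t) = if m ≤ t.val ∧ t.val < k then 1 else 0 := by
      show z0 (pe p t) + zarc p j i (pe p t) = _
      rw [h1, h2, zero_add]
      simp only [h4]
    rw [h6] at h5
    show pot N z (fi p t) = pot N z (fo' p 0) + if m ≤ t.val ∧ t.val < k then 1 else 0
    rw [← h5, ← hconst t]
    show pot N z (fi p t) = pot N z (fo' p t) + (pot N z (fi p t) + pot N z (fo' p t))
    have : pot N z (fo' p t) + (pot N z (fi p t) + pot N z (fo' p t)) =
        pot N z (fi p t) + (pot N z (fo' p t) + pot N z (fo' p t)) := by ring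
    rw [this, two_eq, add_zero]
  have hstep : ∀ x y e, e ∈ Fᶜ ∩ (↑(DE p S k l m) : Set (Sym2 (ℤ × ℤ))) → StF p S e x y →
      H x = H y := by
    rintro x y e he (⟨v, r, rfl, h1, h2, rfl, rfl⟩ | ⟨t, rfl, rfl, rfl⟩ | ⟨t, rfl, rfl, rfl⟩)
    · have h3 : z s(v, v + dir r) = 0 := by
        have h4 : z0 s(v, v + dir r) = 0 := by
          by_contra hcon
          exact he.1 (hz0 _ hcon).1
        have h5 : zarc p j i s(v, v + dir r) = 0 := by
          by_contra hcon
          obtain ⟨t, -, -, ht⟩ := zarc_ne hcon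
          exact inner_ne_pe hp hS h1 h2 _ ht
        show z0 _ + zarc p j i _ = 0
        rw [h4, h5, add_zero]
      have h6 := hjump v r
      rw [h3] at h6
      exact CharTwo.add_eq_zero.1 h6
    · exact hpe t he
    · exact (hpe t he).symm
  obtain ⟨x, ⟨a, ha, rfl⟩, y, ⟨b, hb1, hb2, rfl⟩, hc⟩ := h2
  have hH : ∀ y, Cn (StF p S) (Fᶜ ∩ ↑(DE p S k l m)) (Sum.inr ((a : ZMod n) - 1)) y →
      H (Sum.inr ((a : ZMod n) - 1)) = H y := by
    intro y hy
    induction hy with
    | refl => rfl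
    | tail _ hbc ih =>
      obtain ⟨e, he, hs⟩ := hbc
      exact ih.trans (hstep _ _ e he hs)
  have h3 := hH _ hc
  have h4 : ¬ (m ≤ ((a : ZMod n) - 1).val ∧ ((a : ZMod n) - 1).val < k) := by
    rcases Nat.eq_zero_or_pos a with h0 | h0
    · subst h0
      have : ((0 : ℕ) : ZMod n) - 1 = ((n - 1 : ℕ) : ZMod n) := by
        rw [Nat.cast_sub (by omega)]
        simp
      rw [this, ZMod.val_natCast_of_lt (by omega)]
      omega
    · have : ((a : ℕ) : ZMod n) - 1 = ((a - 1 : ℕ) : ZMod n) := by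
        rw [Nat.cast_sub (by omega)]
        simp
      rw [this, ZMod.val_natCast_of_lt (by omega)]
      omega
  have h5 : m ≤ (b : ZMod n).val ∧ (b : ZMod n).val < k := by
    rw [ZMod.val_natCast_of_lt (by omega)]
    exact ⟨hb1, hb2⟩
  have h6 : pot N z (fo' p 0) + (if m ≤ ((a : ZMod n) - 1).val ∧ ((a : ZMod n) - 1).val < k
      then 1 else 0) = pot N z (fo' p 0) + (if m ≤ (b : ZMod n).val ∧ (b : ZMod n).val < k
      then 1 else 0) := h3
  rw [if_neg h4, if_pos h5] at h6
  have h7 := add_left_cancel h6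
  exact absurd h7 (by decide)

end

end Vale.Agent.P167.H531
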