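import Vale.Agent.P167.Fjord.Geo
import Vale.Agent.P167.H531.PosDefs

/-!
# P167, CONT-ASM: the squares which were not read are disjoint from the path

Unit mesh. `Bq v`, `Bo v`: the closed and the open square `v` (diamond of the edge `ed v`).
`free_open`: the path does not meet the open square of an edge which was not read; `free_site`: the
path does not meet the sites; `star`: the closed square of an edge which was not read is star shaped
in the domain minus the path.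
-/

set_option linter.unusedSectionVars false

namespace Vale.Agent.P167.H531

open Set Vale.Agent.P167 Vale.Agent.P167.E6 Vale.Agent.P167.E2
open Vale.Agent.P167.Fjord
open Vale.Agent.P167.H161 (zp zp_re zp_im)

variable {n : ℕ} {p : ZMod n → ℤ × ℤ} {S : Finset (ℤ × ℤ)} {k : ℕ} {A : Finset (Sym2 (ℤ × ℤ))}

/-- The closed square `v`. -/
def Bq (v : ℤ × ℤ) : Set ℂ :=
  {z | (v.1 : ℝ) ≤ z.re - z.im ∧ z.re - z.im ≤ v.1 + 1 ∧ (v.2 : ℝ) ≤ z.re + z.im ∧
    z.re + z.im ≤ v.2 + 1}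

/-- The open square `v`. -/
def Bo (v : ℤ × ℤ) : Set ℂ :=
  {z | (v.1 : ℝ) < z.re - z.im ∧ z.re - z.im < v.1 + 1 ∧ (v.2 : ℝ) < z.re + z.im ∧
    z.re + z.im < v.2 + 1}

theorem bq_bo {v v' : ℤ × ℤ} {z : ℂ} (h : z ∈ Bq v) (h' : z ∈ Bo v') : v = v' := by
  obtain ⟨h1, h2, h3, h4⟩ := h
  obtain ⟨g1, g2, g3, g4⟩ := h'
  have a1 : v'.1 < v.1 + 1 := by
    have : (v'.1 : ℝ) < ((v.1 + 1 : ℤ) : ℝ) := by push_cast; linarith
    exact_mod_cast this
  have a2 : v.1 < v'.1 + 1 := by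
    have : (v.1 : ℝ) < ((v'.1 + 1 : ℤ) : ℝ) := by push_cast; linarith
    exact_mod_cast this
  have a3 : v'.2 < v.2 + 1 := by
    have : (v'.2 : ℝ) < ((v.2 + 1 : ℤ) : ℝ) := by push_cast; linarith
    exact_mod_cast this
  have a4 : v.2 < v'.2 + 1 := by
    have : (v.2 : ℝ) < ((v'.2 + 1 : ℤ) : ℝ) := by push_cast; linarith
    exact_mod_cast this
  exact Prod.ext (by omega) (by omega)

theorem sq_dir (w : ℤ × ℤ) (r : Fin 4) : H192.sq s(w, w + dir r) = face (H192.ro w) r := by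
  rw [H192.sq_mk]
  rcases H192.fin4_cases r with rfl | rfl | rfl | rfl
  · rw [face0]; simp only [H192.ro, dir0, Prod.fst_add, Prod.snd_add, Prod.mk.injEq]; omega
  · rw [face1]; simp only [H192.ro, dir1, Prod.fst_add, Prod.snd_add, Prod.mk.injEq]; omega
  · rw [face2]; simp only [H192.ro, dir2, Prod.fst_add, Prod.snd_add, Prod.mk.injEq]; omega
  · rw [face3]; simp only [H192.ro, dir3, Prod.fst_add, Prod.snd_add, Prod.mk.injEq]; omega

theorem run_rot_adv (i : ℕ) : run p k A (i + 1) = rot (run p k A i) ∨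
    run p k A (i + 1) = adv (run p k A i) := by
  rw [run_succ]
  by_cases h : ahead (run p k A i) ∈ wiredOpen p k A
  · exact Or.inr (next_open h)
  · exact Or.inl (next_closed h)

/-- The points of the path up to the time `τ + 1`. -/
theorem lin_cases {τ : ℕ} (hτ : τ ≤ len p k A) {t : ℝ} (h0 : 0 ≤ t) (h1 : t ≤ τ + 1) :
    (∃ θ : ℝ, 1 / 4 ≤ θ ∧ θ ≤ 3 / 8 ∧ lin (xv p k A) t = cpt θ (cs p)) ∨
      ∃ i < τ, lin (xv p k A) t ∈ Lseg (run p k A i) (run p k A (i + 1)) := by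
  rcases le_or_gt t 1 with h | h
  · left
    exact ⟨3 / 8 - t / 8, by linarith, by linarith, lin_first h⟩
  · right
    set m := ⌊t⌋₊ with hm
    have h3 := Nat.floor_le h0
    have h4 := Nat.lt_floor_add_one t
    rw [← hm] at h3 h4
    have hm1 : 1 ≤ m := Nat.le_floor (by push_cast; exact h.le)
    clear_value m
    -- `m ≤ τ + 1`
    have hmτ : m ≤ τ + 1 := by
      have : (m : ℝ) ≤ ((τ + 1 : ℕ) : ℝ) := by push_cast; linarith
      exact_mod_cast this
    rcases hmτ.lt_or_eq with hlt | heq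
    · obtain ⟨i, rfl⟩ : ∃ i, m = i + 1 := ⟨m - 1, by omega⟩
      refine ⟨i, by omega, ?_⟩
      rw [lin_eq _ (i + 1) (Or.inl h3) h4.le, xv_mid (by omega), xv_mid (by omega)]
      rw [Lseg, segment_eq_image']
      refine ⟨t - (i + 1 : ℕ), ⟨by linarith, by linarith⟩, ?_⟩
      simp only [Complex.real_smul]
    · -- `t = τ + 1`
      have ht : t = ((τ + 1 : ℕ) : ℝ) := by
        rw [heq] at h3
        push_cast at h3 ⊢
        exact le_antisymm h1 h3
      have hτ0 : 0 < τ := by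
        by_contra hc
        have : τ = 0 := by omega
        rw [ht, this] at h
        norm_num at h
      obtain ⟨i, rfl⟩ : ∃ i, τ = i + 1 := ⟨τ - 1, by omega⟩
      refine ⟨i, by omega, ?_⟩
      have e : lin (xv p k A) t = cpt (1 / 4) (run p k A (i + 1)) := by
        rw [lin_eq _ (i + 1) (Or.inl (by rw [ht]; push_cast; linarith))
          (by rw [ht]; push_cast; linarith), xv_mid (by omega), xv_mid (by omega), ht]
        push_cast
        ring
      rw [e]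
      exact right_mem_segment _ _ _

/-- The points of a segment of the path in the rotated coordinates. -/
theorem lseg_form {x y : Medial} (hxy : y = rot x ∨ y = adv x) {z : ℂ} (hz : z ∈ Lseg x y) :
    z ∈ Bq (face (H192.ro x.1) (x.2 + 1)) ∧
      ∃ (a b : ℤ) (s : ℝ), 0 ≤ s ∧ s ≤ 1 ∧
        ((z.re - z.im = a + s / 2 ∨ z.re - z.im = a - s / 2) ∧
          (z.re + z.im = b + 1 / 2 + s / 2 ∨ z.re + z.im = b + 1 / 2 - s / 2) ∨
        (z.re - z.im = a + 1 / 2 + s / 2 ∨ z.re - z.im = a + 1 / 2 - s / 2) ∧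
          (z.re + z.im = b + s / 2 ∨ z.re + z.im = b - s / 2)) := by
  obtain ⟨v, r⟩ := x
  obtain ⟨s, h0, h1, e1, e2⟩ := seg_coord hz
  have h10 : (0 : Fin 4) + 1 = 1 := rfl
  have h11 : (1 : Fin 4) + 1 = 2 := rfl
  have h12 : (2 : Fin 4) + 1 = 3 := rfl
  have h13 : (3 : Fin 4) + 1 = 0 := rfl
  have m10 : (0 : Fin 4) - 1 = 3 := rfl
  have m11 : (1 : Fin 4) - 1 = 0 := rfl
  have m12 : (2 : Fin 4) - 1 = 1 := rfl
  have m13 : (3 : Fin 4) - 1 = 2 := rfl
  rcases hxy with rfl | rfl <;> simp only [rot, adv] at e1 e2 <;>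
    rcases H192.fin4_cases r with rfl | rfl | rfl | rfl <;>
    simp only [h10, h11, h12, h13, m10, m11, m12, m13, cpt_re, cpt_im, sq0, E2.sq1, E2.sq2, E2.sq3,
      dir0, dir1, dir2, dir3, Prod.fst_add, Prod.snd_add, Int.cast_add, Int.cast_one,
      Int.cast_zero, Int.cast_neg] at e1 e2 ⊢
  · refine ⟨?_, v.1 - v.2, v.1 + v.2, s, h0, h1, Or.inl ⟨Or.inr ?_, Or.inr ?_⟩⟩
    · rw [face1]; simp only [Bq, H192.ro, mem_ofPred_eq]; push_cast
      refine ⟨?_, ?_, ?_, ?_⟩ <;> rw [e1, e2] <;> linarith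
    · push_cast; rw [e1, e2]; ring
    · push_cast; rw [e1, e2]; ring
  · refine ⟨?_, v.1 - v.2 - 1, v.1 + v.2, s, h0, h1, Or.inr ⟨Or.inl ?_, Or.inr ?_⟩⟩
    · rw [face2]; simp only [Bq, H192.ro, mem_ofPred_eq]; push_cast
      refine ⟨?_, ?_, ?_, ?_⟩ <;> rw [e1, e2] <;> linarith
    · push_cast; rw [e1, e2]; ring
    · push_cast; rw [e1, e2]; ring
  · refine ⟨?_, v.1 - v.2, v.1 + v.2 - 1, s, h0, h1, Or.inl ⟨Or.inl ?_, Or.inl ?_⟩⟩
    · rw [face3]; simp only [Bq, H192.ro, mem_ofPred_eq]; push_cast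
      refine ⟨?_, ?_, ?_, ?_⟩ <;> rw [e1, e2] <;> linarith
    · push_cast; rw [e1, e2]; ring
    · push_cast; rw [e1, e2]; ring
  · refine ⟨?_, v.1 - v.2, v.1 + v.2, s, h0, h1, Or.inr ⟨Or.inr ?_, Or.inl ?_⟩⟩
    · rw [face0]; simp only [Bq, H192.ro, mem_ofPred_eq]; push_cast
      refine ⟨?_, ?_, ?_, ?_⟩ <;> rw [e1, e2] <;> linarith
    · push_cast; rw [e1, e2]; ring
    · push_cast; rw [e1, e2]; ring
  · refine ⟨?_, v.1 - v.2, v.1 + v.2, s, h0, h1, Or.inl ⟨Or.inr ?_, Or.inl ?_⟩⟩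
    · rw [face1]; simp only [Bq, H192.ro, mem_ofPred_eq]; push_cast
      refine ⟨?_, ?_, ?_, ?_⟩ <;> rw [e1, e2] <;> linarith
    · push_cast; rw [e1, e2]; ring
    · push_cast; rw [e1, e2]; ring
  · refine ⟨?_, v.1 - v.2 - 1, v.1 + v.2, s, h0, h1, Or.inr ⟨Or.inr ?_, Or.inr ?_⟩⟩
    · rw [face2]; simp only [Bq, H192.ro, mem_ofPred_eq]; push_cast
      refine ⟨?_, ?_, ?_, ?_⟩ <;> rw [e1, e2] <;> linarith
    · push_cast; rw [e1, e2]; ring
    · push_cast; rw [e1, e2]; ring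
  · refine ⟨?_, v.1 - v.2, v.1 + v.2 - 1, s, h0, h1, Or.inl ⟨Or.inl ?_, Or.inr ?_⟩⟩
    · rw [face3]; simp only [Bq, H192.ro, mem_ofPred_eq]; push_cast
      refine ⟨?_, ?_, ?_, ?_⟩ <;> rw [e1, e2] <;> linarith
    · push_cast; rw [e1, e2]; ring
    · push_cast; rw [e1, e2]; ring
  · refine ⟨?_, v.1 - v.2, v.1 + v.2, s, h0, h1, Or.inr ⟨Or.inl ?_, Or.inl ?_⟩⟩
    · rw [face0]; simp only [Bq, H192.ro, mem_ofPred_eq]; push_cast
      refine ⟨?_, ?_, ?_, ?_⟩ <;> rw [e1, e2] <;> linarith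
    · push_cast; rw [e1, e2]; ring
    · push_cast; rw [e1, e2]; ring

theorem half_int {s : ℝ} (h0 : 0 ≤ s) (h1 : s ≤ 1) {a a' : ℤ}
    (h : (a' : ℝ) = a + s / 2 ∨ (a' : ℝ) = a - s / 2) : s = 0 := by
  have h2 : a' = a := by
    have h3 : a' < a + 1 := by
      have : (a' : ℝ) < ((a + 1 : ℤ) : ℝ) := by push_cast; rcases h with h | h <;> linarith
      exact_mod_cast this
    have h4 : a < a' + 1 := by
      have : (a : ℝ) < ((a' + 1 : ℤ) : ℝ) := by push_cast; rcases h with h | h <;> linarith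
      exact_mod_cast this
    omega
  subst h2
  rcases h with h | h <;> linarith

theorem not_half {b b' : ℤ} (h : (b' : ℝ) = b + 1 / 2) : False := by
  have : ((2 * b' : ℤ) : ℝ) = ((2 * b + 1 : ℤ) : ℝ) := by push_cast; linarith
  have : 2 * b' = 2 * b + 1 := by exact_mod_cast this
  omega

/-- The path does not meet the sites. -/
theorem lseg_site {x y : Medial} (hxy : y = rot x ∨ y = adv x) {z : ℂ} (hz : z ∈ Lseg x y)
    {a' b' : ℤ} (ha : z.re - z.im = a') (hb : z.re + z.im = b') : False := by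
  obtain ⟨-, a, b, s, h0, h1, ⟨h2, h3⟩ | ⟨h2, h3⟩⟩ := lseg_form hxy hz
  · rw [ha] at h2
    have hs := half_int h0 h1 h2
    rw [hb, hs] at h3
    refine not_half (b := b) (b' := b') ?_
    rcases h3 with h | h <;> linarith
  · rw [hb] at h3
    have hs := half_int h0 h1 h3
    rw [ha, hs] at h2
    refine not_half (b := a) (b' := a') ?_
    rcases h2 with h | h <;> linarith

/-- The first piece of the path. -/
theorem first_form {θ : ℝ} (h1 : 1 / 4 ≤ θ) (h2 : θ ≤ 3 / 8) (c : Medial) :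
    ((∃ a : ℤ, (cpt θ c).re - (cpt θ c).im = a) ∧
      ∃ b : ℤ, (b : ℝ) < (cpt θ c).re + (cpt θ c).im ∧ (cpt θ c).re + (cpt θ c).im < b + 1) ∨
    ((∃ b : ℤ, (cpt θ c).re + (cpt θ c).im = b) ∧
      ∃ a : ℤ, (a : ℝ) < (cpt θ c).re - (cpt θ c).im ∧ (cpt θ c).re - (cpt θ c).im < a + 1) := by
  obtain ⟨v, r⟩ := c
  rcases H192.fin4_cases r with rfl | rfl | rfl | rfl <;>
    simp only [cpt_re, cpt_im, sq0, E2.sq1, E2.sq2, E2.sq3]
  · left
    exact ⟨⟨v.1 - v.2, by push_cast; ring⟩, v.1 + v.2, by push_cast; linarith, by push_cast; linarith⟩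
  · right
    exact ⟨⟨v.1 + v.2, by push_cast; ring⟩, v.1 - v.2 - 1, by push_cast; linarith,
      by push_cast; linarith⟩
  · left
    exact ⟨⟨v.1 - v.2, by push_cast; ring⟩, v.1 + v.2 - 1, by push_cast; linarith,
      by push_cast; linarith⟩
  · right
    exact ⟨⟨v.1 + v.2, by push_cast; ring⟩, v.1 - v.2, by push_cast; linarith,
      by push_cast; linarith⟩

theorem not_btw {a b : ℤ} {x : ℝ} (h : x = a) (h1 : (b : ℝ) < x) (h2 : x < b + 1) : False := by
  rw [h] at h1 h2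
  have h3 : b < a := by exact_mod_cast h1
  have h4 : a < b + 1 := by exact_mod_cast h2
  omega

/-- **The path does not meet the open square of an edge which was not read.** -/
theorem free_open {τ : ℕ} (hτ : τ ≤ len p k A) {v : ℤ × ℤ}
    (hun : ∀ i < τ, ahead (run p k A i) ≠ H192.ed v) {z : ℂ} (hz : z ∈ Bo v) {t : ℝ} (h0 : 0 ≤ t)
    (h1 : t ≤ τ + 1) : lin (xv p k A) t ≠ z := by
  rintro rfl
  rcases lin_cases hτ h0 h1 with ⟨θ, g1, g2, e⟩ | ⟨i, hi, h⟩
  · rw [e] at hz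
    obtain ⟨k1, k2, k3, k4⟩ := hz
    rcases first_form g1 g2 (cs p) with ⟨⟨a, ha⟩, -⟩ | ⟨⟨b, hb⟩, -⟩
    · exact not_btw ha k1 k2
    · exact not_btw hb k3 k4
  · have h2 := (lseg_form (run_rot_adv i) h).1
    have h3 := bq_bo h2 hz
    refine hun i hi ?_
    rw [← h3, ← sq_dir, H192.ed_sq ⟨_, _, rfl⟩]
    rfl

/-- **The path does not meet the sites.** -/
theorem free_site {τ : ℕ} (hτ : τ ≤ len p k A) {z : ℂ} {a b : ℤ} (ha : z.re - z.im = a)
    (hb : z.re + z.im = b) {t : ℝ} (h0 : 0 ≤ t) (h1 : t ≤ τ + 1) : lin (xv p k A) t ≠ z := by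
  rintro rfl
  rcases lin_cases hτ h0 h1 with ⟨θ, g1, g2, e⟩ | ⟨i, hi, h⟩
  · rw [e] at ha hb
    rcases first_form g1 g2 (cs p) with ⟨-, b', k1, k2⟩ | ⟨-, a', k1, k2⟩
    · exact not_btw hb k1 k2
    · exact not_btw ha k1 k2
  · exact lseg_site (run_rot_adv i) h ha hb

end Vale.Agent.P167.H531
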