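import Vale.Agent.P167.H531.Arm1

/-!
# P167, CONT-ASM: the squares which were not read are star shaped in the domain minus the path
-/

set_option linter.unusedSectionVars false

namespace Vale.Agent.P167.H531

open Set Vale.Agent.P167 Vale.Agent.P167.E6 Vale.Agent.P167.E2
open Vale.Agent.P167.Fjord
open Vale.Agent.P167.H161 (zp zp_re zp_im)

variable {n : ℕ} {p : ZMod n → ℤ × ℤ} {S : Finset (ℤ × ℤ)} {k : ℕ} {A : Finset (Sym2 (ℤ × ℤ))}

/-- The midpoint of the square `v`. -/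
noncomputable def mq (v : ℤ × ℤ) : ℂ := ⟨((v.1 : ℝ) + v.2 + 1) / 2, ((v.2 : ℝ) - v.1) / 2⟩

theorem mq_bo (v : ℤ × ℤ) : mq v ∈ Bo v := by
  simp only [mq, Bo, mem_ofPred_eq]
  refine ⟨?_, ?_, ?_, ?_⟩ <;> linarith

/-- `y'` is between `0` and `y`. -/
theorem btw_scale {y s : ℝ} (h0 : 0 ≤ s) (h1 : s ≤ 1) :
    (0 ≤ s * y ∧ s * y ≤ y) ∨ (y ≤ s * y ∧ s * y ≤ 0) := by
  rcases le_total 0 y with h | h
  · left; constructor <;> nlinarith
  · right; constructor <;> nlinarith

theorem starH {a b : ℤ} (h : (a, b) ∈ S ∨ (a, b - 1) ∈ S) {x y x' y' : ℝ}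
    (h1 : x + y ≤ 1 / 2) (h2 : x - y ≤ 1 / 2) (h3 : -x + y ≤ 1 / 2) (h4 : -x - y ≤ 1 / 2)
    (hx : (0 ≤ x' ∧ x' ≤ x) ∨ (x ≤ x' ∧ x' ≤ 0)) (hy : (0 ≤ y' ∧ y' ≤ y) ∨ (y ≤ y' ∧ y' ≤ 0))
    (hz : (⟨a + 1 / 2 + x, b + y⟩ : ℂ) ∈ O1 (S : Set (ℤ × ℤ))) :
    (⟨a + 1 / 2 + x', b + y'⟩ : ℂ) ∈ O1 (S : Set (ℤ × ℤ)) := by
  have hx1 : -(1 / 2) ≤ x' := by rcases hx with h | h <;> linarith
  have hx2 : x' ≤ 1 / 2 := by rcases hx with h | h <;> linarith
  have hy1 : -(1 / 2) ≤ y' := by rcases hy with h | h <;> linarith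
  have hy2 : y' ≤ 1 / 2 := by rcases hy with h | h <;> linarith
  by_cases hU : (a, b) ∈ S ∧ -(3 / 8) < y'
  · refine ⟨(a, b), hU.1, ?_, ?_, ?_, ?_⟩ <;> simp only <;> linarith [hU.2]
  by_cases hL : (a, b - 1) ∈ S ∧ y' < 3 / 8
  · refine ⟨(a, b - 1), hL.1, ?_, ?_, ?_, ?_⟩ <;> simp only <;> push_cast <;> linarith [hL.2]
  obtain ⟨f, hf, g1, g2, g3, g4⟩ := hz
  simp only at g1 g2 g3 g4
  rcases h with h | h
  · have hy3 : y' ≤ -(3 / 8) := by
      by_contra hc
      exact hU ⟨h, by linarith⟩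
    have hy4 : y ≤ -(3 / 8) := by rcases hy with h | h <;> linarith
    have e2 : f.2 = b - 1 := by
      have k1 : f.2 < b := by
        have : (f.2 : ℝ) < b := by linarith
        exact_mod_cast this
      have k2 : b - 2 < f.2 := by
        have : ((b - 2 : ℤ) : ℝ) < f.2 := by push_cast; linarith
        exact_mod_cast this
      omega
    have e1 : f.1 = a := by
      have k1 : f.1 < a + 1 := by
        have : (f.1 : ℝ) < ((a + 1 : ℤ) : ℝ) := by push_cast; linarith
        exact_mod_cast this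
      have k2 : a - 1 < f.1 := by
        have : ((a - 1 : ℤ) : ℝ) < f.1 := by push_cast; linarith
        exact_mod_cast this
      omega
    have e : f = (a, b - 1) := Prod.ext e1 e2
    exact absurd ⟨by rw [← e]; exact hf, by linarith⟩ hL
  · have hy3 : 3 / 8 ≤ y' := by
      by_contra hc
      exact hL ⟨h, by linarith⟩
    have hy4 : 3 / 8 ≤ y := by rcases hy with h | h <;> linarith
    have e2 : f.2 = b := by
      have k1 : f.2 < b + 1 := by
        have : (f.2 : ℝ) < ((b + 1 : ℤ) : ℝ) := by push_cast; linarith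
        exact_mod_cast this
      have k2 : b - 1 < f.2 := by
        have : ((b - 1 : ℤ) : ℝ) < f.2 := by push_cast; linarith
        exact_mod_cast this
      omega
    have e1 : f.1 = a := by
      have k1 : f.1 < a + 1 := by
        have : (f.1 : ℝ) < ((a + 1 : ℤ) : ℝ) := by push_cast; linarith
        exact_mod_cast this
      have k2 : a - 1 < f.1 := by
        have : ((a - 1 : ℤ) : ℝ) < f.1 := by push_cast; linarith
        exact_mod_cast this
      omega
    have e : f = (a, b) := Prod.ext e1 e2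
    exact absurd ⟨by rw [← e]; exact hf, by linarith⟩ hU

theorem starV {a b : ℤ} (h : (a, b) ∈ S ∨ (a - 1, b) ∈ S) {x y x' y' : ℝ}
    (h1 : x + y ≤ 1 / 2) (h2 : x - y ≤ 1 / 2) (h3 : -x + y ≤ 1 / 2) (h4 : -x - y ≤ 1 / 2)
    (hx : (0 ≤ x' ∧ x' ≤ x) ∨ (x ≤ x' ∧ x' ≤ 0)) (hy : (0 ≤ y' ∧ y' ≤ y) ∨ (y ≤ y' ∧ y' ≤ 0))
    (hz : (⟨a + x, b + 1 / 2 + y⟩ : ℂ) ∈ O1 (S : Set (ℤ × ℤ))) :
    (⟨a + x', b + 1 / 2 + y'⟩ : ℂ) ∈ O1 (S : Set (ℤ × ℤ)) := by
  have hx1 : -(1 / 2) ≤ x' := by rcases hx with h | h <;> linarith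
  have hx2 : x' ≤ 1 / 2 := by rcases hx with h | h <;> linarith
  have hy1 : -(1 / 2) ≤ y' := by rcases hy with h | h <;> linarith
  have hy2 : y' ≤ 1 / 2 := by rcases hy with h | h <;> linarith
  by_cases hU : (a, b) ∈ S ∧ -(3 / 8) < x'
  · refine ⟨(a, b), hU.1, ?_, ?_, ?_, ?_⟩ <;> simp only <;> linarith [hU.2]
  by_cases hL : (a - 1, b) ∈ S ∧ x' < 3 / 8
  · refine ⟨(a - 1, b), hL.1, ?_, ?_, ?_, ?_⟩ <;> simp only <;> push_cast <;> linarith [hL.2]
  obtain ⟨f, hf, g1, g2, g3, g4⟩ := hz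
  simp only at g1 g2 g3 g4
  rcases h with h | h
  · have hy3 : x' ≤ -(3 / 8) := by
      by_contra hc
      exact hU ⟨h, by linarith⟩
    have hy4 : x ≤ -(3 / 8) := by rcases hx with h | h <;> linarith
    have e2 : f.1 = a - 1 := by
      have k1 : f.1 < a := by
        have : (f.1 : ℝ) < a := by linarith
        exact_mod_cast this
      have k2 : a - 2 < f.1 := by
        have : ((a - 2 : ℤ) : ℝ) < f.1 := by push_cast; linarith
        exact_mod_cast this
      omega
    have e1 : f.2 = b := by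
      have k1 : f.2 < b + 1 := by
        have : (f.2 : ℝ) < ((b + 1 : ℤ) : ℝ) := by push_cast; linarith
        exact_mod_cast this
      have k2 : b - 1 < f.2 := by
        have : ((b - 1 : ℤ) : ℝ) < f.2 := by push_cast; linarith
        exact_mod_cast this
      omega
    have e : f = (a - 1, b) := Prod.ext e2 e1
    exact absurd ⟨by rw [← e]; exact hf, by linarith⟩ hL
  · have hy3 : 3 / 8 ≤ x' := by
      by_contra hc
      exact hL ⟨h, by linarith⟩
    have hy4 : 3 / 8 ≤ x := by rcases hx with h | h <;> linarith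
    have e2 : f.1 = a := by
      have k1 : f.1 < a + 1 := by
        have : (f.1 : ℝ) < ((a + 1 : ℤ) : ℝ) := by push_cast; linarith
        exact_mod_cast this
      have k2 : a - 1 < f.1 := by
        have : ((a - 1 : ℤ) : ℝ) < f.1 := by push_cast; linarith
        exact_mod_cast this
      omega
    have e1 : f.2 = b := by
      have k1 : f.2 < b + 1 := by
        have : (f.2 : ℝ) < ((b + 1 : ℤ) : ℝ) := by push_cast; linarith
        exact_mod_cast this
      have k2 : b - 1 < f.2 := by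
        have : ((b - 1 : ℤ) : ℝ) < f.2 := by push_cast; linarith
        exact_mod_cast this
      omega
    have e : f = (a, b) := Prod.ext e2 e1
    exact absurd ⟨by rw [← e]; exact hf, by linarith⟩ hU

/-- The orientation of the edge of a square. -/
theorem ed_cases (v : ℤ × ℤ) :
    (∃ a b : ℤ, v.1 = a - b ∧ v.2 = a + b ∧ H192.ed v = s((a, b), (a, b) + dir 0)) ∨
      ∃ a b : ℤ, v.1 = a - b - 1 ∧ v.2 = a + b ∧ H192.ed v = s((a, b), (a, b) + dir 1) := by
  rcases Int.emod_two_eq_zero_or_one (v.1 + v.2) with h | h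
  · left
    refine ⟨(v.1 + v.2) / 2, (v.2 - v.1) / 2, by omega, by omega, ?_⟩
    rw [← H192.ed_sq ⟨_, _, rfl⟩, sq_dir, face0]
    congr 1
    simp only [H192.ro]
    exact Prod.ext (by simp only; omega) (by simp only; omega)
  · right
    refine ⟨(v.1 + v.2 + 1) / 2, (v.2 - v.1 - 1) / 2, by omega, by omega, ?_⟩
    rw [← H192.ed_sq ⟨_, _, rfl⟩, sq_dir, face1]
    congr 1
    simp only [H192.ro]
    exact Prod.ext (by simp only; omega) (by simp only; omega)

/-- **The closed square of an edge is star shaped in the domain.** -/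
theorem star_O1 {v : ℤ × ℤ} (hv : H192.ed v ∈ edges S) {z : ℂ} (hz : z ∈ Bq v)
    (hO : z ∈ O1 (S : Set (ℤ × ℤ))) {s : ℝ} (h0 : 0 ≤ s) (h1 : s ≤ 1) :
    mq v + (s : ℂ) * (z - mq v) ∈ O1 (S : Set (ℤ × ℤ)) := by
  obtain ⟨k1, k2, k3, k4⟩ := hz
  rcases ed_cases v with ⟨a, b, e1, e2, e3⟩ | ⟨a, b, e1, e2, e3⟩
  · rw [e3, mem_edges 0] at hv
    have m0 : (0 : Fin 4) - 1 = 3 := rfl
    rw [m0, face0, face3] at hv
    rw [e1] at k1 k2
    rw [e2] at k3 k4
    push_cast at k1 k2 k3 k4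
    have h := starH (S := S) (a := a) (b := b) hv (x := z.re - a - 1 / 2) (y := z.im - b)
      (x' := s * (z.re - a - 1 / 2)) (y' := s * (z.im - b)) (by linarith) (by linarith)
      (by linarith) (by linarith) (btw_scale h0 h1) (btw_scale h0 h1)
      (by convert hO using 1; apply Complex.ext <;> simp)
    convert h using 1
    apply Complex.ext
    · simp only [mq, Complex.add_re, Complex.re_ofReal_mul, Complex.sub_re, e1, e2]
      push_cast
      ring
    · simp only [mq, Complex.add_im, Complex.im_ofReal_mul, Complex.sub_im, e1, e2]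
      push_cast
      ring
  · rw [e3, mem_edges 1] at hv
    have m0 : (1 : Fin 4) - 1 = 0 := rfl
    rw [m0, face0, face1] at hv
    rw [e1] at k1 k2
    rw [e2] at k3 k4
    push_cast at k1 k2 k3 k4
    have h := starV (S := S) (a := a) (b := b) hv.symm (x := z.re - a) (y := z.im - b - 1 / 2)
      (x' := s * (z.re - a)) (y' := s * (z.im - b - 1 / 2)) (by linarith) (by linarith)
      (by linarith) (by linarith) (btw_scale h0 h1) (btw_scale h0 h1)
      (by convert hO using 1; apply Complex.ext <;> simp)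
    convert h using 1
    apply Complex.ext
    · simp only [mq, Complex.add_re, Complex.re_ofReal_mul, Complex.sub_re, e1, e2]
      push_cast
      ring
    · simp only [mq, Complex.add_im, Complex.im_ofReal_mul, Complex.sub_im, e1, e2]
      push_cast
      ring

theorem mq_O1 {v : ℤ × ℤ} (hv : H192.ed v ∈ edges S) : mq v ∈ O1 (S : Set (ℤ × ℤ)) := by
  rcases ed_cases v with ⟨a, b, e1, e2, e3⟩ | ⟨a, b, e1, e2, e3⟩
  · rw [e3, mem_edges 0] at hv
    have m0 : (0 : Fin 4) - 1 = 3 := rfl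
    rw [m0, face0, face3] at hv
    rcases hv with h | h
    · refine ⟨_, h, ?_, ?_, ?_, ?_⟩ <;> simp only [mq, e1, e2] <;> push_cast <;> linarith
    · refine ⟨_, h, ?_, ?_, ?_, ?_⟩ <;> simp only [mq, e1, e2] <;> push_cast <;> linarith
  · rw [e3, mem_edges 1] at hv
    have m0 : (1 : Fin 4) - 1 = 0 := rfl
    rw [m0, face0, face1] at hv
    rcases hv with h | h
    · refine ⟨_, h, ?_, ?_, ?_, ?_⟩ <;> simp only [mq, e1, e2] <;> push_cast <;> linarith
    · refine ⟨_, h, ?_, ?_, ?_, ?_⟩ <;> simp only [mq, e1, e2] <;> push_cast <;> linarith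

end Vale.Agent.P167.H531
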