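import Vale.Agent.P167.H531.Arm3
import Vale.Agent.P167.H161.ArmD
import Vale.Agent.P167.H446.Pos

/-!
# P167, CONT-ASM: the chart, fresh paths as paths of squares

* `chi ψ W t z`: the coordinate of the point `z` of the domain in the chart of the disc.
* `pin`: the inner odd site of a dual site; paths of `StQ` as paths of odd sites.
* `Far.cases`: the sites of a non trivial class are ends of frozen squares.
-/

set_option linter.unusedSectionVars false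

namespace Vale.Agent.P167.H531

open Set Metric MeasureTheory Vale.Agent.P167 Vale.Agent.P167.E6 Vale.Agent.P167.E2
open Vale.Agent.P167.H558
open Vale.Agent.P145.FB (PStep)
open Vale.Agent.P167.H161 (zp zp_re zp_im SegIn zp_ro zp_rf Rd CrU Cin Cout)
open Vale.Agent.P167.H634 (RO LO Near cf)
open Vale.Agent.P167.H756 (HConf Drv)
open Vale.Agent.P164 (loewnerDomain Zf)
open Vale.Agent.P153.R2.R1 (mb)

/-! ### The chart -/

section chart

variable {ψ : ℂ → ℂ} {W : ℝ → ℝ} {t : ℝ}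

open Classical in
/-- The coordinate of `z` in the chart of the disc. -/
noncomputable def chi (ψ : ℂ → ℂ) (W : ℝ → ℝ) (t : ℝ) (z : ℂ) : ℂ :=
  if h : ∃ w ∈ loewnerDomain W t, ψ w = z then mb 1 Complex.I (Zf W h.choose t) else 0

theorem chi_eq {Rd cd Y T R : ℝ} (hψ : HConf Rd cd Y ψ) (H : Drv T R W t) {w : ℂ}
    (hw : w ∈ loewnerDomain W t) : chi ψ W t (ψ w) = mb 1 Complex.I (Zf W w t) := by
  have h : ∃ w' ∈ loewnerDomain W t, ψ w' = ψ w := ⟨w, hw, rfl⟩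
  rw [chi, dif_pos h]
  have h1 := h.choose_spec
  have h2 := hψ.inj (Vale.Agent.P164.im_pos_of_dom H.nn h1.1)
    (Vale.Agent.P164.im_pos_of_dom H.nn hw) h1.2
  rw [h2]

theorem chi_norm {T R : ℝ} (H : Drv T R W t) {z : ℂ} (hz : z ∈ ψ '' loewnerDomain W t) :
    ‖chi ψ W t z‖ < 1 := by
  have h : ∃ w ∈ loewnerDomain W t, ψ w = z := hz
  rw [chi, dif_pos h]
  exact Vale.Agent.P153.R2.R1.norm_mb_lt norm_one (by simp)
    (Vale.Agent.P164.Zf_im_pos H.nn h.choose_spec.1)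

theorem pos_chi {Rd cd Y T R : ℝ} (hψ : HConf Rd cd Y ψ) (H : Drv T R W t) {ε : ℝ} {I : Set ℝ}
    {z : ℂ} (h : Pos ψ W t ε I z) : z ∈ ψ '' loewnerDomain W t ∧
      ∃ x ∈ I, dist (chi ψ W t z) (mb 1 Complex.I (x : ℂ)) ≤ ε := by
  obtain ⟨w, hw, rfl, x, hx, hd⟩ := h
  exact ⟨⟨w, hw, rfl⟩, x, hx, by rw [chi_eq hψ H hw]; exact hd⟩

theorem mem_Cin {Rd cd Y T R : ℝ} (hψ : HConf Rd cd Y ψ) (H : Drv T R W t) {ξ : ℂ} {a : ℝ} {z : ℂ}
    (hz : z ∈ ψ '' loewnerDomain W t) (h : dist (chi ψ W t z) ξ ≤ a) : z ∈ Cin ψ W t ξ a := by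
  obtain ⟨w, hw, rfl⟩ := hz
  rw [chi_eq hψ H hw] at h
  exact ⟨w, ⟨hw, h⟩, rfl⟩

theorem mem_Cout {Rd cd Y T R : ℝ} (hψ : HConf Rd cd Y ψ) (H : Drv T R W t) {ξ : ℂ} {b : ℝ} {z : ℂ}
    (hz : z ∈ ψ '' loewnerDomain W t) (h : b ≤ dist (chi ψ W t z) ξ) : z ∈ Cout ψ W t ξ b := by
  obtain ⟨w, hw, rfl⟩ := hz
  rw [chi_eq hψ H hw] at h
  exact ⟨w, ⟨hw, h⟩, rfl⟩

/-- Small connected sets are small in the chart. -/
theorem small_chi {T R Rd cd Y ε : ℝ} (hRd : 0 < Rd) (hcd : 0 < cd) (hY0 : 0 < Y) (hY : 8 * R ≤ Y)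
    (hY2 : 64 * T ≤ Y ^ 2) (hε : 0 < ε) :
    ∃ η > 0, ∀ ψ : ℂ → ℂ, HConf Rd cd Y ψ → ∀ (W : ℝ → ℝ) (t : ℝ), Drv T R W t →
      ∀ C ⊆ ψ '' loewnerDomain W t, IsPreconnected C → (∀ x ∈ C, ∀ y ∈ C, dist x y ≤ η) →
      ∀ x ∈ C, ∀ y ∈ C, dist (chi ψ W t x) (chi ψ W t y) ≤ ε := by
  obtain ⟨η, hη, h⟩ := H756.small_dom (T := T) (R := R) hRd hcd hY0 hY hY2 hε
  refine ⟨η, hη, fun ψ hψ W t H C hC hCc hsm x hx y hy => ?_⟩
  obtain ⟨w, hw, rfl⟩ := hC hx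
  obtain ⟨w', hw', rfl⟩ := hC hy
  rw [chi_eq hψ H hw, chi_eq hψ H hw']
  exact h ψ hψ W t H C hC hCc hsm w hw w' hw' hx hy

end chart

/-! ### Paths -/

section paths

variable {n : ℕ} {p : ZMod n → ℤ × ℤ} {S : Finset (ℤ × ℤ)} {k : ℕ} {A : Finset (Sym2 (ℤ × ℤ))}

theorem stM_pstep {c : ℤ} {F : Set (ℤ × ℤ)} {v x y : ℤ × ℤ} (hv : v ∈ F) (h : StM c v x y) :
    PStep F x y := by
  obtain ⟨h1, h2, h3, -⟩ := h
  exact ⟨h2, h3, h1 ▸ hv⟩

theorem cn_rtg {c : ℤ} {F : Set (ℤ × ℤ)} {x y : ℤ × ℤ} (h : Cn (StM c) F x y) :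
    Relation.ReflTransGen (PStep F) x y :=
  Relation.ReflTransGen.mono (fun _ _ ⟨_, hv, hs⟩ => stM_pstep hv hs) _ _ h

/-- The corners of a square. -/
theorem stM_crn {c : ℤ} {v x y : ℤ × ℤ} (h : StM c v x y) : CrnS v x ∧ CrnS v y := by
  obtain ⟨h1, h2, h3, -⟩ := h
  rw [Prod.ext_iff] at h1
  simp only at h1
  simp only [CrnS]
  omega

/-- The inner odd site of a dual site. -/
noncomputable def pin (p : ZMod n → ℤ × ℤ) : (ℤ × ℤ) ⊕ ZMod n → ℤ × ℤ :=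
  Sum.elim H192.rf fun i => H192.rf (fi p i)

/-- Both faces of the square are enclosed. -/
def Enc (S : Finset (ℤ × ℤ)) (v : ℤ × ℤ) : Prop :=
  ∀ s, CrnS v s → (s.1 + s.2) % 2 = 1 → H192.rf' s ∈ S

theorem odd_rf_mod (f : ℤ × ℤ) : ((H192.rf f).1 + (H192.rf f).2) % 2 = 1 := by
  simp only [H192.rf]; omega

/-- An odd corner of a square is one of its two faces. -/
theorem crn_face {v s w : ℤ × ℤ} {r : Fin 4} (hv : H192.ed v = s(w, w + dir r)) (h : CrnS v s)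
    (hs : (s.1 + s.2) % 2 = 1) : s = H192.rf (face w r) ∨ s = H192.rf (face w (r - 1)) := by
  have h1 := stM_faces w r
  rw [← hv, H192.sq_ed] at h1
  obtain ⟨h2, h3, h4, h5⟩ := h1
  obtain ⟨g1, g2⟩ := h
  rw [Prod.ext_iff] at h2
  simp only at h2
  by_cases hc : s = H192.rf (face w r)
  · exact Or.inl hc
  · right
    rw [Prod.ext_iff] at hc ⊢
    omega

/-- A step of `StQ`: both ends are corners, and either both faces are enclosed or the inner site does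
not change. -/
theorem stQ_pin (hp : IsPolygon p) (hS : Encloses p S) {v : ℤ × ℤ} {x y : (ℤ × ℤ) ⊕ ZMod n}
    (h : StQ p S v x y) : CrnS v (pin p x) ∧ CrnS v (pin p y) ∧ H192.rf' (pin p x) ∈ S ∧
      H192.rf' (pin p y) ∈ S ∧ ((Enc S v ∧ StM 1 v (pin p x) (pin p y)) ∨ pin p x = pin p y) := by
  have hpe : ∀ i, H192.ed v = pe p i → CrnS v (H192.rf (fi p i)) := by
    intro i hi
    have h1 := stM_faces (p i) (ro p i)
    rw [← pe_eq hp, ← hi, H192.sq_ed] at h1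
    exact (stM_crn h1).1
  rcases h with ⟨w, r, he, h1, h2, rfl, rfl⟩ | ⟨i, he, rfl, rfl⟩ | ⟨i, he, rfl, rfl⟩
  · have h3 := stM_faces w r
    rw [← he, H192.sq_ed] at h3
    refine ⟨(stM_crn h3).1, (stM_crn h3).2, ?_, ?_, Or.inl ⟨?_, h3⟩⟩
    · show H192.rf' (H192.rf _) ∈ S
      rw [H192.rf'_rf]; exact h1
    · show H192.rf' (H192.rf _) ∈ S
      rw [H192.rf'_rf]; exact h2
    · intro s hs hs1
      rcases crn_face he hs hs1 with rfl | rfl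
      · rw [H192.rf'_rf]; exact h1
      · rw [H192.rf'_rf]; exact h2
  · have h4 : H192.rf' (H192.rf (fi p i)) ∈ S := by
      rw [H192.rf'_rf]; exact (enc_out hp hS).1
    exact ⟨hpe i he, hpe i he, h4, h4, Or.inr rfl⟩
  · have h4 : H192.rf' (H192.rf (fi p i)) ∈ S := by
      rw [H192.rf'_rf]; exact (enc_out hp hS).1
    exact ⟨hpe i he, hpe i he, h4, h4, Or.inr rfl⟩

theorem cnQ_rtg (hp : IsPolygon p) (hS : Encloses p S) {F : Set (ℤ × ℤ)}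
    {x y : (ℤ × ℤ) ⊕ ZMod n} (h : Cn (StQ p S) F x y) :
    Relation.ReflTransGen (PStep (F ∩ {v | Enc S v})) (pin p x) (pin p y) := by
  induction h with
  | refl => exact Relation.ReflTransGen.refl
  | tail _ hbc ih =>
    obtain ⟨v, hv, hs⟩ := hbc
    obtain ⟨-, -, -, -, h1 | h1⟩ := stQ_pin hp hS hs
    · exact ih.tail (stM_pstep ⟨hv, h1.1⟩ h1.2)
    · rw [← h1]
      exact ih

/-- The sites of a non trivial class. -/
theorem Far.cases {ι V : Type*} {St : ι → V → V → Prop} (hS : IsSt St) {G : Set ι} {B : Set V}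
    {e : V} (h : Far St G B e) : e ∈ B ∨ ∃ v ∈ G, ∃ z, St v e z := by
  have key : ∀ c, Cn St G c e → c = e ∨ ∃ v ∈ G, ∃ z, St v e z := by
    intro c hc
    rcases Relation.ReflTransGen.cases_tail hc with h1 | ⟨b, -, v, hv, hs⟩
    · exact Or.inl h1.symm
    · exact Or.inr ⟨v, hv, b, hS.symm _ _ _ hs⟩
  rcases h with ⟨c, hc, h1⟩ | ⟨x, hx, h1⟩
  · rcases key c h1 with rfl | h2
    · exact Or.inl hc
    · exact Or.inr h2
  · rcases key x h1 with rfl | h2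
    · exact absurd rfl hx
    · exact Or.inr h2

theorem CnIn.right {ι V : Type*} {St : ι → V → V → Prop} {F : Set ι} {U : Set V} {u v : V}
    (h : CnIn St F U u v) : v ∈ U := by
  rcases Relation.ReflTransGen.cases_tail h.2 with h1 | ⟨b, -, h1⟩
  · rw [h1]; exact h.1
  · exact h1.2

/-- Fresh squares of `dq`. -/
theorem dq_FrS (hA : A ⊆ edges S) {j : ℕ} {v : ℤ × ℤ} (hv : v ∈ H192.dq p k S)
    (hR : v ∉ Rd p k S A j) : v ∈ FrS p k S A j := by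
  refine ⟨(H192.mem_dq.1 hv).1, fun i hi h => hR ?_⟩
  rw [H161.mem_Rd hA]
  exact ⟨hv, i, hi, by rw [h, H192.sq_ed]⟩

/-- The end of a path in `D`. -/
theorem rtg_mem {δ : ℝ} {D : Set ℂ} {e : ℤ} {F : Set (ℤ × ℤ)} (hF : SegIn δ D e F) {s t : ℤ × ℤ}
    (hs : (s.1 + s.2) % 2 = e) (hsD : zp δ s ∈ D) (h : Relation.ReflTransGen (PStep F) s t) :
    zp δ t ∈ D ∧ (t.1 + t.2) % 2 = e := by
  induction h with
  | refl => exact ⟨hsD, hs⟩
  | @tail b c _ hbc ih =>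
    refine ⟨hF b c ih.2 hbc (right_mem_segment _ _ _), ?_⟩
    obtain ⟨h1, h2, -⟩ := hbc
    omega

end paths

end Vale.Agent.P167.H531
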