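import Vale.Agent.P167.H531.Arm4

/-!
# P167, CONT-ASM: the fresh arms of the domain cross conformal half-annuli
-/

set_option linter.unusedSectionVars false

namespace Vale.Agent.P167.H531

open Set Metric MeasureTheory Vale.Agent.P167 Vale.Agent.P167.E6 Vale.Agent.P167.E2
open Vale.Agent.P167.H558
open Vale.Agent.P145.FB (PStep)
open Vale.Agent.P167.H161 (zp zp_re zp_im SegIn zp_ro zp_rf CrU Cin Cout)
open Vale.Agent.P167.H634 (RO LO Near cf)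
open Vale.Agent.P167.H756 (HConf Drv)
open Vale.Agent.P164 (loewnerDomain Zf)
open Vale.Agent.P153.R2.R1 (mb)

variable {n : ℕ} {p : ZMod n → ℤ × ℤ} {S : Finset (ℤ × ℤ)} {k : ℕ} {A : Finset (Sym2 (ℤ × ℤ))}
  {δ : ℝ} {j : ℕ} {ψ : ℂ → ℂ} {W : ℝ → ℝ} {t T R Rd cd Y : ℝ}

theorem CDat.eqDt (h : CDat δ p k S A j ψ W t T R Rd cd Y) :
    ψ '' loewnerDomain W t = Dt δ p k S A j := h.dom

theorem CDat.seg0 (h : CDat δ p k S A j ψ W t T R Rd cd Y) :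
    SegIn δ (ψ '' loewnerDomain W t) 0 (FrS p k S A j) := by
  rw [h.eqDt]; exact segIn0 h.hδ h.hj

theorem CDat.seg1 (h : CDat δ p k S A j ψ W t T R Rd cd Y) :
    SegIn δ (ψ '' loewnerDomain W t) 1 (FrI p k S A j) := by
  rw [h.eqDt]; exact segIn1 h.hδ h.hj

theorem zp_cf (f : ℤ × ℤ) : zp δ (H192.rf f) = cf δ f := by
  rw [zp_rf, cf]
  congr 2
  apply Complex.ext <;> simp

theorem pin_odd (x : (ℤ × ℤ) ⊕ ZMod n) : ((pin p x).1 + (pin p x).2) % 2 = 1 := by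
  rcases x with f | i
  · exact odd_rf_mod _
  · exact odd_rf_mod _

/-- **Dual arms.** -/
theorem arm_dual (h : CDat δ p k S A j ψ W t T R Rd cd Y) {jf : ℕ} {Kc Bb : Finset (ℤ × ℤ)}
    {ω₀ : Cfg} (hrf : ∀ v ∈ H161.Rd p k S A j, ω₀ v = false → ∀ a b, StQ p S v a b →
      a ∈ Kl (StQ p S) (Gcl p k S (KK p k S A j Kc Bb) ω₀) (arcF0 n jf))
    {ξ : ℂ} {a b : ℝ}
    (h4 : ∀ i : ℕ, jf ≤ i → i < k → b ≤ dist (chi ψ W t (cf δ (fi p (i : ZMod n)))) ξ)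
    (hC : ∀ v ∈ Kc ∪ Bb, ∀ z ∈ Dsq δ v, z ∈ ψ '' loewnerDomain W t → b ≤ dist (chi ψ W t z) ξ)
    {ω : Cfg} {x : (ℤ × ℤ) ⊕ ZMod n} (hx : zp δ (pin p x) ∈ ψ '' loewnerDomain W t)
    (hxa : dist (chi ψ W t (zp δ (pin p x))) ξ ≤ a)
    (hf : Fr false (StQ p S) (H192.dq p k S) (KK p k S A j Kc Bb)
      (Gcl p k S (KK p k S A j Kc Bb) ω₀) (arcF0 n jf) (arcF n jf k) x ω) :
    CrU δ (Cin ψ W t ξ a) (Cout ψ W t ξ b) 1 ((op ω)ᶜ ∩ FrI p k S A j) := by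
  obtain ⟨e, hfar, hcn⟩ := hf
  have hF : Oc false ω ∩ (↑(H192.dq p k S) \ ↑(KK p k S A j Kc Bb)) ∩ {v | Enc S v} ⊆
      (op ω)ᶜ ∩ FrI p k S A j := by
    rintro v ⟨⟨h1, h2, h3⟩, h4⟩
    refine ⟨?_, dq_FrS h.hA (Finset.mem_coe.1 h2) fun hR => h3 ?_, h4⟩
    · intro h5
      have h6 : ω v = false := h1
      have h7 : ω v = true := h5
      rw [h6] at h7
      exact absurd h7 (by decide)
    · rw [Finset.mem_coe, KK, Finset.mem_union, Finset.mem_union]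
      exact Or.inl (Or.inl hR)
  have hp1 : Relation.ReflTransGen (PStep ((op ω)ᶜ ∩ FrI p k S A j)) (pin p x) (pin p e) :=
    H166.rtg_mono hF (cnQ_rtg h.hp h.hS hcn.cn)
  have hseg : SegIn δ (ψ '' loewnerDomain W t) 1 ((op ω)ᶜ ∩ FrI p k S A j) := fun s t' hs hst =>
    h.seg1 s t' hs ⟨hst.1, hst.2.1, hst.2.2.2⟩
  obtain ⟨heD, -⟩ := rtg_mem hseg (pin_odd x) hx hp1
  refine ⟨pin p x, pin p e, pin_odd x, hp1, mem_Cin h.conf h.drv hx hxa,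
    mem_Cout h.conf h.drv heD ?_⟩
  rcases hfar.cases (isSt_Q h.hp h.hS) with ⟨i, h5, h6, rfl⟩ | ⟨v, hv, z, hs⟩
  · have := h4 i h5 h6
    rwa [← zp_cf] at this
  · obtain ⟨hc1, -⟩ := stQ_pin h.hp h.hS hs
    obtain ⟨⟨hvD, hvK⟩, hvω⟩ : (v ∈ H192.dq p k S ∧ v ∈ KK p k S A j Kc Bb) ∧ ω₀ v = false := by
      simp only [Gcl, fo, mem_inter_iff, Finset.mem_coe, mem_compl_iff] at hv
      refine ⟨⟨by tauto, by tauto⟩, ?_⟩
      have h7 : v ∉ Op ω₀ := by tauto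
      simpa [Op] using h7
    rw [KK, Finset.mem_union, Finset.mem_union] at hvK
    rcases hvK with (hvK | hvK) | hvK
    · exact absurd (hrf v hvK hvω _ _ hs) hcn.right
    · exact hC v (Finset.mem_union_left _ hvK) _ (crn_Dsq h.hδ hc1) heD
    · exact hC v (Finset.mem_union_right _ hvK) _ (crn_Dsq h.hδ hc1) heD

/-- **Primal arms.** -/
theorem arm_primal (h : CDat δ p k S A j ψ W t T R Rd cd Y) {jf : ℕ} {Kc Bb : Finset (ℤ × ℤ)}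
    {ω₀ : Cfg} (hvis : ∀ v ∈ H161.Rd p k S A j, ω₀ v = true → ∀ x y, StM 0 v x y → ∃ i ≤ j - 1,
      x = H192.ro (run p k A i).1)
    (hcls : ∀ v ∈ Kc, v ∈ H192.dq p k S → ω₀ v = true → ∀ x y, StM 0 v x y →
      x ∈ Kl (StM 0) (Gop p k S (KK p k S A j Kc Bb) ω₀) {H192.ro (p (jf : ZMod n))})
    {ξ : ℂ} {a b : ℝ}
    (hLO : ∀ z ∈ LO p k A δ (j - 1), z ∈ ψ '' loewnerDomain W t → b ≤ dist (chi ψ W t z) ξ)
    (hB : ∀ v ∈ Bb, ∀ z ∈ Dsq δ v, z ∈ ψ '' loewnerDomain W t → b ≤ dist (chi ψ W t z) ξ)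
    {ω : Cfg} {x : ℤ × ℤ} (hx0 : (x.1 + x.2) % 2 = 0) (hx : zp δ x ∈ ψ '' loewnerDomain W t)
    (hxa : dist (chi ψ W t (zp δ x)) ξ ≤ a)
    (hf : Fr true (StM 0) (H192.dq p k S) (KK p k S A j Kc Bb)
      (Gop p k S (KK p k S A j Kc Bb) ω₀) {H192.ro (p (jf : ZMod n))}
      (H192.ro '' arcV p k (n - 1)) x ω) :
    CrU δ (Cin ψ W t ξ a) (Cout ψ W t ξ b) 0 (op ω ∩ FrS p k S A j) := by
  obtain ⟨e, hfar, hcn⟩ := hf
  have hF : Oc true ω ∩ (↑(H192.dq p k S) \ ↑(KK p k S A j Kc Bb)) ⊆ op ω ∩ FrS p k S A j := by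
    rintro v ⟨h1, h2, h3⟩
    refine ⟨h1, dq_FrS h.hA (Finset.mem_coe.1 h2) fun hR => h3 ?_⟩
    rw [Finset.mem_coe, KK, Finset.mem_union, Finset.mem_union]
    exact Or.inl (Or.inl hR)
  have hp1 : Relation.ReflTransGen (PStep (op ω ∩ FrS p k S A j)) x e :=
    H166.rtg_mono hF (cn_rtg hcn.cn)
  have hseg : SegIn δ (ψ '' loewnerDomain W t) 0 (op ω ∩ FrS p k S A j) := fun s t' hs hst =>
    h.seg0 s t' hs ⟨hst.1, hst.2.1, hst.2.2.2⟩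
  obtain ⟨heD, he0⟩ := rtg_mem hseg hx0 hx hp1
  refine ⟨x, e, hx0, hp1, mem_Cin h.conf h.drv hx hxa, mem_Cout h.conf h.drv heD ?_⟩
  have hVB : ∀ u : ℤ × ℤ, (δ : ℂ) * pt u ∈ H634.VB δ (1 / 4) u := by
    intro u
    have h1 : ((δ : ℂ) * pt u).re - δ * u.1 = 0 := by
      rw [Complex.re_ofReal_mul, E6.pt_re]; ring
    have h2 : ((δ : ℂ) * pt u).im - δ * u.2 = 0 := by
      rw [Complex.im_ofReal_mul, E6.pt_im]; ring
    refine ⟨?_, ?_⟩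
    · rw [h1, abs_zero]; have := h.hδ; positivity
    · rw [h2, abs_zero]; have := h.hδ; positivity
  rcases hfar.cases (isSt_M 0) with ⟨_, ⟨i, h5, h6, rfl⟩, rfl⟩ | ⟨v, hv, z, hs⟩
  · refine hLO _ ?_ heD
    rw [zp_ro]
    refine Or.inr (Or.inl ⟨i, h5, ?_, hVB _⟩)
    have := h.hkn
    omega
  · obtain ⟨⟨hvD, hvK⟩, hvω⟩ : (v ∈ H192.dq p k S ∧ v ∈ KK p k S A j Kc Bb) ∧ ω₀ v = true := by
      simp only [Gop, fo, mem_inter_iff, Finset.mem_coe] at hv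
      refine ⟨⟨by tauto, by tauto⟩, ?_⟩
      have h7 : v ∈ Op ω₀ := by tauto
      exact h7
    rw [KK, Finset.mem_union, Finset.mem_union] at hvK
    rcases hvK with (hvK | hvK) | hvK
    · obtain ⟨i, hi, rfl⟩ := hvis v hvK hvω _ _ hs
      refine hLO _ ?_ heD
      rw [zp_ro]
      exact Or.inl ⟨i, hi, hVB _⟩
    · exact absurd (hcls v hvK hvD hvω _ _ hs) hcn.right
    · exact hB v hvK _ (crn_Dsq h.hδ (stM_crn hs).1) heD

end Vale.Agent.P167.H531
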