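import Vale.Agent.P167.H531.Arm5

/-!
# P167, CONT-ASM: the probability of the fresh arms of the domain
-/

set_option linter.unusedSectionVars false

namespace Vale.Agent.P167.H531

open Set Metric MeasureTheory Filter Topology
open Vale.Agent.P167 Vale.Agent.P167.E6 Vale.Agent.P167.E2
open Vale.Agent.P167.H558
open Vale.Agent.P145.FB (PStep)
open Vale.Agent.P167.H161 (zp zp_re zp_im SegIn zp_ro zp_rf CrU Cin Cout)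
open Vale.Agent.P167.H634 (RO LO Near cf)
open Vale.Agent.P167.H756 (HConf Drv)
open Vale.Agent.P164 (loewnerDomain Zf)
open Vale.Agent.P153.R2.R1 (mb)
open scoped ENNReal Real

/-- `a` is a radius such that the crossings from distance `a` to distance `b` of any point of the
circle have probability at most `e`. -/
def Rad (T R Rd cd Y a b e d₀ : ℝ) : Prop :=
  ∀ ψ : ℂ → ℂ, HConf Rd cd Y ψ →
    ∀ (W : ℝ → ℝ) (t : ℝ), Drv T R W t → ∀ ξ : ℂ, ‖ξ‖ = 1 → ∀ δ, 0 < δ → δ ≤ d₀ →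
    ∀ F : Set (ℤ × ℤ),
    (SegIn δ (ψ '' loewnerDomain W t) 0 F →
      μ {ω | CrU δ (Cin ψ W t ξ a) (Cout ψ W t ξ b) 0 (op ω ∩ F)} ≤ ENNReal.ofReal e) ∧
    (SegIn δ (ψ '' loewnerDomain W t) 1 F →
      μ {ω | CrU δ (Cin ψ W t ξ a) (Cout ψ W t ξ b) 1 ((op ω)ᶜ ∩ F)} ≤ ENNReal.ofReal e)

theorem exists_rad {T R Rd cd Y : ℝ} (hRd : 0 < Rd) (hcd : 0 < cd) (hY0 : 0 < Y) (hY : 8 * R ≤ Y)
    (hY2 : 64 * T ≤ Y ^ 2) {e b : ℝ} (he : 0 < e) (hb : 0 < b) :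
    ∃ a, 0 < a ∧ 2 * a < b ∧ ∃ d₀ > 0, Rad T R Rd cd Y a b e d₀ := by
  obtain ⟨C, α, hC, hα, h⟩ := H161.crsw_disc
  -- the choice of `C₀`
  obtain ⟨C₀, h4, h5⟩ : ∃ C₀ : ℝ, 4 ≤ C₀ ∧ C * (1 / C₀) ^ α ≤ e := by
    have ht : Tendsto (fun x : ℝ => C * (1 / x) ^ α) atTop (𝓝 (C * 0)) := by
      refine Tendsto.const_mul _ ?_
      have h1 := tendsto_rpow_neg_atTop hα
      refine h1.congr' ?_
      filter_upwards [eventually_gt_atTop 0] with x hx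
      rw [one_div, Real.inv_rpow hx.le, Real.rpow_neg hx.le]
    rw [mul_zero] at ht
    have h2 := (ht.eventually (gt_mem_nhds he)).and (eventually_ge_atTop 4)
    obtain ⟨C₀, h3, h4⟩ := h2.exists
    exact ⟨C₀, h4, h3.le⟩
  -- the choice of `a`
  set L : ℝ := 2 * π ^ 2 * (C₀ + 2) ^ 2 with hL
  have hL0 : 0 < L := by positivity
  set a : ℝ := min 1 (b / (2 * Real.exp (L + 1))) with ha
  have ha0 : 0 < a := lt_min one_pos (by positivity)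
  have hab : a * (2 * Real.exp (L + 1)) ≤ b := by
    have := min_le_right (1 : ℝ) (b / (2 * Real.exp (L + 1)))
    rwa [← ha, le_div_iff₀ (by positivity)] at this
  have hexp : 1 < Real.exp (L + 1) := Real.one_lt_exp_iff.2 (by linarith)
  have hab2 : 2 * a < b := by nlinarith
  have hlog : L < Real.log (b / (2 * a)) := by
    rw [Real.lt_log_iff_exp_lt (by positivity), lt_div_iff₀ (by positivity)]
    have h6 : Real.exp L < Real.exp (L + 1) := Real.exp_lt_exp.2 (by linarith)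
    nlinarith
  obtain ⟨d₀, hd₀, h7⟩ := h T R Rd cd Y a b C₀ hRd hcd hY0 hY hY2 ha0 (min_le_left _ _) hab2 h4
    (by rw [← hL]; exact hlog)
  refine ⟨a, ha0, hab2, d₀, hd₀, fun ψ hψ W t H ξ hξ δ hδ hδd F => ?_⟩
  obtain ⟨k1, k2⟩ := h7 ψ hψ W t H ξ hξ δ hδ hδd F
  have cv : ∀ s : Set Cfg, μ.real s ≤ C * (1 / C₀) ^ α → μ s ≤ ENNReal.ofReal e := by
    intro s hs
    rw [← ofReal_measureReal (measure_ne_top μ s)]
    exact ENNReal.ofReal_le_ofReal (hs.trans h5)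
  exact ⟨fun hF => cv _ (k1 hF), fun hF => cv _ (k2 hF)⟩

variable {n : ℕ} {p : ZMod n → ℤ × ℤ} {S : Finset (ℤ × ℤ)} {k : ℕ} {A : Finset (Sym2 (ℤ × ℤ))}
  {δ : ℝ} {j : ℕ} {ψ : ℂ → ℂ} {W : ℝ → ℝ} {t T R Rd cd Y : ℝ}

/-- The classes of the explored squares. -/
structure Cls (p : ZMod n → ℤ × ℤ) (k : ℕ) (S : Finset (ℤ × ℤ)) (A : Finset (Sym2 (ℤ × ℤ)))
    (j jf : ℕ) (Kc Bb : Finset (ℤ × ℤ)) (ω₀ : Cfg) : Prop where
  rf : ∀ v ∈ H161.Rd p k S A j, ω₀ v = false → ∀ a b, StQ p S v a b →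
      a ∈ Kl (StQ p S) (Gcl p k S (KK p k S A j Kc Bb) ω₀) (arcF0 n jf)
  vis : ∀ v ∈ H161.Rd p k S A j, ω₀ v = true → ∀ x y, StM 0 v x y → ∃ i ≤ j - 1,
      x = H192.ro (run p k A i).1
  cls : ∀ v ∈ Kc, v ∈ H192.dq p k S → ω₀ v = true → ∀ x y, StM 0 v x y →
      x ∈ Kl (StM 0) (Gop p k S (KK p k S A j Kc Bb) ω₀) {H192.ro (p (jf : ZMod n))}

/-- Dual arms from squares. -/
theorem armQ_dual_le (h : CDat δ p k S A j ψ W t T R Rd cd Y) {jf : ℕ} {Kc Bb : Finset (ℤ × ℤ)}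
    {ω₀ : Cfg} (hc : Cls p k S A j jf Kc Bb ω₀) {a b e d₀ : ℝ} (hrad : Rad T R Rd cd Y a b e d₀)
    (hδ : δ ≤ d₀) {ξ : ℂ} (hξ : ‖ξ‖ = 1)
    (h4 : ∀ i : ℕ, jf ≤ i → i < k → b ≤ dist (chi ψ W t (cf δ (fi p (i : ZMod n)))) ξ)
    (hC : ∀ v ∈ Kc ∪ Bb, ∀ z ∈ Dsq δ v, z ∈ ψ '' loewnerDomain W t → b ≤ dist (chi ψ W t z) ξ)
    {Q : Set (ℤ × ℤ)} (hQ : ∀ v ∈ Q, ∀ z ∈ Dsq δ v, z ∈ ψ '' loewnerDomain W t →
      dist (chi ψ W t z) ξ ≤ a) :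
    μ (ArmQ false (StQ p S) (H192.dq p k S) (KK p k S A j Kc Bb)
      (Gcl p k S (KK p k S A j Kc Bb) ω₀) (arcF0 n jf) (arcF n jf k) Q) ≤ ENNReal.ofReal e := by
  refine (measure_mono ?_).trans
    ((hrad ψ h.conf W t h.drv ξ hξ δ h.hδ hδ (FrI p k S A j)).2 h.seg1)
  rintro ω ⟨v, hv, x, y, hs, hf⟩
  obtain ⟨-, h2, -, h3, -⟩ := stQ_pin h.hp h.hS hs
  have hy : zp δ (pin p y) ∈ ψ '' loewnerDomain W t := by
    rw [h.eqDt]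
    exact site_Dt h.hδ h.hj (face_Om h.hδ (pin_odd y) h3)
  exact arm_dual h hc.rf h4 hC hy (hQ v hv _ (crn_Dsq h.hδ h2) hy) hf

/-- Dual arms from sites. -/
theorem armS_dual_le (h : CDat δ p k S A j ψ W t T R Rd cd Y) {jf : ℕ} {Kc Bb : Finset (ℤ × ℤ)}
    {ω₀ : Cfg} (hc : Cls p k S A j jf Kc Bb ω₀) {a b e d₀ : ℝ} (hrad : Rad T R Rd cd Y a b e d₀)
    (hδ : δ ≤ d₀) {ξ : ℂ} (hξ : ‖ξ‖ = 1)
    (h4 : ∀ i : ℕ, jf ≤ i → i < k → b ≤ dist (chi ψ W t (cf δ (fi p (i : ZMod n)))) ξ)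
    (hC : ∀ v ∈ Kc ∪ Bb, ∀ z ∈ Dsq δ v, z ∈ ψ '' loewnerDomain W t → b ≤ dist (chi ψ W t z) ξ)
    {Ys : Set ((ℤ × ℤ) ⊕ ZMod n)} (hY : ∀ x ∈ Ys, zp δ (pin p x) ∈ ψ '' loewnerDomain W t ∧
      dist (chi ψ W t (zp δ (pin p x))) ξ ≤ a) :
    μ (ArmS false (StQ p S) (H192.dq p k S) (KK p k S A j Kc Bb)
      (Gcl p k S (KK p k S A j Kc Bb) ω₀) (arcF0 n jf) (arcF n jf k) Ys) ≤ ENNReal.ofReal e := by
  refine (measure_mono ?_).trans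
    ((hrad ψ h.conf W t h.drv ξ hξ δ h.hδ hδ (FrI p k S A j)).2 h.seg1)
  rintro ω ⟨x, hx, hf⟩
  exact arm_dual h hc.rf h4 hC (hY x hx).1 (hY x hx).2 hf

/-- Primal arms from squares. -/
theorem armQ_primal_le (h : CDat δ p k S A j ψ W t T R Rd cd Y) {jf : ℕ} {Kc Bb : Finset (ℤ × ℤ)}
    {ω₀ : Cfg} (hc : Cls p k S A j jf Kc Bb ω₀) {a b e d₀ : ℝ} (hrad : Rad T R Rd cd Y a b e d₀)
    (hδ : δ ≤ d₀) {ξ : ℂ} (hξ : ‖ξ‖ = 1)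
    (hLO : ∀ z ∈ LO p k A δ (j - 1), z ∈ ψ '' loewnerDomain W t → b ≤ dist (chi ψ W t z) ξ)
    (hB : ∀ v ∈ Bb, ∀ z ∈ Dsq δ v, z ∈ ψ '' loewnerDomain W t → b ≤ dist (chi ψ W t z) ξ)
    {Q : Set (ℤ × ℤ)} (hQd : Q ⊆ ↑(H192.dq p k S))
    (hQ : ∀ v ∈ Q, ∀ z ∈ Dsq δ v, z ∈ ψ '' loewnerDomain W t → dist (chi ψ W t z) ξ ≤ a) :
    μ (ArmQ true (StM 0) (H192.dq p k S) (KK p k S A j Kc Bb)
      (Gop p k S (KK p k S A j Kc Bb) ω₀) {H192.ro (p (jf : ZMod n))}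
      (H192.ro '' arcV p k (n - 1)) Q) ≤ ENNReal.ofReal e := by
  refine (measure_mono ?_).trans
    ((hrad ψ h.conf W t h.drv ξ hξ δ h.hδ hδ (FrS p k S A j)).1 h.seg0)
  rintro ω ⟨v, hv, x, y, hs, hf⟩
  obtain ⟨-, h2⟩ := stM_crn hs
  have hy0 : (y.1 + y.2) % 2 = 0 := ((isSt_M 0).symm _ _ _ hs).2.2.2
  have hy : zp δ y ∈ ψ '' loewnerDomain W t := by
    rw [h.eqDt]
    exact site_Dt h.hδ h.hj (even_Om h.hδ h2 hy0 (H192.mem_dq.1 (hQd hv)).1)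
  exact arm_primal h hc.vis hc.cls hLO hB hy0 hy (hQ v hv _ (crn_Dsq h.hδ h2) hy) hf

end Vale.Agent.P167.H531
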