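import Vale.Agent.P167.H531.Arm6

/-!
# P167, CONT-ASM: the real line in the chart of the disc
-/

set_option linter.unusedSectionVars false

namespace Vale.Agent.P167.H531

open Set Metric
open Vale.Agent.P153.R2.R1 (mb)
open Vale.Agent.P167.H446 (dist_mb_sq chord_mono chord_mono' chord_sep sq_norm_add_I)

/-- The point of the circle of the real number `x`. -/
noncomputable def mx (x : ℝ) : ℂ := mb 1 Complex.I (x : ℂ)

theorem mx_zero : mx 0 = -1 := by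
  unfold mx mb
  rw [Complex.conj_I]
  have h : (Complex.I : ℂ) ≠ 0 := Complex.I_ne_zero
  field_simp
  simp

theorem add_I_ne' (x : ℝ) : (x : ℂ) + Complex.I ≠ 0 := by
  intro h
  have := congrArg Complex.im h
  simp at this

theorem mx_norm (x : ℝ) : ‖mx x‖ = 1 := by
  have h : ‖mx x‖ ^ 2 = 1 := by
    unfold mx mb
    rw [Complex.conj_I, sub_neg_eq_add, one_mul, norm_div, div_pow, sq_norm_add_I]
    have h1 : ‖(x : ℂ) - Complex.I‖ ^ 2 = 1 + x ^ 2 := by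
      rw [Complex.sq_norm, Complex.normSq_apply]
      simp
      ring
    rw [h1, div_self (by positivity)]
  have h0 := norm_nonneg (mx x)
  nlinarith

theorem dist_mx_one_sq (x : ℝ) : dist (mx x) 1 ^ 2 = 4 / (1 + x ^ 2) := by
  have h0 := add_I_ne' x
  have e : mx x - 1 = -(2 * Complex.I) / ((x : ℂ) + Complex.I) := by
    unfold mx mb
    rw [Complex.conj_I, sub_neg_eq_add, one_mul]
    field_simp
    ring
  rw [dist_eq_norm, e, norm_div, norm_neg, norm_mul, Complex.norm_I, mul_one, div_pow,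
    sq_norm_add_I]
  norm_num

theorem dist_mx_sq (x y : ℝ) : dist (mx x) (mx y) ^ 2 =
    4 * (x - y) ^ 2 / ((1 + x ^ 2) * (1 + y ^ 2)) := dist_mb_sq x y

theorem dist_mx_neg_sq (x : ℝ) : dist (mx x) (-1) ^ 2 = 4 * x ^ 2 / (1 + x ^ 2) := by
  rw [← mx_zero, dist_mx_sq]
  simp

theorem le_of_sq {a b : ℝ} (hb : 0 ≤ b) (h : a ^ 2 ≤ b ^ 2) : a ≤ b := by
  by_contra hc
  push Not at hc
  nlinarith

/-- **(G1)** points on the two sides. -/
theorem mx_sides {x y : ℝ} (hx : x ≤ 0) (hy : 0 ≤ y) :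
    min (dist (mx x) (-1)) (dist (mx x) 1) ≤ dist (mx x) (mx y) := by
  have hx2 : 0 < 1 + x ^ 2 := by positivity
  have hy2 : 0 < 1 + y ^ 2 := by positivity
  have hxy : x ^ 2 + y ^ 2 ≤ (x - y) ^ 2 := by nlinarith [mul_nonneg (neg_nonneg.2 hx) hy]
  rcases le_total (x ^ 2) 1 with h | h
  · refine (min_le_left _ _).trans (le_of_sq dist_nonneg ?_)
    rw [dist_mx_neg_sq, dist_mx_sq, div_le_div_iff₀ hx2 (by positivity)]
    have h1 : x ^ 2 * (1 + y ^ 2) ≤ (x - y) ^ 2 := by nlinarith [sq_nonneg y]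
    nlinarith
  · refine (min_le_right _ _).trans (le_of_sq dist_nonneg ?_)
    rw [dist_mx_one_sq, dist_mx_sq, div_le_div_iff₀ hx2 (by positivity)]
    have h1 : 1 + y ^ 2 ≤ (x - y) ^ 2 := by nlinarith
    nlinarith

theorem mx_sides' {x y : ℝ} (hx : x ≤ 0) (hy : 0 ≤ y) :
    min (dist (mx y) (-1)) (dist (mx y) 1) ≤ dist (mx x) (mx y) := by
  have hx2 : 0 < 1 + x ^ 2 := by positivity
  have hy2 : 0 < 1 + y ^ 2 := by positivity
  have hxy : x ^ 2 + y ^ 2 ≤ (x - y) ^ 2 := by nlinarith [mul_nonneg (neg_nonneg.2 hx) hy]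
  rcases le_total (y ^ 2) 1 with h | h
  · refine (min_le_left _ _).trans (le_of_sq dist_nonneg ?_)
    rw [dist_mx_neg_sq, dist_mx_sq, div_le_div_iff₀ hy2 (by positivity)]
    have h1 : y ^ 2 * (1 + x ^ 2) ≤ (x - y) ^ 2 := by nlinarith [sq_nonneg x]
    nlinarith
  · refine (min_le_right _ _).trans (le_of_sq dist_nonneg ?_)
    rw [dist_mx_one_sq, dist_mx_sq, div_le_div_iff₀ hy2 (by positivity)]
    have h1 : 1 + x ^ 2 ≤ (x - y) ^ 2 := by nlinarith
    nlinarith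

/-- **(G2)** `x ≤ u ≤ y`, all nonnegative. -/
theorem mx_btw {x u y : ℝ} (hx : 0 ≤ x) (h1 : x ≤ u) (h2 : u ≤ y) :
    dist (mx x) (mx u) ≤ dist (mx x) (mx y) ∧ dist (mx u) (mx y) ≤ dist (mx x) (mx y) := by
  constructor
  · rw [dist_comm (mx x), dist_comm (mx x)]
    exact chord_mono hx h1 h2
  · exact chord_mono' hx h1 h2

/-- The constants of the geometry. -/
structure Geo1 (u₀ U c : ℝ) : Prop where
  pos : 0 < c
  left : ∀ u, u₀ ≤ u → u ≤ U → ∀ x : ℝ, x ≤ 0 → 2 * c ≤ dist (mx x) (mx u)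
  one : ∀ x : ℝ, 0 ≤ x → x ≤ U → 2 * c ≤ dist (mx x) 1
  neg : ∀ x : ℝ, u₀ ≤ x → 2 * c ≤ dist (mx x) (-1)
  small : ∀ w : ℂ, 0 < w.im → ‖w‖ ≤ u₀ / 2 → ∀ y : ℝ, u₀ ≤ y → 2 * c ≤ dist (mb 1 Complex.I w) (mx y)

theorem exists_geo1 {u₀ U : ℝ} (hu : 0 < u₀) (hU : u₀ ≤ U) : ∃ c, Geo1 u₀ U c := by
  have hU0 : 0 < U := hu.trans_le hU
  have hm : 0 < min u₀ 1 := lt_min hu one_pos
  set c₁ : ℝ := min u₀ 1 / (1 + U) with hc₁
  set c₂ : ℝ := u₀ / (2 * ((u₀ / 2 + 1) * (u₀ + 1))) with hc₂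
  have h1 : 0 < c₁ := by positivity
  have h2 : 0 < c₂ := by positivity
  have hm1 : min u₀ 1 ≤ 1 := min_le_right _ _
  have hm2 : min u₀ 1 ≤ u₀ := min_le_left _ _
  refine ⟨min c₁ c₂, lt_min h1 h2, ?_, ?_, ?_, ?_⟩
  · intro u hu1 hu2 x hx
    have hu0 : 0 < u := hu.trans_le hu1
    have h3 := chord_sep hu0 hx
    have h4 : 2 * c₁ ≤ 2 * min u 1 / (1 + u) := by
      rw [hc₁, mul_div_assoc]
      have : min u₀ 1 ≤ min u 1 := min_le_min_right _ hu1
      gcongr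
    have : min c₁ c₂ ≤ c₁ := min_le_left _ _
    exact le_trans (by linarith) h3
  · intro x hx hxU
    have h3 : min c₁ c₂ ≤ c₁ := min_le_left _ _
    refine le_trans (by linarith : 2 * min c₁ c₂ ≤ 2 * c₁) (le_of_sq dist_nonneg ?_)
    rw [dist_mx_one_sq, hc₁, mul_pow, div_pow, ← mul_div_assoc,
      div_le_div_iff₀ (by positivity) (by positivity)]
    have h4 : (min u₀ 1) ^ 2 ≤ 1 := by nlinarith
    have h5 : 1 + x ^ 2 ≤ (1 + U) ^ 2 := by nlinarith
    have h6 : (min u₀ 1) ^ 2 * (1 + x ^ 2) ≤ 1 * (1 + U) ^ 2 := by gcongr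
    nlinarith
  · intro x hx
    have hx0 : 0 < x := hu.trans_le hx
    have h3 : min c₁ c₂ ≤ c₁ := min_le_left _ _
    refine le_trans (by linarith : 2 * min c₁ c₂ ≤ 2 * c₁) (le_of_sq dist_nonneg ?_)
    rw [dist_mx_neg_sq, hc₁, mul_pow, div_pow, ← mul_div_assoc,
      div_le_div_iff₀ (by positivity) (by positivity)]
    -- `m ^ 2 (1 + x ^ 2) ≤ x ^ 2 (1 + U) ^ 2`
    have h4 : (min u₀ 1) ^ 2 ≤ 1 := by nlinarith
    have h5 : (min u₀ 1) ^ 2 ≤ x ^ 2 := by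
      have : min u₀ 1 ≤ x := hm2.trans hx
      gcongr
    have h7 : (min u₀ 1) ^ 2 * x ^ 2 ≤ x ^ 2 * U ^ 2 := by
      have : min u₀ 1 ≤ U := hm2.trans hU
      have : (min u₀ 1) ^ 2 ≤ U ^ 2 := by gcongr
      nlinarith [sq_nonneg x]
    nlinarith [mul_pos (mul_pos hx0 hx0) hU0]
  · intro w hw hwn y hy
    have hy0 : 0 < y := hu.trans_le hy
    have h3 : min c₁ c₂ ≤ c₂ := min_le_right _ _
    refine le_trans (by linarith : 2 * min c₁ c₂ ≤ 2 * c₂) ?_
    have hw1 : w + Complex.I ≠ 0 := by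
      intro h
      have := congrArg Complex.im h
      simp at this
      linarith
    have e : mb 1 Complex.I w - mx y =
        2 * Complex.I * (w - y) / ((w + Complex.I) * ((y : ℂ) + Complex.I)) := by
      unfold mx
      rw [mb, mb, Complex.conj_I, sub_neg_eq_add, sub_neg_eq_add, one_mul, one_mul]
      have := add_I_ne' y
      field_simp
      ring
    have n1 : y - u₀ / 2 ≤ ‖w - y‖ := by
      have h4 := norm_sub_norm_le (y : ℂ) w
      rw [Complex.norm_real, Real.norm_of_nonneg hy0.le, norm_sub_rev] at h4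
      linarith
    have n2 : ‖w + Complex.I‖ ≤ u₀ / 2 + 1 := by
      refine (norm_add_le _ _).trans ?_
      rw [Complex.norm_I]
      linarith
    have n3 : ‖(y : ℂ) + Complex.I‖ ≤ y + 1 := by
      refine (norm_add_le _ _).trans ?_
      rw [Complex.norm_I, Complex.norm_real, Real.norm_of_nonneg hy0.le]
    have p1 : 0 < ‖w + Complex.I‖ := norm_pos_iff.2 hw1
    have p2 : 0 < ‖(y : ℂ) + Complex.I‖ := norm_pos_iff.2 (add_I_ne' y)
    rw [dist_eq_norm, e, norm_div, norm_mul, norm_mul, norm_mul, Complex.norm_I, mul_one,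
      Complex.norm_ofNat, le_div_iff₀ (by positivity)]
    have h5 : ‖w + Complex.I‖ * ‖(y : ℂ) + Complex.I‖ ≤ (u₀ / 2 + 1) * (y + 1) := by gcongr
    have h6 : 2 * c₂ * ((u₀ / 2 + 1) * (y + 1)) ≤ y := by
      rw [hc₂]
      have e2 : 2 * (u₀ / (2 * ((u₀ / 2 + 1) * (u₀ + 1)))) * ((u₀ / 2 + 1) * (y + 1)) =
          u₀ * (y + 1) / (u₀ + 1) := by
        field_simp
      rw [e2, div_le_iff₀ (by positivity)]
      nlinarith
    calc 2 * c₂ * (‖w + Complex.I‖ * ‖(y : ℂ) + Complex.I‖)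
        ≤ 2 * c₂ * ((u₀ / 2 + 1) * (y + 1)) := by gcongr
      _ ≤ y := h6
      _ ≤ 2 * ‖w - y‖ := by linarith

end Vale.Agent.P167.H531
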