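import Vale.Agent.P167.H531.Asm1

/-!
# P167, CONT-ASM: the context, straight collars
-/

set_option linter.unusedSectionVars false
set_option linter.unusedSimpArgs false

namespace Vale.Agent.P167.H531

open Set Metric MeasureTheory Vale.Agent.P167 Vale.Agent.P167.E6 Vale.Agent.P167.E2
open Vale.Agent.P167.H558
open Vale.Agent.P145.FB (PStep)
open Vale.Agent.P167.H161 (zp zp_re zp_im SegIn zp_ro zp_rf CrU Cin Cout)
open Vale.Agent.P167.H634 (RO LO Near cf)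
open Vale.Agent.P167.H756 (HConf Drv)
open Vale.Agent.P164 (loewnerDomain Zf)
open Vale.Agent.P153.R2.R1 (mb)

variable {n m : ℕ}

/-- The context. -/
structure Ctx (δ : ℝ) (p : ZMod n → ℤ × ℤ) (k : ℕ) (S : Finset (ℤ × ℤ))
    (A : Finset (Sym2 (ℤ × ℤ))) (j : ℕ) (ψ : ℂ → ℂ) (W : ℝ → ℝ) (t T R Rd cd Y : ℝ)
    (q : ZMod m → ℤ × ℤ) (PE Kc Bb B : Finset (ℤ × ℤ)) (a l jf : ℕ) (ε h u rc cb : ℝ) (κ ω₀ : Cfg)
    (u₀ U c : ℝ) : Prop where
  j0 : 0 < j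
  dat : CDat δ p k S A j ψ W t T R Rd cd Y
  lab : Lab δ p k S A j ψ W t ε
  pf : PosF δ p k A j ψ W t ε jf u
  pc : PosC δ p k A j ψ W t Kc Bb rc cb u
  pce : PosE δ ψ W t Kc Bb PE ε u
  pp : PosP δ p k S A j ψ W t q PE a l ε h u
  cl : CutL p k S jf q PE a l Kc Bb B κ
  fz : Fz p k S A j Kc κ ω₀
  geo : Geo1 u₀ U c
  hu : u₀ ≤ u
  hU : u ≤ U
  u0 : 0 < u₀
  eps : 0 < ε
  epsc : 8 * ε ≤ c
  rcc : rc ≤ c / 2
  sm : ∀ C ⊆ ψ '' loewnerDomain W t, IsPreconnected C →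
    (∀ x ∈ C, ∀ y ∈ C, dist x y ≤ max h (8 * δ)) →
    ∀ x ∈ C, ∀ y ∈ C, dist (chi ψ W t x) (chi ψ W t y) ≤ ε
  vis : ∀ i ≤ j - 1, fc (run p k A i) ∈ S → ∀ v, CrnS v (H192.rf (fc (run p k A i))) →
    ∀ z ∈ Dsq δ v, z ∈ ψ '' loewnerDomain W t → ∃ w ∈ loewnerDomain W t, ψ w = z ∧
      ‖Zf W w t‖ ≤ u₀ / 2

variable {δ : ℝ} {p : ZMod n → ℤ × ℤ} {k : ℕ} {S : Finset (ℤ × ℤ)}
    {A : Finset (Sym2 (ℤ × ℤ))} {j : ℕ} {ψ : ℂ → ℂ} {W : ℝ → ℝ} {t T R Rd cd Y : ℝ}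
    {q : ZMod m → ℤ × ℤ} {PE Kc Bb B : Finset (ℤ × ℤ)} {a l jf : ℕ} {ε h u rc cb : ℝ} {κ ω₀ : Cfg}
    {u₀ U c : ℝ}

theorem crn_of_face (w : ℤ × ℤ) (r : Fin 4) : CrnS (face w r) w ∧ CrnS (face w r) (w + dir r) := by
  obtain ⟨a, b⟩ := w
  rcases H192.fin4_cases r with rfl | rfl | rfl | rfl
  · rw [face0]; simp only [CrnS, dir0, Prod.mk_add_mk, true_or, or_true, true_and, and_true]
    omega
  · rw [face1]; simp only [CrnS, dir1, Prod.mk_add_mk, true_or, or_true, true_and, and_true]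
    omega
  · rw [face2]; simp only [CrnS, dir2, Prod.mk_add_mk, true_or, or_true, true_and, and_true]
    omega
  · rw [face3]; simp only [CrnS, dir3, Prod.mk_add_mk, true_or, or_true, true_and, and_true]
    omega

/-- The points of a closed square are near its midpoint. -/
theorem dist_mq {δ : ℝ} (_ : 0 < δ) {v : ℤ × ℤ} {z : ℂ} (hz : z ∈ Dsq δ v) :
    dist z ((δ : ℂ) * mq v) ≤ δ / 2 := by
  have h1 : |z.re - ((δ : ℂ) * mq v).re| + |z.im - ((δ : ℂ) * mq v).im| ≤ δ / 2 := by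
    have e1 : ((δ : ℂ) * mq v).re = (zp δ v).re + δ / 2 := by
      rw [Complex.re_ofReal_mul, zp_re]; simp only [mq]; ring
    have e2 : ((δ : ℂ) * mq v).im = (zp δ v).im := by
      rw [Complex.im_ofReal_mul, zp_im]; simp only [mq]; ring
    rw [e1, e2]
    have h2 : |z.re - (zp δ v).re - δ / 2| + |z.im - (zp δ v).im| ≤ δ / 2 := hz
    have e3 : z.re - ((zp δ v).re + δ / 2) = z.re - (zp δ v).re - δ / 2 := by ring
    rw [e3]
    exact h2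
  rw [dist_eq_norm]
  refine (Complex.norm_le_abs_re_add_abs_im _).trans ?_
  rw [Complex.sub_re, Complex.sub_im]
  exact h1

theorem seg_dist {x y z c : ℂ} {r : ℝ} (hx : dist x c ≤ r) (hy : dist y c ≤ r)
    (hz : z ∈ segment ℝ x y) : dist z c ≤ r := by
  have h1 : segment ℝ x y ⊆ closedBall c r :=
    (convex_closedBall c r).segment_subset (mem_closedBall.2 hx) (mem_closedBall.2 hy)
  exact mem_closedBall.1 (h1 hz)

namespace Ctx

variable (X : Ctx δ p k S A j ψ W t T R Rd cd Y q PE Kc Bb B a l jf ε h u rc cb κ ω₀ u₀ U c)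
include X

theorem hδ : 0 < δ := X.dat.hδ

/-- Points of a fresh closed square. -/
theorem near_sq {v : ℤ × ℤ} (hv : v ∈ FrS p k S A j) {z z' : ℂ} (hz : z ∈ Dsq δ v)
    (hzD : z ∈ ψ '' loewnerDomain W t) (hz' : z' ∈ Dsq δ v) (hzD' : z' ∈ ψ '' loewnerDomain W t) :
    dist (chi ψ W t z) (chi ψ W t z') ≤ ε := by
  have hδ := X.hδ
  have h1 := hzD
  have h2 := hzD'
  rw [X.dat.eqDt] at h1 h2
  have s1 := star_Dt hδ X.dat.hj hv.1 hv.2 hz h1
  have s2 := star_Dt hδ X.dat.hj hv.1 hv.2 hz' h2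
  rw [← X.dat.eqDt] at s1 s2
  have h0 : dist ((δ : ℂ) * mq v) ((δ : ℂ) * mq v) ≤ δ / 2 := by rw [dist_self]; positivity
  refine X.sm (segment ℝ ((δ : ℂ) * mq v) z ∪ segment ℝ ((δ : ℂ) * mq v) z')
    (union_subset s1 s2) ?_ ?_ z (Or.inl (right_mem_segment _ _ _)) z'
    (Or.inr (right_mem_segment _ _ _))
  · exact IsPreconnected.union ((δ : ℂ) * mq v) (left_mem_segment _ _ _) (left_mem_segment _ _ _)
      (convex_segment _ _).isPreconnected (convex_segment _ _).isPreconnected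
  · have key : ∀ x ∈ segment ℝ ((δ : ℂ) * mq v) z ∪ segment ℝ ((δ : ℂ) * mq v) z',
        dist x ((δ : ℂ) * mq v) ≤ δ / 2 := by
      rintro x (hx | hx)
      · exact seg_dist h0 (dist_mq hδ hz) hx
      · exact seg_dist h0 (dist_mq hδ hz') hx
    intro x hx y hy
    have h3 := dist_triangle_right x y ((δ : ℂ) * mq v)
    have h4 := key x hx
    have h5 := key y hy
    exact (by linarith : dist x y ≤ 8 * δ).trans (le_max_right _ _)

/-- Closed squares of `PE`. -/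
theorem sq_PE {v : ℤ × ℤ} (hv : v ∈ PE) : Dsq δ v ⊆ ψ '' loewnerDomain W t := fun z hz =>
  X.pp.mar v hv z hz (mem_ball_self (by have := X.hδ; positivity))

theorem convex_Dsq' (v : ℤ × ℤ) : Convex ℝ (Dsq δ v) := by
  have e : Dsq δ v = (fun w : ℂ => (δ : ℂ) * w) '' Bq v := by
    ext z
    obtain ⟨w, rfl⟩ := exists_unit X.hδ z
    rw [mem_Dsq X.hδ]
    have hδ' : (δ : ℂ) ≠ 0 := by exact_mod_cast X.hδ.ne'
    constructor
    · exact fun hw => ⟨w, hw, rfl⟩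
    · rintro ⟨w', hw', e⟩
      rw [mul_left_cancel₀ hδ' e] at hw'
      exact hw'
  rw [e]
  have hB : Convex ℝ (Bq v) := by
    intro x hx y hy a b ha hb hab
    obtain ⟨h1, h2, h3, h4⟩ := hx
    obtain ⟨g1, g2, g3, g4⟩ := hy
    have e1 : (a • x + b • y).re = a * x.re + b * y.re := by simp
    have e2 : (a • x + b • y).im = a * x.im + b * y.im := by simp
    show _ ≤ _ ∧ _ ≤ _ ∧ _ ≤ _ ∧ _ ≤ _
    rw [e1, e2]
    have hb' : b = 1 - a := by linarith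
    subst hb'
    refine ⟨?_, ?_, ?_, ?_⟩ <;> nlinarith
  exact hB.linear_image (LinearMap.mulLeft ℝ (δ : ℂ))

/-- Consecutive sites of the polygon. -/
theorem step_q (i : ZMod m) : zp δ (q i) ∈ ψ '' loewnerDomain W t ∧
    dist (chi ψ W t (zp δ (q i))) (chi ψ W t (zp δ (q (i + 1)))) ≤ ε := by
  have hδ := X.hδ
  have hin := (enc_out X.pp.hq X.pp.hPE (i := i)).1
  set v := face (q i) (ro q i) with hv
  have c1 : CrnS v (q i) := (crn_of_face (q i) (ro q i)).1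
  have c2 : CrnS v (q (i + 1)) := by
    rw [ro_spec X.pp.hq]
    exact (crn_of_face (q i) (ro q i)).2
  have d1 := crn_Dsq hδ c1
  have d2 := crn_Dsq hδ c2
  refine ⟨X.sq_PE hin d1, ?_⟩
  refine X.sm (Dsq δ v) (X.sq_PE hin) (X.convex_Dsq' v).isPreconnected ?_ _ d1 _ d2
  intro x hx y hy
  have h3 := dist_triangle_right x y ((δ : ℂ) * mq v)
  have h4 := dist_mq hδ hx
  have h5 := dist_mq hδ hy
  exact (by linarith : dist x y ≤ 8 * δ).trans (le_max_right _ _)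

theorem fo_FrS {v : ℤ × ℤ} (hv : v ∈ Fo p k S A j Kc Bb PE) : v ∈ FrS p k S A j := by
  refine dq_FrS X.dat.hA hv.1 fun hR => hv.2.1 ?_
  rw [KK, Finset.mem_union, Finset.mem_union]
  exact Or.inl (Or.inl hR)

/-- The squares of `QC`. -/
theorem qc_near {C : Set ℂ} {y₀ : ℂ} (hC : ∀ z ∈ C, dist (chi ψ W t z) (chi ψ W t y₀) ≤ ε)
    (hCD : C ⊆ ψ '' loewnerDomain W t) {v : ℤ × ℤ} (hv : v ∈ QC p k S A j Kc Bb δ PE C) {z : ℂ}
    (hz : z ∈ Dsq δ v) (hzD : z ∈ ψ '' loewnerDomain W t) :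
    dist (chi ψ W t z) (chi ψ W t y₀) ≤ 2 * ε := by
  obtain ⟨h1, x, hx, hxC⟩ := hv
  have h2 := X.near_sq (X.fo_FrS h1) hz hzD hx (hCD hxC)
  have h3 := hC x hxC
  linarith [dist_triangle (chi ψ W t z) (chi ψ W t x) (chi ψ W t y₀)]

/-- The collar set of a site. -/
theorem exists_C (i : ZMod m) : ∃ C ⊆ ψ '' loewnerDomain W t, IsPreconnected C ∧ zp δ (q i) ∈ C ∧
    (∀ z ∈ C, dist (chi ψ W t z) (chi ψ W t (zp δ (q i))) ≤ ε) ∧
    (∀ z ∈ C, ∃ v, v ∉ PE ∧ z ∈ Dsq δ v) ∧ ∃ z ∈ C, Near p k S A δ (j - 1) z := by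
  obtain ⟨C, h1, h2, h3, h4, h5, h6⟩ := X.pp.col i
  exact ⟨C, h1, h2, h3, fun z hz => X.sm C h1 h2
    (fun x hx y hy => (h4 x hx y hy).trans (le_max_left _ _)) z hz _ h3, h5, h6⟩

theorem pos_chi' {I : Set ℝ} {ε' : ℝ} {z : ℂ} (h : Pos ψ W t ε' I z) :
    ∃ x ∈ I, dist (chi ψ W t z) (mx x) ≤ ε' := (pos_chi X.dat.conf X.dat.drv h).2

/-- Squares of the cut do not meet the collar set of a site away from the foot. -/
theorem off_cut {C : Set ℂ} {y₀ : ℂ} (hC : ∀ z ∈ C, dist (chi ψ W t z) (chi ψ W t y₀) ≤ ε)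
    (hCD : C ⊆ ψ '' loewnerDomain W t) (hCP : ∀ z ∈ C, ∃ v, v ∉ PE ∧ z ∈ Dsq δ v)
    (hy : 3 * ε ≤ dist (chi ψ W t y₀) (mx u)) : ∀ v ∈ Kc ∪ Bb, Disjoint (Dsq δ v) C := by
  intro v hv
  rw [Set.disjoint_left]
  intro z hz hzC
  obtain ⟨x, hx, hd⟩ := X.pos_chi' (X.pce.edge v hv z hz (hCD hzC) (hCP z hzC))
  rw [mem_singleton_iff] at hx
  subst hx
  have h1 := hC z hzC
  rw [dist_comm] at h1
  have h2 := dist_triangle (chi ψ W t y₀) (chi ψ W t z) (mx x)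
  have := X.eps
  linarith

end Ctx

end Vale.Agent.P167.H531
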