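import Vale.Agent.P167.H531.Asm2
import Vale.Agent.P167.H634.Col

/-!
# P167, CONT-ASM: straight collars
-/

set_option linter.unusedSectionVars false

namespace Vale.Agent.P167.H531

open Set Metric MeasureTheory Vale.Agent.P167 Vale.Agent.P167.E6 Vale.Agent.P167.E2
open Vale.Agent.P167.H558
open Vale.Agent.P145.FB (PStep)
open Vale.Agent.P167.H161 (zp zp_re zp_im SegIn zp_ro zp_rf CrU Cin Cout)
open Vale.Agent.P167.H634 (RO LO Near cf)
open Vale.Agent.P167.H756 (HConf Drv)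
open Vale.Agent.P164 (loewnerDomain Zf)
open Vale.Agent.P153.R2.R1 (mb)

variable {n m : ℕ} {δ : ℝ} {p : ZMod n → ℤ × ℤ} {k : ℕ} {S : Finset (ℤ × ℤ)}
    {A : Finset (Sym2 (ℤ × ℤ))} {j : ℕ} {ψ : ℂ → ℂ} {W : ℝ → ℝ} {t T R Rd cd Y : ℝ}
    {q : ZMod m → ℤ × ℤ} {PE Kc Bb B : Finset (ℤ × ℤ)} {a l jf : ℕ} {ε h u rc cb : ℝ} {κ ω₀ : Cfg}
    {u₀ U c : ℝ}

theorem tri4 {x y z w : ℂ} {a b c : ℝ} (h1 : dist x y ≤ a) (h2 : dist y z ≤ b) (h3 : dist z w ≤ c) :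
    dist x w ≤ a + b + c := by
  linarith [dist_triangle x y z, dist_triangle x z w]

namespace Ctx

variable (X : Ctx δ p k S A j ψ W t T R Rd cd Y q PE Kc Bb B a l jf ε h u rc cb κ ω₀ u₀ U c)
include X

/-- The centre of the inner face of a polygon edge. -/
theorem fi_near {i : ℕ} (hun : Unr p k A j i) {z : ℂ}
    (hz : z ∈ Dsq δ (H192.sq (pe p (i : ZMod n)))) (hzD : z ∈ ψ '' loewnerDomain W t) :
    dist (chi ψ W t z) (chi ψ W t (cf δ (fi p (i : ZMod n)))) ≤ ε := by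
  have hδ := X.hδ
  have hp := X.dat.hp
  have he : H192.ed (H192.sq (pe p (i : ZMod n))) = pe p (i : ZMod n) := by
    rw [H192.ed_sq]
    exact ⟨p i, ro p i, pe_eq hp _⟩
  have hin := (enc_out hp X.dat.hS (i := (i : ZMod n))).1
  have hv : H192.sq (pe p (i : ZMod n)) ∈ FrS p k S A j := by
    refine ⟨?_, ?_⟩
    · rw [he, pe_eq hp]
      exact (mem_edges _).2 (Or.inl hin)
    · intro i' hi'
      rw [he]
      exact hun i' hi'
  have hc : CrnS (H192.sq (pe p (i : ZMod n))) (H192.rf (fi p (i : ZMod n))) := by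
    have h1 := stM_faces (p i) (ro p i)
    rw [← pe_eq hp] at h1
    exact (stM_crn h1).1
  rw [← zp_cf]
  refine X.near_sq hv hz hzD (crn_Dsq hδ hc) ?_
  rw [X.dat.eqDt]
  refine site_Dt hδ X.dat.hj (face_Om hδ (odd_rf_mod _) ?_)
  rw [H192.rf'_rf]
  exact hin

/-- **Straight collars on the left side.** -/
theorem left_col {i : ℕ} (hi : i ≤ a) (he : ((q (i : ZMod m)).1 + (q (i : ZMod m)).2) % 2 = 0)
    {r : ℝ} (hr : 5 * ε ≤ r) (h1 : r ≤ dist (chi ψ W t (zp δ (q (i : ZMod m)))) (-1))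
    (h2 : r ≤ dist (chi ψ W t (zp δ (q (i : ZMod m)))) 1) :
    ∃ Q ⊆ Fo p k S A j Kc Bb PE, (∃ x ∈ H192.ro '' arcV p k (n - 1),
      Cn (StM 0) (Q ∪ Gop p k S (KK p k S A j Kc Bb) ω₀) x (q (i : ZMod m))) ∧
      ∀ v ∈ Q, ∀ z ∈ Dsq δ v, z ∈ ψ '' loewnerDomain W t →
        dist (chi ψ W t z) (chi ψ W t (zp δ (q (i : ZMod m)))) ≤ 2 * ε := by
  have hε := X.eps
  obtain ⟨C, hCD, hC, hyC, hCn, hCP, hN⟩ := X.exists_C (i : ZMod m)
  obtain ⟨x, hx, hxd⟩ := X.pos_chi' (X.pp.pos1 i hi)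
  rw [mem_Iic] at hx
  have hxd' := hxd
  rw [dist_comm] at hxd'
  have hRO : Disjoint C (RO p k S A δ (j - 1)) := by
    refine H634.disj_RO X.lab hCD fun z hz hpos => ?_
    obtain ⟨x', hx', hd'⟩ := X.pos_chi' hpos
    rw [mem_Ici] at hx'
    have h3 := hCn z hz
    rw [dist_comm] at h3
    have h4 := tri4 hxd' h3 hd'
    have h5 := mx_sides hx hx'
    have h6 := dist_triangle (chi ψ W t (zp δ (q (i : ZMod m)))) (mx x) (-1)
    have h7 := dist_triangle (chi ψ W t (zp δ (q (i : ZMod m)))) (mx x) 1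
    rcases min_le_iff.1 h5 with h8 | h8 <;> linarith
  have hoff := X.off_cut (y₀ := zp δ (q (i : ZMod m))) hCn hCD hCP (by
    have h3 := X.geo.left u X.hu X.hU x hx
    have h4 := dist_triangle (mx x) (chi ψ W t (zp δ (q (i : ZMod m)))) (mx u)
    have := X.epsc
    linarith)
  have hcol := H634.s_col1 X.j0 X.dat X.pp.hq X.pp.hPE X.pp.mar X.fz hCD hC hCP hN hoff hRO he hyC
  exact ⟨_, fun v hv => hv.1, hcol, fun v hv z hz hzD => X.qc_near hCn hCD hv hz hzD⟩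

/-- **Straight collars on the right side before the foot.** -/
theorem right_col {i : ℕ} (hai : a ≤ i) (hi : i ≤ l)
    (he : ((q (i : ZMod m)).1 + (q (i : ZMod m)).2) % 2 = 1)
    {r : ℝ} (hr : 5 * ε ≤ r) (h1 : r ≤ dist (chi ψ W t (zp δ (q (i : ZMod m)))) (-1))
    {r' : ℝ} (hr' : 6 * ε ≤ r') (h2 : r' ≤ dist (chi ψ W t (zp δ (q (i : ZMod m)))) (mx u)) :
    ∃ Q ⊆ Fo p k S A j Kc Bb PE, (∃ x ∈ arcF0 n jf,
      Cn (StQ p S) (Q ∪ Gcl p k S (KK p k S A j Kc Bb) ω₀) x (dmo n (q (i : ZMod m)))) ∧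
      ∀ v ∈ Q, ∀ z ∈ Dsq δ v, z ∈ ψ '' loewnerDomain W t →
        dist (chi ψ W t z) (chi ψ W t (zp δ (q (i : ZMod m)))) ≤ 2 * ε := by
  have hε := X.eps
  have hεc := X.epsc
  obtain ⟨C, hCD, hC, hyC, hCn, hCP, hN⟩ := X.exists_C (i : ZMod m)
  obtain ⟨x, ⟨hx0, hxu⟩, hxd⟩ := X.pos_chi' (X.pp.pos2 i hai hi)
  have hxd' := hxd
  rw [dist_comm] at hxd'
  have hLO : Disjoint C (LO p k A δ (j - 1)) := by
    refine H634.disj_LO X.lab hCD fun z hz hpos => ?_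
    obtain ⟨x', hx', hd'⟩ := X.pos_chi' hpos
    rw [mem_Iic] at hx'
    rw [dist_comm] at hd'
    have h3 := hCn z hz
    have h4 := tri4 hd' h3 hxd
    have h5 := mx_sides' hx' hx0
    have h6 := dist_triangle (chi ψ W t (zp δ (q (i : ZMod m)))) (mx x) (-1)
    have h7 := X.geo.one x hx0 (hxu.trans X.hU)
    rcases min_le_iff.1 h5 with h8 | h8 <;> linarith
  have hoff := X.off_cut (y₀ := zp δ (q (i : ZMod m))) hCn hCD hCP (by linarith)
  have hidx : ∀ i' : ℕ, jf ≤ i' → i' < k →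
      Disjoint (Dsq δ (H192.sq (pe p (i' : ZMod n)))) C := by
    intro i' h3 h4
    rw [Set.disjoint_left]
    intro z hz hzC
    have h5 := X.fi_near (X.pf.unr i' h3 h4) hz (hCD hzC)
    obtain ⟨x', hx', hd'⟩ := X.pos_chi' (X.pf.hi i' h3 h4 (X.pf.unr i' h3 h4))
    rw [mem_Ici] at hx'
    have h6 := hCn z hzC
    rw [dist_comm] at h6
    have h7 := tri4 hxd' h6 h5
    have h8 := dist_triangle (mx x) (chi ψ W t (cf δ (fi p (i' : ZMod n)))) (mx x')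
    have h9 := (mx_btw hx0 hxu hx').1
    have h10 := dist_triangle (chi ψ W t (zp δ (q (i : ZMod m)))) (mx x) (mx u)
    have h11 : dist (chi ψ W t (cf δ (fi p (i' : ZMod n)))) (mx x') ≤ ε := hd'
    linarith
  have hcol := H634.s_col2 X.j0 X.dat X.pp.hq X.pp.hPE X.pp.mar X.cl.hjk X.pf.unr X.fz hCD hC hCP hN
    hoff hLO he hyC hidx
  exact ⟨_, fun v hv => hv.1, hcol, fun v hv z hz hzD => X.qc_near hCn hCD hv hz hzD⟩

/-- **Straight collars on the right side beyond the foot.** -/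
theorem far_col {i : ℕ} (hai : l ≤ i) (hi : i ≤ m)
    (he : ((q (i : ZMod m)).1 + (q (i : ZMod m)).2) % 2 = 1)
    {r : ℝ} (hr : 5 * ε ≤ r) (h1 : r ≤ dist (chi ψ W t (zp δ (q (i : ZMod m)))) 1)
    {r' : ℝ} (hr' : 6 * ε ≤ r') (h2 : r' ≤ dist (chi ψ W t (zp δ (q (i : ZMod m)))) (mx u)) :
    ∃ Q ⊆ Fo p k S A j Kc Bb PE, (∃ x ∈ arcF n jf k,
      Cn (StQ p S) (Q ∪ Gcl p k S (KK p k S A j Kc Bb) ω₀) x (dmo n (q (i : ZMod m)))) ∧
      ∀ v ∈ Q, ∀ z ∈ Dsq δ v, z ∈ ψ '' loewnerDomain W t →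
        dist (chi ψ W t z) (chi ψ W t (zp δ (q (i : ZMod m)))) ≤ 2 * ε := by
  have hε := X.eps
  have hεc := X.epsc
  have hu0 : 0 ≤ u := X.u0.le.trans X.hu
  obtain ⟨C, hCD, hC, hyC, hCn, hCP, hN⟩ := X.exists_C (i : ZMod m)
  obtain ⟨x, hxu, hxd⟩ := X.pos_chi' (X.pp.pos4 i hai hi)
  rw [mem_Ici] at hxu
  have hx0 : 0 ≤ x := hu0.trans hxu
  have hxd' := hxd
  rw [dist_comm] at hxd'
  have hLO : Disjoint C (LO p k A δ (j - 1)) := by
    refine H634.disj_LO X.lab hCD fun z hz hpos => ?_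
    obtain ⟨x', hx', hd'⟩ := X.pos_chi' hpos
    rw [mem_Iic] at hx'
    rw [dist_comm] at hd'
    have h3 := hCn z hz
    have h4 := tri4 hd' h3 hxd
    have h5 := mx_sides' hx' hx0
    have h6 := dist_triangle (chi ψ W t (zp δ (q (i : ZMod m)))) (mx x) 1
    have h7 := X.geo.neg x (X.hu.trans hxu)
    rcases min_le_iff.1 h5 with h8 | h8 <;> linarith
  have hoff := X.off_cut (y₀ := zp δ (q (i : ZMod m))) hCn hCD hCP (by linarith)
  have hidx : ∀ i' : ℕ, (i' < jf ∨ i' = n - 1) → Unr p k A j i' →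
      Disjoint (Dsq δ (H192.sq (pe p (i' : ZMod n)))) C := by
    intro i' h3 h4
    rw [Set.disjoint_left]
    intro z hz hzC
    have h5 := X.fi_near h4 hz (hCD hzC)
    obtain ⟨x', ⟨hx0', hxu'⟩, hd'⟩ := X.pos_chi' (X.pf.lo i' h3 h4)
    have h6 := hCn z hzC
    rw [dist_comm] at h6
    have h7 := tri4 hxd' h6 h5
    have h8 := dist_triangle (mx x) (chi ψ W t (cf δ (fi p (i' : ZMod n)))) (mx x')
    have h9 := (mx_btw hx0' hxu' hxu).2
    rw [dist_comm (mx u), dist_comm (mx x')] at h9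
    have h10 := dist_triangle (chi ψ W t (zp δ (q (i : ZMod m)))) (mx x) (mx u)
    have h11 : dist (chi ψ W t (cf δ (fi p (i' : ZMod n)))) (mx x') ≤ ε := hd'
    linarith
  have hvis : ∀ i' ≤ j - 1, fc (run p k A i') ∈ S → ∀ v, CrnS v (H192.rf (fc (run p k A i'))) →
      Disjoint (Dsq δ v) C := by
    intro i' h3 h4 v h5
    rw [Set.disjoint_left]
    intro z hz hzC
    obtain ⟨w, hw, rfl, hn⟩ := X.vis i' h3 h4 v h5 z hz (hCD hzC)
    have h6 := hCn _ hzC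
    rw [chi_eq X.dat.conf X.dat.drv hw] at h6
    have h7 := X.geo.small _ (Vale.Agent.P164.Zf_im_pos X.dat.drv.nn hw) hn x (X.hu.trans hxu)
    have h8 := dist_triangle (mb 1 Complex.I (Zf W w t)) (chi ψ W t (zp δ (q (i : ZMod m)))) (mx x)
    linarith
  have hcol := H634.s_col4 X.j0 X.dat X.pp.hq X.pp.hPE X.pp.mar X.cl.hjk X.fz hCD hC hCP hN
    hoff hLO he hyC hidx hvis
  exact ⟨_, fun v hv => hv.1, hcol, fun v hv z hz hzD => X.qc_near hCn hCD hv hz hzD⟩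

end Ctx

end Vale.Agent.P167.H531
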