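import Vale.Agent.P167.H531.Hcmp

/-!
# P167: the outer walk along a polygon of the medial grid

Consecutive sites of one colour of the polygon are joined by squares which are not enclosed and
which touch the site in between.
-/

set_option linter.unusedSectionVars false

namespace Vale.Agent.P167.H531

open Vale.Agent.P167 Vale.Agent.P167.E6 Vale.Agent.P167.E2 Set

variable {m : ℕ} {q : ZMod m → ℤ × ℤ} {PE : Finset (ℤ × ℤ)}

/-- The square `v` has the corner `w`. -/
def Cor (w v : ℤ × ℤ) : Prop := ∃ r, v = face w r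

theorem stM_turn (w : ℤ × ℤ) (r : Fin 4) (c : ℤ) (hc : (w.1 + w.2) % 2 ≠ c) (hc2 : c = 0 ∨ c = 1) :
    StM c (face w r) (w + dir r) (w + dir (r + 1)) := by
  have h0 : (0 : Fin 4) + 1 = 1 := rfl
  have h1 : (1 : Fin 4) + 1 = 2 := rfl
  have h2 : (2 : Fin 4) + 1 = 3 := rfl
  have h3 : (3 : Fin 4) + 1 = 0 := rfl
  rcases H192.fin4_cases r with rfl | rfl | rfl | rfl
  · rw [h0, face0]
    simp only [StM, dir0, dir1, Prod.fst_add, Prod.snd_add, Prod.mk.injEq]
    omega
  · rw [h1, face1]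
    simp only [StM, dir1, dir2, Prod.fst_add, Prod.snd_add, Prod.mk.injEq]
    omega
  · rw [h2, face2]
    simp only [StM, dir2, dir3, Prod.fst_add, Prod.snd_add, Prod.mk.injEq]
    omega
  · rw [h3, face3]
    simp only [StM, dir3, dir0, Prod.fst_add, Prod.snd_add, Prod.mk.injEq]
    omega

/-- The squares outside of `PE` at a site of the polygon. -/
def Os (q : ZMod m → ℤ × ℤ) (PE : Finset (ℤ × ℤ)) (i : ZMod m) : Set (ℤ × ℤ) :=
  {v | v ∉ PE ∧ Cor (q i) v}

/-- If the square `face w r` is outside and `face w (r - 1)` is inside then the polygon comes to `w`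
from `w + dir r`. -/
theorem in_edge (hq : IsPolygon q) (hPE : Encloses q PE) {i : ZMod m} {r : Fin 4}
    (h1 : face (q i) (r - 1) ∈ PE) (h2 : face (q i) r ∉ PE) : q (i - 1) = q i + dir r := by
  have h3 : face (q i + dir r) (r + 2) ∈ PE := by rwa [face_right]
  have h4 : face (q i + dir r) (r + 2 - 1) ∉ PE := by
    have : r + 2 - 1 = r + 1 := by
      clear h1 h2 h3
      revert r; decide
    rwa [this, face_left]
  obtain ⟨j, hj, hj1⟩ := (hPE _ _).2 ⟨h3, h4⟩
  rw [dir_add_two'] at hj1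
  have : j + 1 = i := hq.2.1 hj1
  have h5 : i - 1 = j := by rw [← this, add_sub_cancel_right]
  rw [h5, hj]

theorem outer_step (hq : IsPolygon q) (hPE : Encloses q PE) (i : ZMod m) {c : ℤ}
    (hc : ((q i).1 + (q i).2) % 2 ≠ c) (hc2 : c = 0 ∨ c = 1) :
    Cn (StM c) (Os q PE i) (q (i - 1)) (q (i + 1)) := by
  set w := q i with hw
  have hfin : ∀ r : Fin 4, face w r ∉ PE → Cn (StM c) (Os q PE i) (w + dir (r + 1))
      (w + dir (ro q i)) → Cn (StM c) (Os q PE i) (w + dir r) (w + dir (ro q i)) := by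
    intro r h1 h2
    exact Relation.ReflTransGen.head ⟨face w r, ⟨h1, r, rfl⟩, stM_turn w r c hc hc2⟩ h2
  have step : ∀ r : Fin 4, face w r ∉ PE →
      Cn (StM c) (Os q PE i) (w + dir (r + 1)) (w + dir (ro q i)) →
      Cn (StM c) (Os q PE i) (q (i - 1)) (w + dir (ro q i)) ∨
        (face w (r - 1) ∉ PE ∧ Cn (StM c) (Os q PE i) (w + dir r) (w + dir (ro q i))) := by
    intro r h1 h2
    have h3 := hfin r h1 h2
    by_cases h4 : face w (r - 1) ∈ PE
    · left
      rw [in_edge hq hPE h4 h1]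
      exact h3
    · exact Or.inr ⟨h4, h3⟩
  rw [ro_spec hq]
  set r := ro q i with hr
  have e0 : r - 1 + 1 = r := sub_add_cancel _ _
  have e1 : ∀ r : Fin 4, r - 1 - 1 + 1 = r - 1 := by decide
  have e2 : ∀ r : Fin 4, r - 1 - 1 - 1 + 1 = r - 1 - 1 := by decide
  have e3 : ∀ r : Fin 4, r - 1 - 1 - 1 - 1 = r := by decide
  have hin : face w r ∈ PE := (enc_out hq hPE).1
  rcases step (r - 1) (enc_out hq hPE).2 (by rw [e0]; exact Cn.refl _ _) with h | ⟨h1, h2⟩
  · exact h
  rcases step (r - 1 - 1) h1 (by rw [e1]; exact h2) with h | ⟨h3, h4⟩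
  · exact h
  rcases step (r - 1 - 1 - 1) h3 (by rw [e2]; exact h4) with h | ⟨h5, -⟩
  · exact h
  · rw [e3] at h5
    exact absurd hin h5

/-- The squares outside of `PE` at the sites with index in `[i, j]`. -/
def Oa (q : ZMod m → ℤ × ℤ) (PE : Finset (ℤ × ℤ)) (i j : ℕ) : Set (ℤ × ℤ) :=
  {v | v ∉ PE ∧ ∃ t : ℕ, i ≤ t ∧ t ≤ j ∧ Cor (q (t : ZMod m)) v}

/-- **The outer walk.** -/
theorem outer_walk (hq : IsPolygon q) (hPE : Encloses q PE) {i k : ℕ} {c : ℤ}
    (hi : ((q (i : ZMod m)).1 + (q (i : ZMod m)).2) % 2 = c) :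
    Cn (StM c) (Oa q PE i (i + 2 * k)) (q (i : ZMod m)) (q ((i + 2 * k : ℕ) : ZMod m)) ∧
      ((q ((i + 2 * k : ℕ) : ZMod m)).1 + (q ((i + 2 * k : ℕ) : ZMod m)).2) % 2 = c := by
  have hc2 : c = 0 ∨ c = 1 := by omega
  induction k with
  | zero => exact ⟨Cn.refl _ _, hi⟩
  | succ k ih =>
    obtain ⟨h1, h2⟩ := ih
    set t : ZMod m := ((i + 2 * k : ℕ) : ZMod m) with ht
    have e1 : ((i + 2 * (k + 1) : ℕ) : ZMod m) = t + 1 + 1 := by
      rw [ht]
      push_cast
      ring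
    have p1 := par_step hq t
    have p2 := par_step hq (t + 1)
    have h3 := outer_step hq hPE (t + 1) (c := c) (by omega) hc2
    rw [add_sub_cancel_right] at h3
    rw [e1]
    refine ⟨(h1.mono ?_).trans (h3.mono ?_), by omega⟩
    · rintro v ⟨hv, s, hs1, hs2, hs3⟩
      exact ⟨hv, s, hs1, by omega, hs3⟩
    · rintro v ⟨hv, hs3⟩
      refine ⟨hv, i + 2 * k + 1, by omega, by omega, ?_⟩
      have e2 : ((i + 2 * k + 1 : ℕ) : ZMod m) = t + 1 := by
        rw [ht]
        push_cast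
        ring
      rw [e2]
      exact hs3

/-! ### Odd sites as dual sites of the domain -/

variable {n : ℕ} {p : ZMod n → ℤ × ℤ} {S : Finset (ℤ × ℤ)}

/-- Paths of odd sites along squares whose odd sites are enclosed faces. -/
theorem cn_dmo (hp : IsPolygon p) (hS : Encloses p S) {F : Set (ℤ × ℤ)}
    (hF : ∀ v ∈ F, ∀ x y, StM 1 v x y → H192.rf' x ∈ S) {x y : ℤ × ℤ} (h : Cn (StM 1) F x y) :
    Cn (StQ p S) F (dmo n x) (dmo n y) := by
  induction h with
  | refl => exact Cn.refl _ _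
  | tail _ hbc ih =>
    obtain ⟨v, hv, hs⟩ := hbc
    refine ih.tail ⟨v, hv, stM1_stQ hp hS (P := {v}) ?_ (Finset.mem_singleton_self v) hs⟩
    intro w hw
    rw [Finset.mem_singleton.1 hw]
    exact hF v hv

end Vale.Agent.P167.H531
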