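import Vale.Agent.P167.H531.Asm3
import Vale.Agent.P167.H542.Walk

/-!
# P167, CONT-ASM: the choice of the collar (straight, or a walk near the foot)
-/

set_option linter.unusedSectionVars false

namespace Vale.Agent.P167.H531

open Set Metric MeasureTheory Vale.Agent.P167 Vale.Agent.P167.E6 Vale.Agent.P167.E2
open Vale.Agent.P167.H558
open Vale.Agent.P145.FB (PStep)
open Vale.Agent.P167.H161 (zp zp_re zp_im SegIn zp_ro zp_rf CrU Cin Cout)
open Vale.Agent.P167.H634 (RO LO Near cf)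
open Vale.Agent.P167.H756 (HConf Drv)
open Vale.Agent.P164 (loewnerDomain Zf)
open Vale.Agent.P153.R2.R1 (mb)

variable {n m : ℕ} {δ : ℝ} {p : ZMod n → ℤ × ℤ} {k : ℕ} {S : Finset (ℤ × ℤ)}
    {A : Finset (Sym2 (ℤ × ℤ))} {j : ℕ} {ψ : ℂ → ℂ} {W : ℝ → ℝ} {t T R Rd cd Y : ℝ}
    {q : ZMod m → ℤ × ℤ} {PE Kc Bb B : Finset (ℤ × ℤ)} {a l jf : ℕ} {ε h u rc cb : ℝ} {κ ω₀ : Cfg}
    {u₀ U c : ℝ}

theorem par_add (hq : IsPolygon q) (i c : ℕ)
    (hi : ((q (i : ZMod m)).1 + (q (i : ZMod m)).2) % 2 = 1) :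
    ((q ((i + 2 * c : ℕ) : ZMod m)).1 + (q ((i + 2 * c : ℕ) : ZMod m)).2) % 2 = 1 := by
  induction c with
  | zero => simpa using hi
  | succ c ih =>
    have p1 := par_step hq ((i + 2 * c : ℕ) : ZMod m)
    have p2 := par_step hq (((i + 2 * c : ℕ) : ZMod m) + 1)
    have e : ((i + 2 * (c + 1) : ℕ) : ZMod m) = ((i + 2 * c : ℕ) : ZMod m) + 1 + 1 := by
      push_cast; ring
    rw [e]
    omega

theorem par_sub (hq : IsPolygon q) (i c : ℕ)
    (hi : ((q ((i + 2 * c : ℕ) : ZMod m)).1 + (q ((i + 2 * c : ℕ) : ZMod m)).2) % 2 = 1) :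
    ((q (i : ZMod m)).1 + (q (i : ZMod m)).2) % 2 = 1 := by
  induction c with
  | zero => simpa using hi
  | succ c ih =>
    apply ih
    have p1 := par_step hq ((i + 2 * c : ℕ) : ZMod m)
    have p2 := par_step hq (((i + 2 * c : ℕ) : ZMod m) + 1)
    have e : ((i + 2 * (c + 1) : ℕ) : ZMod m) = ((i + 2 * c : ℕ) : ZMod m) + 1 + 1 := by
      push_cast; ring
    rw [e] at hi
    omega

namespace Ctx

variable (X : Ctx δ p k S A j ψ W t T R Rd cd Y q PE Kc Bb B a l jf ε h u rc cb κ ω₀ u₀ U c)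
include X

/-- The distance of the site `q i` to the foot, in the chart. -/
theorem step_nat (i : ℕ) :
    dist (chi ψ W t (zp δ (q (i : ZMod m)))) (chi ψ W t (zp δ (q ((i + 1 : ℕ) : ZMod m)))) ≤ ε := by
  have h1 := (X.step_q (i : ZMod m)).2
  have e : ((i + 1 : ℕ) : ZMod m) = (i : ZMod m) + 1 := by push_cast; ring
  rw [e]
  exact h1

theorem u_nonneg : 0 ≤ u := X.u0.le.trans X.hu

/-- The target is away from the foot. -/
theorem d_zero : 2 * c - ε ≤ dist (chi ψ W t (zp δ (q ((0 : ℕ) : ZMod m)))) (mx u) := by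
  obtain ⟨x, hx, hd⟩ := X.pos_chi' (X.pp.pos1 0 (Nat.zero_le _))
  rw [mem_Iic] at hx
  have h1 := X.geo.left u X.hu X.hU x hx
  have h2 := dist_triangle (mx x) (chi ψ W t (zp δ (q ((0 : ℕ) : ZMod m)))) (mx u)
  rw [dist_comm] at hd
  linarith

theorem d_a : 2 * c - ε ≤ dist (chi ψ W t (zp δ (q (a : ZMod m)))) (mx u) := by
  obtain ⟨x, hx, hd⟩ := X.pos_chi' (X.pp.pos1 a le_rfl)
  rw [mem_Iic] at hx
  have h1 := X.geo.left u X.hu X.hU x hx
  have h2 := dist_triangle (mx x) (chi ψ W t (zp δ (q (a : ZMod m)))) (mx u)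
  rw [dist_comm] at hd
  linarith

theorem l_lt : l < m := by
  refine lt_of_le_of_ne X.pp.hlm fun e => ?_
  have h1 := X.d_zero
  obtain ⟨x, hx, hd⟩ := X.pos_chi' X.pp.posl
  rw [mem_singleton_iff] at hx
  subst hx
  have e2 : (l : ZMod m) = ((0 : ℕ) : ZMod m) := by
    rw [e]; simp
  rw [e2] at hd
  have := X.epsc
  have := X.geo.pos
  have := X.eps
  linarith

theorem d_m : 2 * c - ε ≤ dist (chi ψ W t (zp δ (q (m : ZMod m)))) (mx u) := by
  have h1 := X.d_zero
  have e2 : (m : ZMod m) = ((0 : ℕ) : ZMod m) := by simp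
  rw [e2]
  exact h1

/-- The squares of an outer walk all of whose odd sites (but one end) are near the foot. -/
theorem ow_near {s s' : ℕ} {r_f : ℝ}
    (hs : ∀ t' : ℕ, s < t' → t' < s' → ((q (t' : ZMod m)).1 + (q (t' : ZMod m)).2) % 2 = 0 →
      dist (chi ψ W t (zp δ (q (t' : ZMod m)))) (mx u) ≤ r_f + ε) {v : ℤ × ℤ}
    (hv : v ∈ Ow p k S A j Kc Bb PE q s s') {z : ℂ} (hz : z ∈ Dsq δ v)
    (hzD : z ∈ ψ '' loewnerDomain W t) : dist (chi ψ W t z) (mx u) ≤ r_f + 4 * ε := by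
  obtain ⟨hvF, t', h1, h2, h3, h4⟩ := hv
  have h5 := X.near_sq (X.fo_FrS hvF) hz hzD (crn_Dsq X.hδ h4) (X.step_q (t' : ZMod m)).1
  have h6 := hs t' h1 h2 h3
  have h7 := dist_triangle (chi ψ W t z) (chi ψ W t (zp δ (q (t' : ZMod m)))) (mx u)
  have := X.eps
  linarith

/-- **The collar at an odd site before the foot.** -/
theorem exists_right {i : ℕ} (hai : a ≤ i) (hi : i ≤ l)
    (he : ((q (i : ZMod m)).1 + (q (i : ZMod m)).2) % 2 = 1)
    {r : ℝ} (hr : 5 * ε ≤ r) (h1 : r ≤ dist (chi ψ W t (zp δ (q (i : ZMod m)))) (-1))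
    {r_f : ℝ} (hr' : 6 * ε ≤ r_f) (hrf : r_f ≤ c / 2) :
    ∃ Q ⊆ Fo p k S A j Kc Bb PE, (∃ x ∈ arcF0 n jf,
      Cn (StQ p S) (Q ∪ Gcl p k S (KK p k S A j Kc Bb) ω₀) x (dmo n (q (i : ZMod m)))) ∧
      ((∃ x, 0 ≤ x ∧ x ≤ u ∧ r - ε ≤ dist (mx x) (-1) ∧ ∀ v ∈ Q, ∀ z ∈ Dsq δ v,
        z ∈ ψ '' loewnerDomain W t → dist (chi ψ W t z) (mx x) ≤ 3 * ε) ∨
      (∀ v ∈ Q, ∀ z ∈ Dsq δ v, z ∈ ψ '' loewnerDomain W t →
        dist (chi ψ W t z) (mx u) ≤ r_f + 4 * ε)) := by
  have hε := X.eps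
  have hεc := X.epsc
  have hc := X.geo.pos
  set D : ℕ → ℝ := fun i => dist (chi ψ W t (zp δ (q (i : ZMod m)))) (mx u) with hD
  have hstep : ∀ i, |D (i + 1) - D i| ≤ ε := by
    intro i
    have h2 := X.step_nat i
    have h3 := abs_dist_sub_le (chi ψ W t (zp δ (q ((i + 1 : ℕ) : ZMod m))))
      (chi ψ W t (zp δ (q (i : ZMod m)))) (mx u)
    rw [dist_comm] at h2
    exact h3.trans h2
  rcases le_or_gt r_f (D i) with hDi | hDi
  · -- straight
    obtain ⟨Q, hQ, hcn, hnear⟩ := X.right_col hai hi he hr h1 hr' hDi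
    obtain ⟨x, ⟨hx0, hxu⟩, hxd⟩ := X.pos_chi' (X.pp.pos2 i hai hi)
    refine ⟨Q, hQ, hcn, Or.inl ⟨x, hx0, hxu, ?_, fun v hv z hz hzD => ?_⟩⟩
    · have h2 := dist_triangle (chi ψ W t (zp δ (q (i : ZMod m)))) (mx x) (-1)
      linarith
    · have h2 := hnear v hv z hz hzD
      have h3 := dist_triangle (chi ψ W t z) (chi ψ W t (zp δ (q (i : ZMod m)))) (mx x)
      linarith
  · -- walk
    have hil : i < l := by
      refine lt_of_le_of_ne hi fun e => ?_
      have := X.pp.hy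
      rw [e] at he
      omega
    have hex : ∃ c', a + 2 * c' ≤ i ∧ r_f ≤ D (i - 2 * c') := by
      have h2 := X.d_a
      rcases Nat.even_or_odd (i - a) with ⟨b, hb⟩ | ⟨b, hb⟩
      · refine ⟨b, by omega, ?_⟩
        have e : i - 2 * b = a := by omega
        rw [e]
        show _ ≤ dist (chi ψ W t (zp δ (q (a : ZMod m)))) (mx u)
        linarith
      · refine ⟨b, by omega, ?_⟩
        have e : i - 2 * b = a + 1 := by omega
        rw [e]
        have h3 := hstep a
        rw [abs_le] at h3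
        have h4 : 2 * c - ε ≤ D a := h2
        linarith [h3.1]
    classical
    set c' := Nat.find hex with hc'
    obtain ⟨g1, g2⟩ := Nat.find_spec hex
    rw [← hc'] at g1 g2
    have hmin : ∀ c'' < c', D (i - 2 * c'') < r_f := by
      intro c'' hlt
      have h2 := Nat.find_min hex hlt
      by_contra hcon
      push Not at hcon
      exact h2 ⟨by omega, hcon⟩
    have hc0 : 0 < c' := by
      rcases Nat.eq_zero_or_pos c' with h0 | h0
      · rw [h0] at g2
        simp only [Nat.mul_zero, Nat.sub_zero] at g2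
        exact absurd g2 (not_le.2 hDi)
      · exact h0
    set s := i - 2 * c' with hs
    have hsi : i = s + 2 * c' := by omega
    have hso : ((q (s : ZMod m)).1 + (q (s : ZMod m)).2) % 2 = 1 :=
      par_sub X.pp.hq s c' (by rw [← hsi]; exact he)
    have hDs : D s ≤ r_f + 2 * ε := by
      have h2 := hmin (c' - 1) (by omega)
      have e : i - 2 * (c' - 1) = s + 1 + 1 := by omega
      rw [e] at h2
      have h3 := abs_le.1 (hstep s)
      have h4 := abs_le.1 (hstep (s + 1))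
      linarith [h3.1, h4.1]
    have hneg : 5 * ε ≤ dist (chi ψ W t (zp δ (q (s : ZMod m)))) (-1) := by
      have h2 := X.geo.neg u X.hu
      have h3 := dist_triangle_left (mx u) (-1) (chi ψ W t (zp δ (q (s : ZMod m))))
      have h4 : dist (chi ψ W t (zp δ (q (s : ZMod m)))) (mx u) ≤ r_f + 2 * ε := hDs
      linarith
    obtain ⟨Q, hQ, ⟨x, hx, hcn⟩, hnear⟩ := X.right_col (i := s) (by omega) (by omega) hso le_rfl
      hneg hr' g2
    have hwalk := H542.walk X.j0 X.dat X.pc X.pp X.cl X.fz s c' hso (by have := X.l_lt; omega)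
      (by omega) X.l_lt (Or.inl (by omega))
    rw [← hsi] at hwalk
    refine ⟨Q ∪ Ow p k S A j Kc Bb PE q s i, union_subset hQ fun v hv => hv.1, ⟨x, hx, ?_⟩,
      Or.inr ?_⟩
    · refine (hcn.mono ?_).trans (hwalk.mono ?_)
      · exact union_subset_union_left _ subset_union_left
      · exact union_subset_union_left _ subset_union_right
    · rintro v (hv | hv) z hz hzD
      · have h2 := hnear v hv z hz hzD
        have h3 := dist_triangle (chi ψ W t z) (chi ψ W t (zp δ (q (s : ZMod m)))) (mx u)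
        have h4 : dist (chi ψ W t (zp δ (q (s : ZMod m)))) (mx u) ≤ r_f + 2 * ε := hDs
        linarith
      · refine X.ow_near (s := s) (s' := i) (fun t' k1 k2 k3 => ?_) hv hz hzD
        -- `t' = i - 2 c'' - 1`
        have hpar : ∃ c'' < c', t' = i - 2 * c'' - 1 := by
          rcases Nat.even_or_odd (i - t') with ⟨b, hb⟩ | ⟨b, hb⟩
          · exfalso
            have e : i = t' + 2 * b := by omega
            have h5 := par_sub X.pp.hq t' b (by rw [← e]; exact he)
            omega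
          · exact ⟨b, by omega, by omega⟩
        obtain ⟨c'', hlt, e⟩ := hpar
        have h5 := hmin c'' hlt
        have e2 : i - 2 * c'' = t' + 1 := by omega
        rw [e2] at h5
        have h6 := abs_le.1 (hstep t')
        show D t' ≤ r_f + ε
        linarith [h6.1]

/-- **The collar at an odd site beyond the foot.** -/
theorem exists_far {i : ℕ} (hai : l ≤ i) (hi : i ≤ m)
    (he : ((q (i : ZMod m)).1 + (q (i : ZMod m)).2) % 2 = 1)
    {r : ℝ} (hr : 5 * ε ≤ r) (h1 : r ≤ dist (chi ψ W t (zp δ (q (i : ZMod m)))) 1)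
    {r_f : ℝ} (hr' : 6 * ε ≤ r_f) (hrf : r_f ≤ c / 2) :
    ∃ Q ⊆ Fo p k S A j Kc Bb PE, (∃ x ∈ arcF n jf k,
      Cn (StQ p S) (Q ∪ Gcl p k S (KK p k S A j Kc Bb) ω₀) x (dmo n (q (i : ZMod m)))) ∧
      ((∃ x, u ≤ x ∧ r - ε ≤ dist (mx x) 1 ∧ ∀ v ∈ Q, ∀ z ∈ Dsq δ v,
        z ∈ ψ '' loewnerDomain W t → dist (chi ψ W t z) (mx x) ≤ 3 * ε) ∨
      (∀ v ∈ Q, ∀ z ∈ Dsq δ v, z ∈ ψ '' loewnerDomain W t →
        dist (chi ψ W t z) (mx u) ≤ r_f + 4 * ε)) := by
  have hε := X.eps
  have hεc := X.epsc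
  have hc := X.geo.pos
  set D : ℕ → ℝ := fun i => dist (chi ψ W t (zp δ (q (i : ZMod m)))) (mx u) with hD
  have hstep : ∀ i, |D (i + 1) - D i| ≤ ε := by
    intro i
    have h2 := X.step_nat i
    have h3 := abs_dist_sub_le (chi ψ W t (zp δ (q ((i + 1 : ℕ) : ZMod m))))
      (chi ψ W t (zp δ (q (i : ZMod m)))) (mx u)
    rw [dist_comm] at h2
    exact h3.trans h2
  rcases le_or_gt r_f (D i) with hDi | hDi
  · -- straight
    obtain ⟨Q, hQ, hcn, hnear⟩ := X.far_col hai hi he hr h1 hr' hDi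
    obtain ⟨x, hxu, hxd⟩ := X.pos_chi' (X.pp.pos4 i hai hi)
    rw [mem_Ici] at hxu
    refine ⟨Q, hQ, hcn, Or.inl ⟨x, hxu, ?_, fun v hv z hz hzD => ?_⟩⟩
    · have h2 := dist_triangle (chi ψ W t (zp δ (q (i : ZMod m)))) (mx x) 1
      linarith
    · have h2 := hnear v hv z hz hzD
      have h3 := dist_triangle (chi ψ W t z) (chi ψ W t (zp δ (q (i : ZMod m)))) (mx x)
      linarith
  · -- walk
    have hil : l < i := by
      refine lt_of_le_of_ne hai fun e => ?_
      have := X.pp.hy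
      rw [← e] at he
      omega
    have hex : ∃ c', i + 2 * c' ≤ m ∧ r_f ≤ D (i + 2 * c') := by
      have h2 := X.d_m
      rcases Nat.even_or_odd (m - i) with ⟨b, hb⟩ | ⟨b, hb⟩
      · refine ⟨b, by omega, ?_⟩
        have e : i + 2 * b = m := by omega
        rw [e]
        show _ ≤ dist (chi ψ W t (zp δ (q (m : ZMod m)))) (mx u)
        linarith
      · refine ⟨b, by omega, ?_⟩
        have e : i + 2 * b + 1 = m := by omega
        have h3 := hstep (i + 2 * b)
        rw [abs_le, e] at h3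
        have h4 : 2 * c - ε ≤ D m := h2
        linarith [h3.2]
    classical
    set c' := Nat.find hex with hc'
    obtain ⟨g1, g2⟩ := Nat.find_spec hex
    rw [← hc'] at g1 g2
    have hmin : ∀ c'' < c', D (i + 2 * c'') < r_f := by
      intro c'' hlt
      have h2 := Nat.find_min hex hlt
      by_contra hcon
      push Not at hcon
      exact h2 ⟨by omega, hcon⟩
    have hc0 : 0 < c' := by
      rcases Nat.eq_zero_or_pos c' with h0 | h0
      · rw [h0] at g2
        simp only [Nat.mul_zero, Nat.add_zero] at g2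
        exact absurd g2 (not_le.2 hDi)
      · exact h0
    set s := i + 2 * c' with hs
    have hso : ((q (s : ZMod m)).1 + (q (s : ZMod m)).2) % 2 = 1 := par_add X.pp.hq i c' he
    have hDs : D s ≤ r_f + 2 * ε := by
      have h2 := hmin (c' - 1) (by omega)
      have e : s = i + 2 * (c' - 1) + 1 + 1 := by omega
      rw [e]
      have h3 := abs_le.1 (hstep (i + 2 * (c' - 1)))
      have h4 := abs_le.1 (hstep (i + 2 * (c' - 1) + 1))
      linarith [h3.2, h4.2]
    have hone : 5 * ε ≤ dist (chi ψ W t (zp δ (q (s : ZMod m)))) 1 := by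
      have h2 := X.geo.one u X.u_nonneg X.hU
      have h3 := dist_triangle_left (mx u) 1 (chi ψ W t (zp δ (q (s : ZMod m))))
      have h4 : dist (chi ψ W t (zp δ (q (s : ZMod m)))) (mx u) ≤ r_f + 2 * ε := hDs
      linarith
    obtain ⟨Q, hQ, ⟨x, hx, hcn⟩, hnear⟩ := X.far_col (i := s) (by omega) (by omega) hso le_rfl
      hone hr' g2
    have hwalk := H542.walk X.j0 X.dat X.pc X.pp X.cl X.fz i c' he (by omega)
      (by
        rcases Nat.eq_zero_or_pos l with h0 | h0
        · exfalso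
          have h2 := X.d_zero
          obtain ⟨x, hx, hd⟩ := X.pos_chi' X.pp.posl
          rw [mem_singleton_iff] at hx
          subst hx
          rw [h0] at hd
          linarith
        · exact h0) X.l_lt (Or.inr hil)
    have hsym := hwalk.symm (isSt_Q X.dat.hp X.dat.hS)
    refine ⟨Q ∪ Ow p k S A j Kc Bb PE q i s, union_subset hQ fun v hv => hv.1, ⟨x, hx, ?_⟩,
      Or.inr ?_⟩
    · refine (hcn.mono ?_).trans (hsym.mono ?_)
      · exact union_subset_union_left _ subset_union_left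
      · exact union_subset_union_left _ subset_union_right
    · rintro v (hv | hv) z hz hzD
      · have h2 := hnear v hv z hz hzD
        have h3 := dist_triangle (chi ψ W t z) (chi ψ W t (zp δ (q (s : ZMod m)))) (mx u)
        have h4 : dist (chi ψ W t (zp δ (q (s : ZMod m)))) (mx u) ≤ r_f + 2 * ε := hDs
        linarith
      · refine X.ow_near (s := i) (s' := s) (fun t' k1 k2 k3 => ?_) hv hz hzD
        have hpar : ∃ c'' < c', t' = i + 2 * c'' + 1 := by
          rcases Nat.even_or_odd (t' - i) with ⟨b, hb⟩ | ⟨b, hb⟩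
          · exfalso
            have e : t' = i + 2 * b := by omega
            have h5 := par_add X.pp.hq i b he
            rw [← e] at h5
            omega
          · exact ⟨b, by omega, by omega⟩
        obtain ⟨c'', hlt, e⟩ := hpar
        have h5 := hmin c'' hlt
        have h6 := abs_le.1 (hstep (i + 2 * c''))
        rw [e]
        show D (i + 2 * c'' + 1) ≤ r_f + ε
        linarith [h6.2]

/-- **The collar at an even site of the arc from the target to the tip.** -/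
theorem exists_left {i : ℕ} (hi : i ≤ a) (he : ((q (i : ZMod m)).1 + (q (i : ZMod m)).2) % 2 = 0)
    {r : ℝ} (hr : 5 * ε ≤ r) (h1 : r ≤ dist (chi ψ W t (zp δ (q (i : ZMod m)))) (-1))
    (h2 : r ≤ dist (chi ψ W t (zp δ (q (i : ZMod m)))) 1) :
    ∃ Q ⊆ Fo p k S A j Kc Bb PE, (∃ x ∈ H192.ro '' arcV p k (n - 1),
      Cn (StM 0) (Q ∪ Gop p k S (KK p k S A j Kc Bb) ω₀) x (q (i : ZMod m))) ∧
      ∃ x, x ≤ 0 ∧ r - ε ≤ dist (mx x) (-1) ∧ r - ε ≤ dist (mx x) 1 ∧ ∀ v ∈ Q, ∀ z ∈ Dsq δ v,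
        z ∈ ψ '' loewnerDomain W t → dist (chi ψ W t z) (mx x) ≤ 3 * ε := by
  obtain ⟨Q, hQ, hcn, hnear⟩ := X.left_col hi he hr h1 h2
  obtain ⟨x, hx, hxd⟩ := X.pos_chi' (X.pp.pos1 i hi)
  rw [mem_Iic] at hx
  refine ⟨Q, hQ, hcn, x, hx, ?_, ?_, fun v hv z hz hzD => ?_⟩
  · have h3 := dist_triangle (chi ψ W t (zp δ (q (i : ZMod m)))) (mx x) (-1)
    linarith
  · have h3 := dist_triangle (chi ψ W t (zp δ (q (i : ZMod m)))) (mx x) 1
    linarith
  · have h4 := hnear v hv z hz hzD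
    have h3 := dist_triangle (chi ψ W t z) (chi ψ W t (zp δ (q (i : ZMod m)))) (mx x)
    linarith

end Ctx

end Vale.Agent.P167.H531
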