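import Vale.Agent.P167.H531.Asm4

/-!
# P167, CONT-ASM: the two inequalities, in a context
-/

set_option linter.unusedSectionVars false

namespace Vale.Agent.P167.H531

open Set Metric MeasureTheory Vale.Agent.P167 Vale.Agent.P167.E6 Vale.Agent.P167.E2
open Vale.Agent.P167.H558
open Vale.Agent.P145.FB (PStep)
open Vale.Agent.P167.H161 (zp zp_re zp_im SegIn zp_ro zp_rf CrU Cin Cout)
open Vale.Agent.P167.H634 (RO LO Near cf)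
open Vale.Agent.P167.H756 (HConf Drv)
open Vale.Agent.P164 (loewnerDomain Zf)
open Vale.Agent.P153.R2.R1 (mb)
open scoped ENNReal

variable {n m : ℕ} {δ : ℝ} {p : ZMod n → ℤ × ℤ} {k : ℕ} {S : Finset (ℤ × ℤ)}
    {A : Finset (Sym2 (ℤ × ℤ))} {j : ℕ} {ψ : ℂ → ℂ} {W : ℝ → ℝ} {t T R Rd cd Y : ℝ}
    {q : ZMod m → ℤ × ℤ} {PE Kc Bb B : Finset (ℤ × ℤ)} {a l jf : ℕ} {ε h u rc cb : ℝ} {κ ω₀ : Cfg}
    {u₀ U c : ℝ}

theorem pin_dmo {x : ℤ × ℤ} (hx : (x.1 + x.2) % 2 = 1) : pin p (dmo n x) = x := by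
  show H192.rf (H192.rf' x) = x
  exact H192.rf_rf' (by rw [Int.even_iff]; omega)

namespace Ctx

variable (X : Ctx δ p k S A j ψ W t T R Rd cd Y q PE Kc Bb B a l jf ε h u rc cb κ ω₀ u₀ U c)
include X

theorem lo_far {x ρ : ℝ} (hx : 0 ≤ x) (h1 : ρ ≤ dist (mx x) (-1)) (h2 : ρ ≤ dist (mx x) 1) :
    ∀ z ∈ LO p k A δ (j - 1), z ∈ ψ '' loewnerDomain W t → ρ - ε ≤ dist (chi ψ W t z) (mx x) := by
  intro z hz hzD
  obtain ⟨x', hx', hd⟩ := X.pos_chi' (X.lab.left z hz hzD)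
  rw [mem_Iic] at hx'
  have h3 := mx_sides' hx' hx
  have h4 : ρ ≤ dist (mx x') (mx x) := (le_min h1 h2).trans h3
  have h5 := dist_triangle (mx x') (chi ψ W t z) (mx x)
  rw [dist_comm] at hd
  linarith

theorem box_far {ξ : ℂ} (hξ : ‖ξ‖ = 1) :
    ∀ v ∈ Bb, ∀ z ∈ Dsq δ v, z ∈ ψ '' loewnerDomain W t → cb ≤ dist (chi ψ W t z) ξ := by
  intro v hv z hz _
  obtain ⟨w, hw, rfl, hn⟩ := X.pc.box v hv z hz
  rw [chi_eq X.dat.conf X.dat.drv hw, dist_comm, dist_eq_norm]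
  have h1 := norm_sub_norm_le ξ (mb 1 Complex.I (Zf W w t))
  linarith

theorem cut_far {ξ : ℂ} (h : 2 * c ≤ dist (mx u) ξ) :
    ∀ v ∈ Kc ∪ Bb, ∀ z ∈ Dsq δ v, z ∈ ψ '' loewnerDomain W t → c ≤ dist (chi ψ W t z) ξ := by
  intro v hv z hz hzD
  obtain ⟨x, hx, hd⟩ := X.pos_chi' (X.pc.cut v hv z hz hzD)
  rw [mem_singleton_iff] at hx
  subst hx
  have h1 := dist_triangle (mx x) (chi ψ W t z) ξ
  rw [dist_comm] at hd
  have := X.rcc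
  have := X.geo.pos
  linarith

theorem hi_far {ξ : ℂ} {ρ : ℝ} (h : ∀ y, u ≤ y → ρ ≤ dist (mx y) ξ) :
    ∀ i : ℕ, jf ≤ i → i < k → ρ - ε ≤ dist (chi ψ W t (cf δ (fi p (i : ZMod n)))) ξ := by
  intro i h1 h2
  obtain ⟨x, hx, hd⟩ := X.pos_chi' (X.pf.hi i h1 h2 (X.pf.unr i h1 h2))
  rw [mem_Ici] at hx
  have h3 := dist_triangle (mx x) (chi ψ W t (cf δ (fi p (i : ZMod n)))) ξ
  have h4 : dist (chi ψ W t (cf δ (fi p (i : ZMod n)))) (mx x) ≤ ε := hd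
  rw [dist_comm] at h4
  linarith [h x hx]

/-- A fresh square has a point in the domain. -/
theorem fo_pt {v : ℤ × ℤ} (hv : v ∈ Fo p k S A j Kc Bb PE) :
    ∃ z ∈ Dsq δ v, z ∈ ψ '' loewnerDomain W t := by
  have h1 := X.fo_FrS hv
  refine ⟨(δ : ℂ) * mq v, ?_, ?_⟩
  · rw [mem_Dsq X.hδ]
    obtain ⟨g1, g2, g3, g4⟩ := mq_bo v
    exact ⟨g1.le, g2.le, g3.le, g4.le⟩
  · rw [X.dat.eqDt]
    exact mq_Dt X.hδ X.dat.hj h1.1 h1.2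

/-- **The collars of the two sides are disjoint.** -/
theorem disj {Q Q' : Set (ℤ × ℤ)} (hQ : Q ⊆ Fo p k S A j Kc Bb PE) {x r_f r1 : ℝ} (hx : x ≤ 0)
    (hr1 : 8 * ε ≤ r1) (hrf : r_f ≤ c / 2) (h1 : r1 - ε ≤ dist (mx x) (-1))
    (h2 : r1 - ε ≤ dist (mx x) 1) (h3 : ∀ v ∈ Q, ∀ z ∈ Dsq δ v,
        z ∈ ψ '' loewnerDomain W t → dist (chi ψ W t z) (mx x) ≤ 3 * ε)
    (h4 : (∃ x, 0 ≤ x ∧ x ≤ u ∧ r1 - ε ≤ dist (mx x) (-1) ∧ ∀ v ∈ Q', ∀ z ∈ Dsq δ v,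
        z ∈ ψ '' loewnerDomain W t → dist (chi ψ W t z) (mx x) ≤ 3 * ε) ∨
      (∀ v ∈ Q', ∀ z ∈ Dsq δ v, z ∈ ψ '' loewnerDomain W t →
        dist (chi ψ W t z) (mx u) ≤ r_f + 4 * ε)) : Disjoint Q Q' := by
  rw [Set.disjoint_left]
  intro v hv hv'
  obtain ⟨z, hz, hzD⟩ := X.fo_pt (hQ hv)
  have h5 := h3 v hv z hz hzD
  rw [dist_comm] at h5
  have hε := X.eps
  have hεc := X.epsc
  have hc := X.geo.pos
  rcases h4 with ⟨x', hx0, -, -, h6⟩ | h6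
  · have h7 := h6 v hv' z hz hzD
    have h8 := dist_triangle (mx x) (chi ψ W t z) (mx x')
    have h9 := mx_sides hx hx0
    rcases min_le_iff.1 h9 with h10 | h10 <;> linarith
  · have h7 := h6 v hv' z hz hzD
    have h8 := dist_triangle (mx x) (chi ψ W t z) (mx u)
    have h9 := X.geo.left u X.hu X.hU x hx
    linarith

end Ctx

theorem armS_mono {ι V : Type*} {c : Bool} {St : ι → V → V → Prop} {D K : Finset ι} {G : Set ι}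
    {A B Y Y' : Set V} (h : Y ⊆ Y') : ArmS c St D K G A B Y ⊆ ArmS c St D K G A B Y' := by
  rintro ω ⟨y, hy, h1⟩
  exact ⟨y, h hy, h1⟩

theorem armS_union {ι V : Type*} {c : Bool} {St : ι → V → V → Prop} {D K : Finset ι} {G : Set ι}
    {A B Y Y' Y'' : Set V} (h : Y ⊆ Y' ∪ Y'') :
    ArmS c St D K G A B Y ⊆ ArmS c St D K G A B Y' ∪ ArmS c St D K G A B Y'' := by
  rintro ω ⟨y, hy, h1⟩
  rcases h hy with h2 | h2
  · exact Or.inl ⟨y, h2, h1⟩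
  · exact Or.inr ⟨y, h2, h1⟩

/-- The radii. -/
structure Radii (T R Rd cd Y c cb ε r1 r_f a₁ a₂ a₃ r₀ e d₀ : ℝ) : Prop where
  e0 : 0 ≤ e
  eps : 8 * ε ≤ r1
  eps2 : 3 * ε ≤ a₂
  epsf : 6 * ε ≤ r_f
  rfc : r_f ≤ c / 2
  rfa : r_f + 4 * ε ≤ a₃
  r1a : r1 ≤ a₁
  r1c : r1 ≤ c
  r10 : r1 ≤ r₀
  rad1 : Rad T R Rd cd Y a₁ c e d₀
  rad2 : Rad T R Rd cd Y a₂ (min (r1 / 2) (min c cb)) e d₀
  rad3 : Rad T R Rd cd Y a₃ (min c cb) e d₀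

/-- The zones near the two marks, inside of `PE`. -/
structure Zns (δ : ℝ) (p : ZMod n → ℤ × ℤ) (k : ℕ) (S : Finset (ℤ × ℤ))
    (A : Finset (Sym2 (ℤ × ℤ))) (j : ℕ) (ψ : ℂ → ℂ) (W : ℝ → ℝ) (t : ℝ) (q : ZMod m → ℤ × ℤ)
    (PE Kc Bb : Finset (ℤ × ℤ)) (a l : ℕ) (ω₀ : Cfg) (r₀ e : ℝ) : Prop where
  z1 : ∀ ξ : ℂ, (ξ = -1 ∨ ξ = 1) → μ (ArmS true (StM 0) PE (KK p k S A j Kc Bb)
    (Gop p k S (KK p k S A j Kc Bb) ω₀) ∅ {q l} {y | (y.1 + y.2) % 2 = 0 ∧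
      (∃ i : ZMod m, y = q i) ∧ zp δ y ∈ Cin ψ W t ξ r₀}) ≤ ENNReal.ofReal e
  z2 : μ (ArmS false (StQ p S) PE (KK p k S A j Kc Bb) (Gcl p k S (KK p k S A j Kc Bb) ω₀) ∅
    (dmo n '' arcM q 1 l m) {y | ∃ x, y = dmo n x ∧ (x.1 + x.2) % 2 = 1 ∧
      (∃ i : ZMod m, x = q i) ∧ zp δ x ∈ Cin ψ W t (-1) r₀}) ≤ ENNReal.ofReal e
  z4 : μ (ArmS false (StQ p S) PE (KK p k S A j Kc Bb) (Gcl p k S (KK p k S A j Kc Bb) ω₀) ∅
    (dmo n '' arcM q 1 a l) {y | ∃ x, y = dmo n x ∧ (x.1 + x.2) % 2 = 1 ∧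
      (∃ i : ZMod m, x = q i) ∧ zp δ x ∈ Cin ψ W t 1 r₀}) ≤ ENNReal.ofReal e

variable {r1 r_f a₁ a₂ a₃ r₀ e d₀ : ℝ} {L : Set (ℤ × ℤ)}

/-- **First inequality.** -/
theorem Ctx.le (X : Ctx δ p k S A j ψ W t T R Rd cd Y q PE Kc Bb B a l jf ε h u rc cb κ ω₀ u₀ U c)
    (hc : Cls p k S A j jf Kc Bb ω₀) (hs : Setg p S k jf q PE a l (KK p k S A j Kc Bb) ω₀)
    (hL : ∀ z : ℤ × ℤ, (z.1 + z.2) % 2 = 0 → (z ∈ L ↔ z ∈ arcM q 0 0 a))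
    (hr : Radii T R Rd cd Y c cb ε r1 r_f a₁ a₂ a₃ r₀ e d₀)
    (hz : Zns δ p k S A j ψ W t q PE Kc Bb a l ω₀ r₀ e) (hδ : δ ≤ d₀) :
    cpr fair (StM 0) PE (KK p k S A j Kc Bb) {q l} L ω₀ ≤
      cpr fair (StM 0) (H192.dq p k S) (KK p k S A j Kc Bb) {H192.ro (p jf)}
        (H192.ro '' arcV p k (n - 1)) ω₀ + ENNReal.ofReal (4 * e) := by
  classical
  have hε := X.eps
  have hgc := X.geo.pos
  set Z1 : Set (ℤ × ℤ) := {y | dist (chi ψ W t (zp δ y)) (-1) ≤ r1 ∨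
    dist (chi ψ W t (zp δ y)) 1 ≤ r1} with hZ1
  set Z2 : Set ((ℤ × ℤ) ⊕ ZMod n) := {x | dist (chi ψ W t (zp δ (pin p x))) (-1) ≤ r1} with hZ2
  have h1 : ∀ y ∈ arcM q 0 0 a \ Z1, ∃ Q ⊆ Fo p k S A j Kc Bb PE,
      (∃ x ∈ H192.ro '' arcV p k (n - 1),
        Cn (StM 0) (Q ∪ Gop p k S (KK p k S A j Kc Bb) ω₀) x y) ∧
      ∃ x, x ≤ 0 ∧ r1 - ε ≤ dist (mx x) (-1) ∧ r1 - ε ≤ dist (mx x) 1 ∧ ∀ v ∈ Q, ∀ z ∈ Dsq δ v,
        z ∈ ψ '' loewnerDomain W t → dist (chi ψ W t z) (mx x) ≤ 3 * ε := by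
    rintro y ⟨⟨i, -, hi, rfl, he⟩, hy⟩
    rw [hZ1, mem_ofPred_eq, not_or, not_le, not_le] at hy
    exact X.exists_left hi he (by linarith [hr.eps]) hy.1.le hy.2.le
  have h2 : ∀ y ∈ dmo n '' arcM q 1 a l \ Z2, ∃ Q ⊆ Fo p k S A j Kc Bb PE,
      (∃ x ∈ arcF0 n jf, Cn (StQ p S) (Q ∪ Gcl p k S (KK p k S A j Kc Bb) ω₀) x y) ∧
      ((∃ x, 0 ≤ x ∧ x ≤ u ∧ r1 - ε ≤ dist (mx x) (-1) ∧ ∀ v ∈ Q, ∀ z ∈ Dsq δ v,
        z ∈ ψ '' loewnerDomain W t → dist (chi ψ W t z) (mx x) ≤ 3 * ε) ∨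
      (∀ v ∈ Q, ∀ z ∈ Dsq δ v, z ∈ ψ '' loewnerDomain W t →
        dist (chi ψ W t z) (mx u) ≤ r_f + 4 * ε)) := by
    rintro _ ⟨⟨_, ⟨i, hi1, hi2, rfl, he⟩, rfl⟩, hy⟩
    rw [hZ2, mem_ofPred_eq, pin_dmo he, not_le] at hy
    exact X.exists_right hi1 hi2 he (by linarith [hr.eps]) hy.le hr.epsf hr.rfc
  choose! q1 g1 g2 g3 using h1
  choose! q2 k1 k2 k3 using h2
  have hsub : ∀ {Q : Set (ℤ × ℤ)}, Q ⊆ Fo p k S A j Kc Bb PE →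
      Q ⊆ (↑(H192.dq p k S) \ ↑(KK p k S A j Kc Bb)) \ ↑PE := fun hQ v hv =>
    ⟨⟨(hQ hv).1, (hQ hv).2.1⟩, (hQ hv).2.2⟩
  have main := hcmp_le hs hL (Z1 := Z1) (Z2 := Z2) (q1 := q1) (q2 := q2)
    ⟨fun y hy => hsub (g1 y hy), g2⟩ ⟨fun y hy => hsub (k1 y hy), k2⟩
    (fun y hy y' hy' => by
      obtain ⟨x, hx0, hx1, hx2, hx3⟩ := g3 y hy
      exact X.disj (g1 y hy) hx0 hr.eps hr.rfc hx1 hx2 hx3 (k3 y' hy'))
    (e := ENNReal.ofReal e) (z1 := ENNReal.ofReal e + ENNReal.ofReal e) (z2 := ENNReal.ofReal e)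
    (fun y hy => by
      obtain ⟨x, hx0, hx1, hx2, hx3⟩ := g3 y hy
      refine armQ_dual_le X.dat hc hr.rad2 hδ (mx_norm x) ?_ ?_
        (fun v hv z hz hzD => (hx3 v hv z hz hzD).trans hr.eps2)
      · intro i hi hik
        refine le_trans ?_ (X.hi_far (ρ := r1 - ε) (ξ := mx x) (fun y hy => ?_) i hi hik)
        · refine (min_le_left _ _).trans ?_
          linarith [hr.eps]
        · rw [dist_comm]
          exact (le_min hx1 hx2).trans (mx_sides hx0 (X.u_nonneg.trans hy))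
      · intro v hv z hz hzD
        refine le_trans ((min_le_right _ _).trans (min_le_left _ _)) (X.cut_far ?_ v hv z hz hzD)
        rw [dist_comm]
        exact X.geo.left u X.hu X.hU x hx0)
    (by
      refine (measure_mono (armS_union (Y' := _) (Y'' := _) ?_)).trans
        ((measure_union_le _ _).trans (add_le_add (hz.z1 (-1) (Or.inl rfl))
          (hz.z1 1 (Or.inr rfl))))
      rintro y ⟨⟨i, -, hi, rfl, he⟩, hy⟩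
      have hD := (X.step_q (i : ZMod m)).1
      rcases hy with hy | hy
      · exact Or.inl ⟨he, ⟨_, rfl⟩, mem_Cin X.dat.conf X.dat.drv hD (hy.trans hr.r10)⟩
      · exact Or.inr ⟨he, ⟨_, rfl⟩, mem_Cin X.dat.conf X.dat.drv hD (hy.trans hr.r10)⟩)
    (by
      refine armS_dual_le X.dat hc hr.rad1 hδ (ξ := -1) (by simp) ?_ ?_ ?_
      · intro i hi hik
        refine le_trans ?_ (X.hi_far (ρ := 2 * c) (ξ := -1) (fun y hy => ?_) i hi hik)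
        · linarith [X.epsc]
        · exact X.geo.neg y (X.hu.trans hy)
      · exact X.cut_far (X.geo.neg u X.hu)
      · rintro _ ⟨⟨_, ⟨i, hi1, hi2, rfl, he⟩, rfl⟩, hy⟩
        rw [hZ2, mem_ofPred_eq, pin_dmo he] at hy
        rw [pin_dmo he]
        exact ⟨(X.step_q (i : ZMod m)).1, hy.trans hr.r1a⟩)
  refine main.trans (le_of_eq ?_)
  congr 1
  have he := hr.e0
  rw [← ENNReal.ofReal_add he he, ← ENNReal.ofReal_add he (by positivity),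
    ← ENNReal.ofReal_add (by positivity) he]
  congr 1
  ring

/-- **Second inequality.** -/
theorem Ctx.ge (X : Ctx δ p k S A j ψ W t T R Rd cd Y q PE Kc Bb B a l jf ε h u rc cb κ ω₀ u₀ U c)
    (hc : Cls p k S A j jf Kc Bb ω₀) (hs : Setg p S k jf q PE a l (KK p k S A j Kc Bb) ω₀)
    (hL : ∀ z : ℤ × ℤ, (z.1 + z.2) % 2 = 0 → (z ∈ L ↔ z ∈ arcM q 0 0 a))
    (hr : Radii T R Rd cd Y c cb ε r1 r_f a₁ a₂ a₃ r₀ e d₀)
    (hz : Zns δ p k S A j ψ W t q PE Kc Bb a l ω₀ r₀ e) (hδ : δ ≤ d₀) :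
    cpr fair (StM 0) (H192.dq p k S) (KK p k S A j Kc Bb) {H192.ro (p jf)}
        (H192.ro '' arcV p k (n - 1)) ω₀ ≤
      cpr fair (StM 0) PE (KK p k S A j Kc Bb) {q l} L ω₀ + ENNReal.ofReal (4 * e) := by
  classical
  have hε := X.eps
  have hgc := X.geo.pos
  have hεc := X.epsc
  set Z2 : Set ((ℤ × ℤ) ⊕ ZMod n) := {x | dist (chi ψ W t (zp δ (pin p x))) (-1) ≤ r1} with hZ2
  set Z4 : Set ((ℤ × ℤ) ⊕ ZMod n) := {x | dist (chi ψ W t (zp δ (pin p x))) 1 ≤ r1} with hZ4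
  have h2 : ∀ y ∈ dmo n '' arcM q 1 a l \ Z2, ∃ Q ⊆ Fo p k S A j Kc Bb PE,
      (∃ x ∈ arcF0 n jf, Cn (StQ p S) (Q ∪ Gcl p k S (KK p k S A j Kc Bb) ω₀) x y) ∧
      ((∃ x, 0 ≤ x ∧ x ≤ u ∧ r1 - ε ≤ dist (mx x) (-1) ∧ ∀ v ∈ Q, ∀ z ∈ Dsq δ v,
        z ∈ ψ '' loewnerDomain W t → dist (chi ψ W t z) (mx x) ≤ 3 * ε) ∨
      (∀ v ∈ Q, ∀ z ∈ Dsq δ v, z ∈ ψ '' loewnerDomain W t →
        dist (chi ψ W t z) (mx u) ≤ r_f + 4 * ε)) := by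
    rintro _ ⟨⟨_, ⟨i, hi1, hi2, rfl, he⟩, rfl⟩, hy⟩
    rw [hZ2, mem_ofPred_eq, pin_dmo he, not_le] at hy
    exact X.exists_right hi1 hi2 he (by linarith [hr.eps]) hy.le hr.epsf hr.rfc
  have h4 : ∀ y ∈ dmo n '' arcM q 1 l m \ Z4, ∃ Q ⊆ Fo p k S A j Kc Bb PE,
      (∃ x ∈ arcF n jf k, Cn (StQ p S) (Q ∪ Gcl p k S (KK p k S A j Kc Bb) ω₀) x y) ∧
      ((∃ x, u ≤ x ∧ r1 - ε ≤ dist (mx x) 1 ∧ ∀ v ∈ Q, ∀ z ∈ Dsq δ v,
        z ∈ ψ '' loewnerDomain W t → dist (chi ψ W t z) (mx x) ≤ 3 * ε) ∨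
      (∀ v ∈ Q, ∀ z ∈ Dsq δ v, z ∈ ψ '' loewnerDomain W t →
        dist (chi ψ W t z) (mx u) ≤ r_f + 4 * ε)) := by
    rintro _ ⟨⟨_, ⟨i, hi1, hi2, rfl, he⟩, rfl⟩, hy⟩
    rw [hZ4, mem_ofPred_eq, pin_dmo he, not_le] at hy
    exact X.exists_far hi1 hi2 he (by linarith [hr.eps]) hy.le hr.epsf hr.rfc
  choose! q2 k1 k2 k3 using h2
  choose! q4 l1 l2 l3 using h4
  have hsub : ∀ {Q : Set (ℤ × ℤ)}, Q ⊆ Fo p k S A j Kc Bb PE →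
      Q ⊆ (↑(H192.dq p k S) \ ↑(KK p k S A j Kc Bb)) \ ↑PE := fun hQ v hv =>
    ⟨⟨(hQ hv).1, (hQ hv).2.1⟩, (hQ hv).2.2⟩
  -- the bound of an arm, from a set near a point of the right side
  have key : ∀ {Q : Set (ℤ × ℤ)} {x : ℝ}, Q ⊆ Fo p k S A j Kc Bb PE → 0 ≤ x →
      r1 / 2 + ε ≤ dist (mx x) (-1) → r1 / 2 + ε ≤ dist (mx x) 1 →
      (∀ v ∈ Q, ∀ z ∈ Dsq δ v, z ∈ ψ '' loewnerDomain W t → dist (chi ψ W t z) (mx x) ≤ 3 * ε) →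
      μ (ArmQ true (StM 0) (H192.dq p k S) (KK p k S A j Kc Bb)
        (Gop p k S (KK p k S A j Kc Bb) ω₀) {H192.ro (p (jf : ZMod n))}
        (H192.ro '' arcV p k (n - 1)) Q) ≤ ENNReal.ofReal e := by
    intro Q x hQ hx0 hx1 hx2 hx3
    refine armQ_primal_le X.dat hc hr.rad2 hδ (mx_norm x) ?_ ?_ (fun v hv => (hQ hv).1)
      (fun v hv z hz hzD => (hx3 v hv z hz hzD).trans hr.eps2)
    · intro z hz hzD
      refine le_trans ?_ (X.lo_far hx0 hx1 hx2 z hz hzD)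
      refine (min_le_left _ _).trans ?_
      linarith
    · intro v hv z hz hzD
      exact ((min_le_right _ _).trans (min_le_right _ _)).trans
        (X.box_far (mx_norm x) v hv z hz hzD)
  have keyf : ∀ {Q : Set (ℤ × ℤ)}, Q ⊆ Fo p k S A j Kc Bb PE →
      (∀ v ∈ Q, ∀ z ∈ Dsq δ v, z ∈ ψ '' loewnerDomain W t →
        dist (chi ψ W t z) (mx u) ≤ r_f + 4 * ε) →
      μ (ArmQ true (StM 0) (H192.dq p k S) (KK p k S A j Kc Bb)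
        (Gop p k S (KK p k S A j Kc Bb) ω₀) {H192.ro (p (jf : ZMod n))}
        (H192.ro '' arcV p k (n - 1)) Q) ≤ ENNReal.ofReal e := by
    intro Q hQ hx3
    refine armQ_primal_le X.dat hc hr.rad3 hδ (mx_norm u) ?_ ?_ (fun v hv => (hQ hv).1)
      (fun v hv z hz hzD => (hx3 v hv z hz hzD).trans hr.rfa)
    · intro z hz hzD
      refine le_trans ?_ (X.lo_far (ρ := 2 * c) X.u_nonneg (X.geo.neg u X.hu)
        (X.geo.one u X.u_nonneg X.hU) z hz hzD)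
      refine (min_le_left _ _).trans ?_
      linarith
    · intro v hv z hz hzD
      exact (min_le_right _ _).trans (X.box_far (mx_norm u) v hv z hz hzD)
  -- a radius which is smaller than `c`
  have hr1c : r1 / 2 + ε ≤ 2 * c := by
    have h5 := hr.r1c
    linarith
  have main := hcmp_ge hs hL (Z2 := Z2) (Z4 := Z4) (r2 := q2) (r4 := q4)
    ⟨fun y hy => hsub (k1 y hy), k2⟩ ⟨fun y hy => hsub (l1 y hy), l2⟩
    (e2 := ENNReal.ofReal e) (e4 := ENNReal.ofReal e) (z2 := ENNReal.ofReal e)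
    (z4 := ENNReal.ofReal e)
    (fun y hy => by
      rcases k3 y hy with ⟨x, hx0, hxu, hx1, hx2⟩ | hx
      · refine key (k1 y hy) hx0 (by linarith [hr.eps]) ?_ hx2
        exact hr1c.trans (X.geo.one x hx0 (hxu.trans X.hU))
      · exact keyf (k1 y hy) hx)
    (fun y hy => by
      rcases l3 y hy with ⟨x, hxu, hx1, hx2⟩ | hx
      · refine key (l1 y hy) (X.u_nonneg.trans hxu) ?_ (by linarith [hr.eps]) hx2
        exact hr1c.trans (X.geo.neg x (X.hu.trans hxu))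
      · exact keyf (l1 y hy) hx)
    (by
      refine (measure_mono (armS_mono ?_)).trans hz.z2
      rintro _ ⟨⟨_, ⟨i, hi1, hi2, rfl, he⟩, rfl⟩, hy⟩
      rw [hZ2, mem_ofPred_eq, pin_dmo he] at hy
      exact ⟨_, rfl, he, ⟨_, rfl⟩, mem_Cin X.dat.conf X.dat.drv (X.step_q (i : ZMod m)).1
        (hy.trans hr.r10)⟩)
    (by
      refine (measure_mono (armS_mono ?_)).trans hz.z4
      rintro _ ⟨⟨_, ⟨i, hi1, hi2, rfl, he⟩, rfl⟩, hy⟩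
      rw [hZ4, mem_ofPred_eq, pin_dmo he] at hy
      exact ⟨_, rfl, he, ⟨_, rfl⟩, mem_Cin X.dat.conf X.dat.drv (X.step_q (i : ZMod m)).1
        (hy.trans hr.r10)⟩)
  refine main.trans (le_of_eq ?_)
  congr 1
  have he := hr.e0
  rw [← ENNReal.ofReal_add he he, ← ENNReal.ofReal_add (by positivity) (by positivity)]
  congr 1
  ring

end Vale.Agent.P167.H531
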