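import Vale.Agent.P167.H531.HcmpFin
import Vale.Agent.P167.CL.FinDefs

/-!
# P167, block CLOSE [ASM]: `S_cmp` (the comparison in the interface of the final assembly)
-/

namespace Vale.Agent.P167.H531

open Vale.Agent.P167 Vale.Agent.P167.E6 Vale.Agent.P167.E2 Vale.Agent.P167.H558

theorem cmp : CL.S_cmp := by
  intro T R Rd cd Y u₀ U hT hR hRd hcd hY0 hY hY2 hu₀ h64 h1024
  obtain ⟨rc, hrc, H⟩ := hcmp (U := max U u₀) hT hR hRd hcd hY0 hY hY2 hu₀ (le_max_right _ _) h64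
    h1024
  refine ⟨rc, hrc, fun cb e hcb he => ?_⟩
  obtain ⟨ε, hε, h, hh, d₀, hd₀, H⟩ := H cb hcb e he
  refine ⟨ε, hε, h, hh, d₀, hd₀, ?_⟩
  intro n m p k S A δ j ψ W t q PE Kc Bb B a l jf u κ ω₀ L hj hδ hu hU hdat _ hlb hpf hpc hpe hpp
    hcl hL h1 h2 h3
  exact H hj hδ le_rfl hu (hU.trans (le_max_left _ _)) hdat hlb hpf hpc hpe hpp hcl hL ω₀ h1 h2 h3

end Vale.Agent.P167.H531
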