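import Vale.Agent.P167.H531.QuadP

/-!
# P167, block CONT-LAT: frozen edges

Freezing the configuration on a finite set `K` of edges of a quad gives again a quad: the sites are
replaced by their classes under the frozen connections.
-/

namespace Vale.Agent.P167.H531

open Vale.Agent.P167.H558 MeasureTheory Set
open scoped ENNReal

variable {ι V V' : Type*}
variable {St : ι → V → V → Prop} {St' : ι → V' → V' → Prop} {D P : Finset ι}
  {A1 A3 B1 B3 : Set V} {A2 A4 B2 B4 : Set V'}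

/-- Sites joined by the edges of `G`. -/
def frz (hS : IsSt St) (G : Set ι) : Setoid V where
  r u v := Cn St G u v
  iseqv := ⟨fun u => Cn.refl G u, fun h => h.symm hS, fun h h' => h.trans h'⟩

/-- The class of a site. -/
def cl (hS : IsSt St) (G : Set ι) (u : V) : Quotient (frz hS G) := Quotient.mk (frz hS G) u

/-- The edges between the classes of sites. -/
def qSt (hS : IsSt St) (G : Set ι) (i : ι) (a b : Quotient (frz hS G)) : Prop :=
  ∃ u v, St i u v ∧ cl hS G u = a ∧ cl hS G v = b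

theorem cl_eq_iff {hS : IsSt St} {G : Set ι} {u v : V} : cl hS G u = cl hS G v ↔ Cn St G u v :=
  ⟨fun h => Quotient.exact h, fun h => Quotient.sound h⟩

theorem cl_surj {hS : IsSt St} {G : Set ι} (a : Quotient (frz hS G)) : ∃ u, cl hS G u = a :=
  Quotient.exists_rep a

theorem isSt_q (hS : IsSt St) (G : Set ι) : IsSt (qSt hS G) where
  symm := by
    rintro i a b ⟨u, v, h, rfl, rfl⟩
    exact ⟨v, u, hS.symm i u v h, rfl, rfl⟩
  pair := by
    rintro i a b c d ⟨u, v, h, rfl, rfl⟩ ⟨u', v', h', rfl, rfl⟩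
    rcases hS.pair i u v u' v' h h' with ⟨rfl, rfl⟩ | ⟨rfl, rfl⟩
    · exact Or.inl ⟨rfl, rfl⟩
    · exact Or.inr ⟨rfl, rfl⟩

/-- Connections of classes are connections using also the frozen edges. -/
theorem cn_q (hS : IsSt St) (G F : Set ι) (u v : V) :
    Cn (qSt hS G) F (cl hS G u) (cl hS G v) ↔ Cn St (F ∪ G) u v := by
  constructor
  · intro h
    have key : ∀ b, Cn (qSt hS G) F (cl hS G u) b → ∀ w, cl hS G w = b → Cn St (F ∪ G) u w := by
      intro b hb
      induction hb with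
      | refl =>
        intro w hw
        exact (cl_eq_iff.1 hw.symm).mono subset_union_right
      | @tail b c _ hbc ih =>
        intro w hw
        obtain ⟨i, hi, x, y, hxy, hx, hy⟩ := hbc
        have h1 := ih x hx
        have h2 : Cn St (F ∪ G) y w :=
          (cl_eq_iff.1 (hy.trans hw.symm)).mono subset_union_right
        exact (h1.tail ⟨i, Or.inl hi, hxy⟩).trans h2
    exact key _ h v rfl
  · intro h
    induction h with
    | refl => exact Cn.refl _ _
    | @tail b c _ hbc ih =>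
      obtain ⟨i, hi, hs⟩ := hbc
      by_cases hG : i ∈ G
      · have : cl hS G b = cl hS G c :=
          cl_eq_iff.2 (Relation.ReflTransGen.single ⟨i, hG, hs⟩)
        rwa [← this]
      · exact ih.tail ⟨i, hi.resolve_right hG, b, c, hs, rfl, rfl⟩

theorem cr_q (hS : IsSt St) (G F : Set ι) (A B : Set V) :
    Cr (qSt hS G) F (cl hS G '' A) (cl hS G '' B) ↔ Cr St (F ∪ G) A B := by
  constructor
  · rintro ⟨_, ⟨u, hu, rfl⟩, _, ⟨v, hv, rfl⟩, h⟩
    exact ⟨u, hu, v, hv, (cn_q hS G F u v).1 h⟩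
  · rintro ⟨u, hu, v, hv, h⟩
    exact ⟨_, ⟨u, hu, rfl⟩, _, ⟨v, hv, rfl⟩, (cn_q hS G F u v).2 h⟩

/-- The frozen open edges. -/
def fo (D K : Finset ι) (s : Set ι) : Set ι := s ∩ (↑K ∩ ↑D)

theorem split_eq [DecidableEq ι] (D K : Finset ι) (s F : Set ι) :
    (F ∩ ↑(D \ K)) ∪ fo D K s = ((F \ ↑K) ∪ (s ∩ ↑K)) ∩ ↑D := by
  ext i
  simp only [fo, Finset.coe_sdiff, mem_union, mem_inter_iff, mem_sdiff, Finset.mem_coe]
  tauto

theorem compl_split (K : Finset ι) (s F : Set ι) :
    ((F \ ↑K) ∪ (s ∩ ↑K))ᶜ = (Fᶜ \ ↑K) ∪ (sᶜ ∩ ↑K) := by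
  ext i
  simp only [mem_union, mem_inter_iff, mem_sdiff, Finset.mem_coe, mem_compl_iff]
  tauto

/-- **A quad with frozen edges is a quad.** -/
theorem IsQuad.freeze [DecidableEq ι] (hS : IsSt St) (hS' : IsSt St')
    (h : IsQuad St St' D A1 A3 A2 A4) (K : Finset ι) (s : Set ι) :
    IsQuad (qSt hS (fo D K s)) (qSt hS' (fo D K sᶜ)) (D \ K)
      (cl hS (fo D K s) '' A1) (cl hS (fo D K s) '' A3)
      (cl hS' (fo D K sᶜ) '' A2) (cl hS' (fo D K sᶜ) '' A4) where
  dich F := by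
    rw [cr_q, cr_q, split_eq, split_eq, ← compl_split]
    exact h.dich _
  excl F := by
    rw [cr_q, cr_q, split_eq, split_eq, ← compl_split]
    exact h.excl _

section glue

variable [DecidableEq ι] [Countable ι]

theorem Op_glue (K : Finset ι) (ω ω' : ι → Bool) :
    Op (glue (↑K) ω ω') = (Op ω' \ ↑K) ∪ (Op ω ∩ ↑K) := by
  ext i
  simp only [Op, mem_union, mem_inter_iff, mem_sdiff, mem_ofPred_eq]
  by_cases hi : i ∈ (↑K : Set ι)
  · rw [glue_mem hi]
    tauto
  · rw [glue_not_mem hi]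
    tauto

/-- The crossing event of a quad after freezing is the crossing event of the frozen quad. -/
theorem cr_glue (hS : IsSt St) (D K : Finset ι) (A B : Set V) (ω ω' : ι → Bool) :
    Cr St (Op (glue (↑K) ω ω') ∩ ↑D) A B ↔
      Cr (qSt hS (fo D K (Op ω))) (Op ω' ∩ ↑(D \ K)) (cl hS (fo D K (Op ω)) '' A)
        (cl hS (fo D K (Op ω)) '' B) := by
  rw [cr_q, split_eq, Op_glue]

theorem cr_glue' (hS' : IsSt St') (D K : Finset ι) (A B : Set V') (ω ω' : ι → Bool) :
    Cr St' ((Op (glue (↑K) ω ω'))ᶜ ∩ ↑D) A B ↔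
      Cr (qSt hS' (fo D K (Op ω)ᶜ)) ((Op ω')ᶜ ∩ ↑(D \ K)) (cl hS' (fo D K (Op ω)ᶜ) '' A)
        (cl hS' (fo D K (Op ω)ᶜ) '' B) := by
  rw [cr_q, split_eq, Op_glue, compl_split]

/-- The conditional probability of a crossing of `D` from `A` to `B` given the configuration `ω`
on the edges of `K`. -/
noncomputable def cpr (ν : Measure Bool) [IsProbabilityMeasure ν] (St : ι → V → V → Prop)
    (D K : Finset ι) (A B : Set V) (ω : ι → Bool) : ℝ≥0∞ :=
  (Pm ν ι) {ω' | Cr St (Op (glue (↑K) ω ω') ∩ ↑D) A B}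

theorem cpr_eq (ν : Measure Bool) [IsProbabilityMeasure ν] (hS : IsSt St)
    (D K : Finset ι) (A B : Set V) (ω : ι → Bool) :
    cpr ν St D K A B ω = (Pm ν ι) {ω' | Cr (qSt hS (fo D K (Op ω))) (Op ω' ∩ ↑(D \ K))
      (cl hS (fo D K (Op ω)) '' A) (cl hS (fo D K (Op ω)) '' B)} := by
  unfold cpr
  congr 1
  ext ω'
  exact cr_glue hS D K A B ω ω'

theorem past_cpr (ν : Measure Bool) [IsProbabilityMeasure ν] {R : (ι → Bool) → Finset ι}
    (hR : StopSet R) (D : Finset ι) (A B : Set V) :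
    Past R (fun ω => cpr ν St D (R ω) A B ω) := by
  intro ω ω' h
  have e : R ω' = R ω := hR ω ω' h
  show cpr ν St D (R ω') A B ω' = cpr ν St D (R ω) A B ω
  unfold cpr
  rw [e]
  congr 1
  ext ω''
  have : glue (↑(R ω)) ω' ω'' = glue (↑(R ω)) ω ω'' := by
    funext i
    by_cases hi : i ∈ (↑(R ω) : Set ι)
    · rw [glue_mem hi, glue_mem hi, h i hi]
    · rw [glue_not_mem hi, glue_not_mem hi]
  simp only [mem_ofPred_eq, this]

omit [DecidableEq ι] in
theorem measurableSet_cr (D : Finset ι) (A B : Set V) :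
    MeasurableSet {ω : ι → Bool | Cr St (Op ω ∩ ↑D) A B} := by
  refine meas_of_dep (K := D) fun ω ω' hω h' => ?_
  have hsub : Op ω ∩ (↑D : Set ι) ⊆ Op ω' ∩ ↑D := by
    rintro i ⟨h1, h2⟩
    refine ⟨?_, h2⟩
    simp only [Op, mem_ofPred_eq] at h1 ⊢
    rwa [hω i h2]
  exact Cr.mono hsub h'

/-- The exact martingale: the conditional probability given the explored edges. -/
theorem cpr_stop (ν : Measure Bool) [IsProbabilityMeasure ν] {R : (ι → Bool) → Finset ι}
    (hR : StopSet R) {Y : (ι → Bool) → Prop} (hY : Past R Y) (D : Finset ι) (A B : Set V) :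
    (Pm ν ι) ({ω | Y ω} ∩ {ω | Cr St (Op ω ∩ ↑D) A B}) =
      ∫⁻ ω in {ω | Y ω}, cpr ν St D (R ω) A B ω ∂(Pm ν ι) := by
  classical
  have hYm : MeasurableSet {ω | Y ω} := hY.measurableSet {p | p}
  have hEm := measurableSet_cr (St := St) D A B
  have h := lintegral_stop ν hR
    (F := ({ω | Y ω} ∩ {ω | Cr St (Op ω ∩ ↑D) A B}).indicator 1)
    (measurable_one.indicator (hYm.inter hEm))
  rw [lintegral_indicator_one (hYm.inter hEm)] at h
  rw [h, ← lintegral_indicator hYm]
  refine lintegral_congr fun ω => ?_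
  by_cases hω : Y ω
  · rw [indicator_of_mem (show ω ∈ {ω | Y ω} from hω)]
    unfold cpr
    have hset : MeasurableSet {ω' | Cr St (Op (glue (↑(R ω)) ω ω') ∩ ↑D) A B} := by
      refine meas_of_dep (K := D) fun ω1 ω2 h12 h' => ?_
      have hsub : Op (glue (↑(R ω)) ω ω1) ∩ (↑D : Set ι) ⊆ Op (glue (↑(R ω)) ω ω2) ∩ ↑D := by
        rintro i ⟨h1, h2⟩
        refine ⟨?_, h2⟩
        simp only [Op, mem_ofPred_eq] at h1 ⊢
        by_cases hi : i ∈ (↑(R ω) : Set ι)
        · rw [glue_mem hi] at h1 ⊢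
          exact h1
        · rw [glue_not_mem hi] at h1 ⊢
          rwa [h12 i h2]
      exact Cr.mono hsub h'
    rw [← lintegral_indicator_one hset]
    refine lintegral_congr fun ω' => ?_
    have hY' : Y (glue (↑(R ω)) ω ω') := by
      have := hY.glue ω ω'
      exact this.symm ▸ hω
    by_cases hc : Cr St (Op (glue (↑(R ω)) ω ω') ∩ ↑D) A B
    · rw [indicator_of_mem (show glue (↑(R ω)) ω ω' ∈
          {ω | Y ω} ∩ {ω | Cr St (Op ω ∩ ↑D) A B} from ⟨hY', hc⟩),
        indicator_of_mem (show ω' ∈ {ω' | Cr St (Op (glue (↑(R ω)) ω ω') ∩ ↑D) A B} from hc)]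
      rfl
    · rw [indicator_of_notMem (fun h' : glue (↑(R ω)) ω ω' ∈
          {ω | Y ω} ∩ {ω | Cr St (Op ω ∩ ↑D) A B} => hc (by
            have h2 := h'.2
            exact h2)),
        indicator_of_notMem (fun h' : ω' ∈
          {ω' | Cr St (Op (glue (↑(R ω)) ω ω') ∩ ↑D) A B} => hc h')]
  · rw [indicator_of_notMem (fun h' : ω ∈ {ω | Y ω} => hω h')]
    rw [← lintegral_zero (μ := Pm ν ι)]
    refine lintegral_congr fun ω' => ?_
    rw [indicator_of_notMem]
    rintro ⟨h1, -⟩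
    have := hY.glue ω ω'
    exact hω (this ▸ h1)

end glue

end Vale.Agent.P167.H531
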