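import Vale.Agent.P167.H531.Cont

/-!
# P167, block CONT-LAT: comparison of the means of local functionals on crossing events

`F` is a function of the edges of a finite set `H` (a half box at `b'`). If the conditional crossing
probabilities of `D` and of `P` given the configuration on `H` (and given the frozen edges `K`) differ
by at most `ε` then the means of `F` on the crossing events differ by at most `ε E|F|`.
-/

namespace Vale.Agent.P167.H531

open Vale.Agent.P167.H558 MeasureTheory Set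
open scoped ENNReal

variable {ι V : Type*} {St : ι → V → V → Prop} {D P K H : Finset ι} {A1 A3 B1 B3 : Set V}

/-- `F` is a function of the edges of `H`. -/
def DepF (H : Finset ι) (F : (ι → Bool) → ℝ) : Prop :=
  ∀ ω ω' : ι → Bool, (∀ i ∈ H, ω i = ω' i) → F ω = F ω'

theorem DepF.measurable {F : (ι → Bool) → ℝ} (h : DepF H F) : Measurable F := by
  classical
  have : F = (fun x : H → Bool => F fun i => if hi : i ∈ H then x ⟨i, hi⟩ else false) ∘
      fun ω i => ω i := by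
    funext ω
    refine h _ _ fun i hi => ?_
    simp only [dif_pos hi]
  rw [this]
  exact (measurable_of_finite _).comp (measurable_pi_lambda _ fun i => measurable_pi_apply _)

theorem DepF.bdd {F : (ι → Bool) → ℝ} (h : DepF H F) : ∃ C, ∀ ω, ‖F ω‖ ≤ C := by
  classical
  obtain ⟨C, hC⟩ := (Set.finite_range fun x : H → Bool =>
    ‖F fun i => if hi : i ∈ H then x ⟨i, hi⟩ else false‖).bddAbove
  refine ⟨C, fun ω => ?_⟩
  have : F ω = F fun i => if hi : i ∈ H then (fun j : H => ω j) ⟨i, hi⟩ else false := by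
    refine h _ _ fun i hi => ?_
    simp only [dif_pos hi]
  rw [this]
  exact hC ⟨fun j : H => ω j, rfl⟩

section prob

variable (ν : Measure Bool) [IsProbabilityMeasure ν]

theorem DepF.integrable {F : (ι → Bool) → ℝ} (h : DepF H F) : Integrable F (Pm ν ι) := by
  obtain ⟨C, hC⟩ := h.bdd
  exact Integrable.of_bound h.measurable.aestronglyMeasurable C (Filter.Eventually.of_forall hC)

variable [Countable ι]

/-- Integration by gluing. -/
theorem integral_glue (K : Set ι) {G : (ι → Bool) → ℝ} (hG : Measurable G) {C : ℝ}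
    (hC : ∀ ω, ‖G ω‖ ≤ C) :
    ∫ ω, G ω ∂(Pm ν ι) = ∫ s, ∫ w, G (glue K s w) ∂(Pm ν ι) ∂(Pm ν ι) := by
  conv_lhs => rw [← map_glue ν K]
  rw [integral_map (measurable_glue K).aemeasurable hG.aestronglyMeasurable]
  rw [integral_prod]
  exact Integrable.of_bound (hG.comp (measurable_glue K)).aestronglyMeasurable C
    (Filter.Eventually.of_forall fun _ => hC _)

variable [DecidableEq ι]

open Classical in
/-- The mean of `F` on the crossing event of the domain with frozen edges is the mean of `F` times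
the conditional crossing probability given the edges of `H`. -/
theorem integral_cpr (K₀ H₀ : Finset ι) (hH : H₀ ⊆ H) (κ : ι → Bool) {F : (ι → Bool) → ℝ}
    (hF : DepF H F) :
    ∫ w, F w * (if Cr St (Op (glue (↑(K₀ ∪ H₀)) κ w) ∩ ↑D) A1 A3 then (1 : ℝ) else 0) ∂(Pm ν ι) =
      ∫ s, F s * (cpr ν St D (K₀ ∪ H) A1 A3 (glue (↑(K₀ ∪ H₀)) κ s)).toReal ∂(Pm ν ι) := by
  have hE : MeasurableSet {w : ι → Bool | Cr St (Op (glue (↑(K₀ ∪ H₀)) κ w) ∩ ↑D) A1 A3} :=
    meas_glue_cr D (K₀ ∪ H₀) A1 A3 κ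
  have hGm : Measurable fun w : ι → Bool =>
      F w * (if Cr St (Op (glue (↑(K₀ ∪ H₀)) κ w) ∩ ↑D) A1 A3 then (1 : ℝ) else 0) :=
    hF.measurable.mul (Measurable.ite hE measurable_const measurable_const)
  obtain ⟨C, hC⟩ := hF.bdd
  have hGb : ∀ w : ι → Bool,
      ‖F w * (if Cr St (Op (glue (↑(K₀ ∪ H₀)) κ w) ∩ ↑D) A1 A3 then (1 : ℝ) else 0)‖ ≤ C := by
    intro w
    rw [norm_mul]
    refine (mul_le_mul_of_nonneg_left (b := ‖(if Cr St (Op (glue (↑(K₀ ∪ H₀)) κ w) ∩ ↑D) A1 A3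
      then (1 : ℝ) else 0)‖) (c := 1) ?_ (norm_nonneg _)).trans ?_
    · split_ifs <;> simp
    · rw [mul_one]; exact hC w
  rw [integral_glue ν (↑H : Set ι) hGm hGb]
  refine integral_congr_ae (Filter.Eventually.of_forall fun s => ?_)
  simp only
  have h1 : ∀ w : ι → Bool, F (glue (↑H) s w) = F s := fun w =>
    hF _ _ fun i hi => glue_mem (Finset.mem_coe.2 hi)
  have h2 : ∀ w : ι → Bool, glue (↑(K₀ ∪ H₀)) κ (glue (↑H) s w) =
      glue (↑(K₀ ∪ H)) (glue (↑(K₀ ∪ H₀)) κ s) w := by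
    intro w
    funext i
    by_cases hi : i ∈ (↑(K₀ ∪ H₀) : Set ι)
    · have hi2 : i ∈ (↑(K₀ ∪ H) : Set ι) := by
        rw [Finset.mem_coe, Finset.mem_union] at hi ⊢
        exact hi.imp id fun h => hH h
      rw [glue_mem hi, glue_mem hi2, glue_mem hi]
    · rw [glue_not_mem hi]
      by_cases hiH : i ∈ (↑H : Set ι)
      · have hi2 : i ∈ (↑(K₀ ∪ H) : Set ι) := by
          rw [Finset.mem_coe, Finset.mem_union]
          exact Or.inr (Finset.mem_coe.1 hiH)
        rw [glue_mem hiH, glue_mem hi2, glue_not_mem hi]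
      · have hi2 : i ∉ (↑(K₀ ∪ H) : Set ι) := by
          intro h
          rw [Finset.mem_coe, Finset.mem_union] at h
          rcases h with h | h
          · exact hi (Finset.mem_coe.2 (Finset.mem_union_left _ h))
          · exact hiH (Finset.mem_coe.2 h)
        rw [glue_not_mem hiH, glue_not_mem hi2]
  simp only [h1, h2]
  rw [integral_const_mul]
  congr 1
  unfold cpr
  have hE' : MeasurableSet {w : ι → Bool |
      Cr St (Op (glue (↑(K₀ ∪ H)) (glue (↑(K₀ ∪ H₀)) κ s) w) ∩ ↑D) A1 A3} :=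
    meas_glue_cr D (K₀ ∪ H) A1 A3 _
  have h3 : (fun w : ι → Bool => if Cr St (Op (glue (↑(K₀ ∪ H)) (glue (↑(K₀ ∪ H₀)) κ s) w) ∩ ↑D)
      A1 A3 then (1 : ℝ) else 0) = {w : ι → Bool |
      Cr St (Op (glue (↑(K₀ ∪ H)) (glue (↑(K₀ ∪ H₀)) κ s) w) ∩ ↑D) A1 A3}.indicator 1 := by
    funext w
    rw [indicator_apply]
    rfl
  rw [h3, integral_indicator_one hE']
  rfl

/-- The conditional crossing probability given the edges of `H` is a function of the edges of
`H`. -/
theorem depF_cpr (K₀ H₀ : Finset ι) (κ : ι → Bool) {F : (ι → Bool) → ℝ}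
    (hF : DepF H F) : DepF H fun s : ι → Bool =>
      F s * (cpr ν St D (K₀ ∪ H) A1 A3 (glue (↑(K₀ ∪ H₀)) κ s)).toReal := by
  intro s s' hs
  have e1 : F s = F s' := hF s s' hs
  have e2 : ∀ w : ι → Bool, glue (↑(K₀ ∪ H)) (glue (↑(K₀ ∪ H₀)) κ s) w =
      glue (↑(K₀ ∪ H)) (glue (↑(K₀ ∪ H₀)) κ s') w := by
    intro w
    funext i
    by_cases hi : i ∈ (↑(K₀ ∪ H) : Set ι)
    · rw [glue_mem hi, glue_mem hi]
      by_cases hi2 : i ∈ (↑(K₀ ∪ H₀) : Set ι)
      · rw [glue_mem hi2, glue_mem hi2]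
      · rw [glue_not_mem hi2, glue_not_mem hi2]
        rw [Finset.mem_coe, Finset.mem_union] at hi hi2
        push Not at hi2
        exact hs i (hi.resolve_left hi2.1)
    · rw [glue_not_mem hi, glue_not_mem hi]
  have e3 : cpr ν St D (K₀ ∪ H) A1 A3 (glue (↑(K₀ ∪ H₀)) κ s) =
      cpr ν St D (K₀ ∪ H) A1 A3 (glue (↑(K₀ ∪ H₀)) κ s') := by
    unfold cpr
    simp only [e2]
  simp only [e1, e3]

open Classical in
/-- **Comparison of the means of a local functional on the crossing events.** -/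
theorem fun_cpr {W : Type*} {StW : ι → W → W → Prop} {C1 C3 : Set W}
    (K₀ H₀ : Finset ι) (hH : H₀ ⊆ H) (κ : ι → Bool) {F : (ι → Bool) → ℝ}
    (hF : DepF H F) {ε : ℝ}
    (h : ∀ s : ι → Bool, |(cpr ν St D (K₀ ∪ H) A1 A3 (glue (↑(K₀ ∪ H₀)) κ s)).toReal -
      (cpr ν StW P (K₀ ∪ H) C1 C3 (glue (↑(K₀ ∪ H₀)) κ s)).toReal| ≤ ε) :
    |∫ w, F w * (if Cr St (Op (glue (↑(K₀ ∪ H₀)) κ w) ∩ ↑D) A1 A3 then (1 : ℝ) else 0) ∂(Pm ν ι) -
      ∫ w, F w * (if Cr StW (Op (glue (↑(K₀ ∪ H₀)) κ w) ∩ ↑P) C1 C3 then (1 : ℝ) else 0)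
        ∂(Pm ν ι)| ≤ ε * ∫ w, |F w| ∂(Pm ν ι) := by
  rw [integral_cpr ν K₀ H₀ hH κ hF, integral_cpr ν K₀ H₀ hH κ hF]
  rw [← integral_sub ((depF_cpr ν K₀ H₀ κ hF).integrable ν)
    ((depF_cpr ν K₀ H₀ κ hF).integrable ν)]
  refine (abs_integral_le_integral_abs).trans ?_
  rw [← integral_const_mul]
  have hFa : DepF H fun s => |F s| := fun s s' hs => by simp only [hF s s' hs]
  refine integral_mono_of_nonneg (Filter.Eventually.of_forall fun s => abs_nonneg _)
    ((hFa.integrable ν).const_mul ε) (Filter.Eventually.of_forall fun s => ?_)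
  simp only
  rw [← mul_sub, abs_mul, mul_comm]
  exact mul_le_mul_of_nonneg_right (h s) (abs_nonneg _)

end prob

end Vale.Agent.P167.H531
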