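import Vale.Agent.P167.H531.Zone

/-!
# P167, block CONT-LAT: the comparison with a zone on the explored arc

As `cont_gen`, without any hypothesis on the sites of a zone `Z2` of the arc `B2`: the additional
error is the probability of a closed path of `D` from `B2 ∩ Z2` to `A4` which avoids `A2`.
-/

namespace Vale.Agent.P167.H531

open Vale.Agent.P167.H558 MeasureTheory Set
open scoped ENNReal

variable {ι V V' : Type*}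
variable {St : ι → V → V → Prop} {St' : ι → V' → V' → Prop} {D P K : Finset ι}
  {A1 A3 B1 B3 : Set V} {A2 A4 B2 B4 : Set V'} {Z1 Z3 : Set V} {Z2 : Set V'}
  {q1 q3 : V → Set ι} {q2 : V' → Set ι}

/-- The deterministic core. -/
theorem fresh_to2 (hS' : IsSt St') (hD : IsQuad St St' D A1 A3 A2 A4)
    (hc : Collar0 St St' D P A1 A3 A2 B1 B3 (B2 \ Z2) Z1 Z3 q1 q3 q2) {F : Set ι}
    {y1 y3 : V} (h1 : y1 ∈ B1) (h1Z : y1 ∉ Z1) (h3 : y3 ∈ B3) (h3Z : y3 ∉ Z3)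
    (hg : Cn St (F ∩ ES St' P B2 F) y1 y3) (hn : ¬ Cr St (F ∩ ↑D) A1 A3) :
    ((∃ i ∈ q1 y1, ∃ a b, St' i a b ∧ ∃ c ∈ A4,
      CnIn St' (Fᶜ ∩ (↑D \ ES St' P B2 F)) A2ᶜ b c) ∨
    (∃ i ∈ q3 y3, ∃ a b, St' i a b ∧ ∃ c ∈ A4,
      CnIn St' (Fᶜ ∩ (↑D \ ES St' P B2 F)) A2ᶜ b c)) ∨
    ∃ y ∈ B2 ∩ Z2, ∃ c ∈ A4, CnIn St' (Fᶜ ∩ ↑D) A2ᶜ y c := by
  classical
  set S : Set ι := ES St' P B2 F with hSdef
  have hSP : S ⊆ ↑P := fun i hi => hi.1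
  have hSD : S ⊆ ↑D := fun i hi => hc.sub hi.1
  -- the primal path through the collar
  set G : Set ι := (F ∩ S) ∪ q1 y1 ∪ q3 y3 with hG
  have hprim : Cr St (G ∩ ↑D) A1 A3 := by
    obtain ⟨a, ha, hqa⟩ := hc.q1_conn y1 h1 h1Z
    obtain ⟨b, hb, hqb⟩ := hc.q3_conn y3 h3 h3Z
    refine ⟨a, ha, b, hb, ?_⟩
    refine (hqa.mono ?_).trans ((hg.mono ?_).trans (hqb.mono ?_))
    · exact fun i hi => ⟨Or.inl (Or.inr hi), (hc.q1_sub y1 h1 h1Z hi).1⟩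
    · exact fun i hi => ⟨Or.inl (Or.inl hi), hSD hi.2⟩
    · exact fun i hi => ⟨Or.inr hi, (hc.q3_sub y3 h3 h3Z hi).1⟩
  have hno : ¬ Cr St' (Gᶜ ∩ ↑D) A2 A4 := hD.excl G hprim
  obtain ⟨a2, ha2, a4, ha4, hpi⟩ := (hD.dich F).resolve_left hn
  set Q : Set ι := q1 y1 ∪ q3 y3 with hQ
  -- closed edges of `P` and closed edges of `D` off `Q` are in `Gᶜ`
  have hPG : (Fᶜ ∩ ↑P : Set ι) ⊆ Gᶜ ∩ ↑D := by
    rintro k ⟨hkF, hkP⟩
    refine ⟨?_, hc.sub hkP⟩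
    rintro ((hj | hj) | hj)
    · exact hkF hj.1
    · exact (hc.q1_sub y1 h1 h1Z hj).2 hkP
    · exact (hc.q3_sub y3 h3 h3Z hj).2 hkP
  have hQG : ((Fᶜ ∩ ↑D) \ Q : Set ι) ⊆ Gᶜ ∩ ↑D := by
    rintro k ⟨⟨hkF, hkD⟩, hkQ⟩
    refine ⟨?_, hkD⟩
    rintro ((hj | hj) | hj)
    · exact hkF hj.1
    · exact hkQ (Or.inl hj)
    · exact hkQ (Or.inr hj)
  rcases hpi.last (Q := Q) with h | ⟨i, hiQ, hiF, a, b, hs, h⟩
  · exfalso
    apply hno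
    exact ⟨a2, ha2, a4, ha4, h.mono hQG⟩
  · -- the path after its last passage through the collar paths
    rcases h.last (Q := S) with hfresh | ⟨j, hjS, ⟨⟨hjF, hjD⟩, hjQ⟩, r, r', hs', h'⟩
    · left
      have hsub : ((Fᶜ ∩ ↑D) \ Q) \ S ⊆ Fᶜ ∩ (↑D \ S) := fun k hk => ⟨hk.1.1.1, hk.1.1.2, hk.2⟩
      have hav : CnIn St' (((Fᶜ ∩ ↑D) \ Q) \ S) A2ᶜ b a4 := by
        rcases hfresh.avoid (A := A2) with h1 | ⟨x, hx, h1⟩
        · exact h1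
        · exfalso
          apply hno
          exact ⟨x, hx, a4, ha4, h1.mono (sdiff_subset.trans hQG)⟩
      rcases hiQ with hi | hi
      · exact Or.inl ⟨i, hi, a, b, hs, a4, ha4, hav.mono hsub subset_rfl⟩
      · exact Or.inr ⟨i, hi, a, b, hs, a4, ha4, hav.mono hsub subset_rfl⟩
    · obtain ⟨hjP, r0, hr0, r0', hs0⟩ := hjS
      have hr' : r' ∈ Cl St' (Fᶜ ∩ ↑P) B2 := by
        obtain ⟨y, hy, hyr⟩ := hr0
        rcases hS'.pair j _ _ _ _ hs' hs0 with ⟨e1, -⟩ | ⟨e1, -⟩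
        · rw [e1] at hyr
          exact ⟨y, hy, hyr.tail ⟨j, ⟨hjF, hjP⟩, hs'⟩⟩
        · rw [e1] at hyr
          exact ⟨y, hy, hyr⟩
      obtain ⟨y2, hy2, hy2r⟩ := hr'
      by_cases hz : y2 ∈ Z2
      · right
        refine ⟨y2, ⟨hy2, hz⟩, a4, ha4, ?_⟩
        have htot : Cn St' ((Fᶜ ∩ ↑P) ∪ ((Fᶜ ∩ ↑D) \ Q)) y2 a4 :=
          (hy2r.mono subset_union_left).trans (h'.mono (sdiff_subset.trans subset_union_right))
        rcases htot.avoid (A := A2) with h5 | ⟨x, hx, h5⟩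
        · refine h5.mono ?_ subset_rfl
          rintro k (hk | hk)
          · exact ⟨hk.1, hc.sub hk.2⟩
          · exact hk.1
        · exfalso
          exact hno ⟨x, hx, a4, ha4, h5.mono (union_subset hPG hQG)⟩
      · exfalso
        obtain ⟨a2', ha2', hq2⟩ := hc.q2_conn y2 ⟨hy2, hz⟩
        apply hno
        refine ⟨a2', ha2', a4, ha4, (hq2.mono ?_).trans ((hy2r.mono hPG).trans
          (h'.mono (sdiff_subset.trans hQG)))⟩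
        intro k hk
        have hk' := hc.q2_sub y2 ⟨hy2, hz⟩ hk
        refine ⟨?_, hk'.1⟩
        rintro ((hj | hj) | hj)
        · exact hk'.2 (hSP hj.2)
        · exact (Set.disjoint_left.1 (hc.disj1 y1 h1 h1Z y2 ⟨hy2, hz⟩)) hj hk
        · exact (Set.disjoint_left.1 (hc.disj3 y3 h3 h3Z y2 ⟨hy2, hz⟩)) hj hk

section prob

variable [Countable ι] (ν : Measure Bool) [IsProbabilityMeasure ν]

/-- **CONT-LAT with three zones.** -/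
theorem cont_gen2 (hS' : IsSt St') (hP : IsQuad St St' P B1 B3 B2 B4)
    (hD : IsQuad St St' D A1 A3 A2 A4)
    (hc : Collar0 St St' D P A1 A3 A2 B1 B3 (B2 \ Z2) Z1 Z3 q1 q3 q2) {e1 e3 : ℝ≥0∞}
    (hq1 : ∀ y ∈ B1, y ∉ Z1 → (Pm ν ι) (ArmD St' D (q1 y) A2 A4) ≤ e1)
    (hq3 : ∀ y ∈ B3, y ∉ Z3 → (Pm ν ι) (ArmD St' D (q3 y) A2 A4) ≤ e3) :
    (Pm ν ι) {ω | Cr St (Op ω ∩ ↑P) B1 B3 ∧ ¬ Cr St (Op ω ∩ ↑D) A1 A3} ≤
      (e1 + e3) * (Pm ν ι) {ω | Cr St (Op ω ∩ ↑P) B1 B3} +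
        ((Pm ν ι) {ω | Cr St (Op ω ∩ ↑P) (B1 ∩ Z1) B3} +
          (Pm ν ι) {ω | Cr St (Op ω ∩ ↑P) B1 (B3 ∩ Z3)}) +
        (Pm ν ι) {ω | ∃ y ∈ B2 ∩ Z2, ∃ c ∈ A4, CnIn St' ((Op ω)ᶜ ∩ ↑D) A2ᶜ y c} := by
  classical
  set R := Ex St' P B2 with hRdef
  have hR : StopSet R := stopSet_Ex
  set G : (ι → Bool) → Set ι := fun ω => Op ω ∩ ES St' P B2 (Op ω) with hG
  have hGp : Past R G := past_G
  set Y : (ι → Bool) → Prop := fun ω =>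
    (∃ p, GoodPair St B1 B3 Z1 Z3 (G ω) p) with hY
  have hYp : Past R Y := hGp.comp (fun g => ∃ p, GoodPair St B1 B3 Z1 Z3 g p)
  set S : (ι → Bool) → Option (V × V) := fun ω => sel St B1 B3 Z1 Z3 (G ω) with hSel
  have hSp : Past R S := hGp.comp (fun g => sel St B1 B3 Z1 Z3 g)
  have hYcr : ∀ ω, Y ω → Cr St (Op ω ∩ ↑P) B1 B3 := by
    rintro ω ⟨p, h1, -, h3, -, h⟩
    have hsub : G ω ⊆ Op ω ∩ ↑P := fun i hi => ⟨hi.1, hi.2.1⟩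
    exact ⟨p.1, h1, p.2, h3, h.mono hsub⟩
  let E1 : Option (V × V) → Finset ι → (ι → Bool) → Prop := fun c K ω =>
    ∃ p, c = some p ∧ ArmK St' D K (q1 p.1) A2 A4 ω
  let E3 : Option (V × V) → Finset ι → (ι → Bool) → Prop := fun c K ω =>
    ∃ p, c = some p ∧ ArmK St' D K (q3 p.2) A2 A4 ω
  let E1' : Option (V × V) → Set (ι → Bool) := fun c =>
    {ω | ∃ p, c = some p ∧ ω ∈ ArmD St' D (q1 p.1) A2 A4}
  let E3' : Option (V × V) → Set (ι → Bool) := fun c =>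
    {ω | ∃ p, c = some p ∧ ω ∈ ArmD St' D (q3 p.2) A2 A4}
  have hex : ∀ ω ω' : ι → Bool, (∀ i ∈ D, ω' i = ω i) → R ω' = R ω ∧ S ω' = S ω := by
    intro ω ω' h
    have h' : ∀ i ∈ R ω, ω' i = ω i := fun i hi => h i (hc.sub (Finset.mem_filter.1 hi).1)
    exact ⟨hR ω ω' h', hSp ω ω' h'⟩
  have hmeas : ∀ (Q : V × V → Set ι),
      MeasurableSet {ω : ι → Bool | ∃ p, S ω = some p ∧ ArmK St' D (R ω) (Q p) A2 A4 ω} := by
    intro Q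
    refine meas_of_dep (K := D) fun ω ω' h => ?_
    rintro ⟨p, hp, hA⟩
    obtain ⟨e1, e2⟩ := hex ω ω' h
    refine ⟨p, e2.trans hp, ?_⟩
    show ArmK St' D (R ω') (Q p) A2 A4 ω'
    rw [e1]
    obtain ⟨i, hi, a, b, hs, r, hr, hpa⟩ := hA
    refine ⟨i, hi, a, b, hs, r, hr, hpa.mono ?_ subset_rfl⟩
    rintro j ⟨hj1, hj2⟩
    refine ⟨?_, hj2⟩
    simp only [Op, mem_compl_iff, mem_ofPred_eq] at hj1 ⊢
    rwa [h j hj2.1]
  have b1 : (Pm ν ι) ({ω | Y ω} ∩ {ω | E1 (S ω) (R ω) ω}) ≤ e1 * (Pm ν ι) {ω | Y ω} := by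
    refine fresh_le ν hR hYp hSp (E := E1) (E' := E1') ?_ ?_ ?_ ?_
    · rintro c K ω ω' h ⟨p, hp, hA⟩
      exact ⟨p, hp, hA.loc h⟩
    · exact hmeas (fun p => q1 p.1)
    · rintro c K ω ⟨p, hp, hA⟩
      exact ⟨p, hp, hA.sub⟩
    · intro ω hω
      obtain ⟨p, hp, hgood⟩ := sel_spec hω
      refine le_trans (measure_mono ?_) (hq1 p.1 hgood.1 hgood.2.1)
      rintro ω' ⟨p', hp', hA⟩
      have e : some p = some p' := by rw [← hp, ← hp']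
      rw [← Option.some.inj e] at hA
      exact hA
  have b3 : (Pm ν ι) ({ω | Y ω} ∩ {ω | E3 (S ω) (R ω) ω}) ≤ e3 * (Pm ν ι) {ω | Y ω} := by
    refine fresh_le ν hR hYp hSp (E := E3) (E' := E3') ?_ ?_ ?_ ?_
    · rintro c K ω ω' h ⟨p, hp, hA⟩
      exact ⟨p, hp, hA.loc h⟩
    · exact hmeas (fun p => q3 p.2)
    · rintro c K ω ⟨p, hp, hA⟩
      exact ⟨p, hp, hA.sub⟩
    · intro ω hω
      obtain ⟨p, hp, hgood⟩ := sel_spec hω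
      refine le_trans (measure_mono ?_) (hq3 p.2 hgood.2.2.1 hgood.2.2.2.1)
      rintro ω' ⟨p', hp', hA⟩
      have e : some p = some p' := by rw [← hp, ← hp']
      rw [← Option.some.inj e] at hA
      exact hA
  have hcover : {ω : ι → Bool | Cr St (Op ω ∩ ↑P) B1 B3 ∧ ¬ Cr St (Op ω ∩ ↑D) A1 A3} ⊆
      ((({ω | Y ω} ∩ {ω | E1 (S ω) (R ω) ω}) ∪ ({ω | Y ω} ∩ {ω | E3 (S ω) (R ω) ω})) ∪
        ({ω | Cr St (Op ω ∩ ↑P) (B1 ∩ Z1) B3} ∪ {ω | Cr St (Op ω ∩ ↑P) B1 (B3 ∩ Z3)})) ∪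
        {ω | ∃ y ∈ B2 ∩ Z2, ∃ c ∈ A4, CnIn St' ((Op ω)ᶜ ∩ ↑D) A2ᶜ y c} := by
    rintro ω ⟨hEP, hED⟩
    by_cases hω : Y ω
    · obtain ⟨p, hp, hgood⟩ := sel_spec hω
      have hcoe : (↑(R ω) : Set ι) = ES St' P B2 (Op ω) := coe_Ex ω
      rcases fresh_to2 hS' hD hc hgood.1 hgood.2.1 hgood.2.2.1 hgood.2.2.2.1 hgood.2.2.2.2 hED
        with (⟨i, hi, a, b, hs, r, hr, hA⟩ | ⟨i, hi, a, b, hs, r, hr, hA⟩) | h5
      · refine Or.inl (Or.inl (Or.inl ⟨hω, p, hp, i, hi, a, b, hs, r, hr, ?_⟩))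
        rw [hcoe]; exact hA
      · refine Or.inl (Or.inl (Or.inr ⟨hω, p, hp, i, hi, a, b, hs, r, hr, ?_⟩))
        rw [hcoe]; exact hA
      · exact Or.inr h5
    · left
      right
      have hno : ¬ Cr St' ((Op ω)ᶜ ∩ ↑P) B2 B4 := hP.excl _ hEP
      obtain ⟨y1, h1, y3, h3, hg⟩ := exists_explored hP hno
      have hbad : y1 ∈ Z1 ∨ y3 ∈ Z3 := by
        by_contra hcon
        push Not at hcon
        exact hω ⟨(y1, y3), h1, hcon.1, h3, hcon.2, hg⟩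
      have hsub : Op ω ∩ ES St' P B2 (Op ω) ⊆ Op ω ∩ ↑P := fun i hi => ⟨hi.1, hi.2.1⟩
      have hg' : Cn St (Op ω ∩ ↑P) y1 y3 := hg.mono hsub
      rcases hbad with h | h
      · exact Or.inl ⟨y1, ⟨h1, h⟩, y3, h3, hg'⟩
      · exact Or.inr ⟨y1, h1, y3, ⟨h3, h⟩, hg'⟩
  have hYle : (Pm ν ι) {ω | Y ω} ≤ (Pm ν ι) {ω | Cr St (Op ω ∩ ↑P) B1 B3} :=
    measure_mono fun ω hω => hYcr ω hω
  calc (Pm ν ι) {ω | Cr St (Op ω ∩ ↑P) B1 B3 ∧ ¬ Cr St (Op ω ∩ ↑D) A1 A3}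
      ≤ _ := measure_mono hcover
    _ ≤ _ := (measure_union_le _ _).trans (add_le_add ((measure_union_le _ _).trans
      (add_le_add (measure_union_le _ _) (measure_union_le _ _))) le_rfl)
    _ ≤ (e1 * (Pm ν ι) {ω | Cr St (Op ω ∩ ↑P) B1 B3} +
          e3 * (Pm ν ι) {ω | Cr St (Op ω ∩ ↑P) B1 B3}) +
        ((Pm ν ι) {ω | Cr St (Op ω ∩ ↑P) (B1 ∩ Z1) B3} +
          (Pm ν ι) {ω | Cr St (Op ω ∩ ↑P) B1 (B3 ∩ Z3)}) +
        (Pm ν ι) {ω | ∃ y ∈ B2 ∩ Z2, ∃ c ∈ A4, CnIn St' ((Op ω)ᶜ ∩ ↑D) A2ᶜ y c} := by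
        gcongr
        · exact b1.trans (by gcongr)
        · exact b3.trans (by gcongr)
    _ = _ := by rw [← add_mul]

end prob

end Vale.Agent.P167.H531
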