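import Vale.Agent.P167.H531.Poly2

/-!
# P167, block E4: change of the dual sites, rotation, the crossing event of `E6`
-/

set_option linter.unusedSectionVars false

namespace Vale.Agent.P167.H531

open Vale.Agent.P167.E6 Vale.Agent.P167.E2 Set

section abstract

variable {ι V V' W : Type*} {St : ι → V → V → Prop} {St' : ι → V' → V' → Prop}
  {StW : ι → W → W → Prop} {P : Finset ι}

/-- A change of the dual sites: edges of `P` correspond, and `φ` only identifies sites of the same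
arc. -/
structure DMap (StW : ι → W → W → Prop) (St' : ι → V' → V' → Prop) (P : Finset ι) (φ : W → V')
    (B2 B4 : Set W) : Prop where
  fwd : ∀ i ∈ P, ∀ x y, StW i x y → St' i (φ x) (φ y)
  bwd : ∀ i ∈ P, ∀ a b, St' i a b → ∃ x y, StW i x y ∧ φ x = a ∧ φ y = b
  inj : ∀ x y, (x ∈ B2 ∪ B4 ∨ ∃ i ∈ P, ∃ z, StW i x z ∨ StW i z x) →
    (y ∈ B2 ∪ B4 ∨ ∃ i ∈ P, ∃ z, StW i y z ∨ StW i z y) → φ x = φ y →
    x = y ∨ (x ∈ B2 ∧ y ∈ B2) ∨ (x ∈ B4 ∧ y ∈ B4)

theorem cr_map {φ : W → V'} {B2 B4 : Set W} (h : DMap StW St' P φ B2 B4) {F : Set ι}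
    (hF : F ⊆ ↑P) : Cr St' F (φ '' B2) (φ '' B4) ↔ Cr StW F B2 B4 := by
  constructor
  · rintro ⟨_, ⟨x0, hx0, rfl⟩, _, ⟨y0, hy0, rfl⟩, hc⟩
    -- follow the path
    have key : ∀ b, Cn St' F (φ x0) b → Cr StW F B2 B4 ∨
        ∃ x, φ x = b ∧ (x ∈ B2 ∪ B4 ∨ ∃ i ∈ P, ∃ z, StW i x z ∨ StW i z x) ∧
          ∃ a ∈ B2, Cn StW F a x := by
      intro b hb
      induction hb with
      | refl => exact Or.inr ⟨x0, rfl, Or.inl (Or.inl hx0), x0, hx0, Cn.refl _ _⟩
      | @tail b c _ hbc ih =>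
        rcases ih with ih | ⟨x, hxb, hx, a, ha, hax⟩
        · exact Or.inl ih
        · obtain ⟨i, hi, hs⟩ := hbc
          obtain ⟨x', y', hs', hx', hy'⟩ := h.bwd i (hF hi) b c hs
          have hin : x' ∈ B2 ∪ B4 ∨ ∃ i ∈ P, ∃ z, StW i x' z ∨ StW i z x' :=
            Or.inr ⟨i, hF hi, y', Or.inl hs'⟩
          have hin' : y' ∈ B2 ∪ B4 ∨ ∃ i ∈ P, ∃ z, StW i y' z ∨ StW i z y' :=
            Or.inr ⟨i, hF hi, x', Or.inr hs'⟩
          rcases h.inj x x' hx hin (hxb.trans hx'.symm) with rfl | ⟨h1, h2⟩ | ⟨h1, h2⟩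
          · exact Or.inr ⟨y', hy', hin', a, ha, hax.tail ⟨i, hi, hs'⟩⟩
          · exact Or.inr ⟨y', hy', hin', x', h2, Relation.ReflTransGen.single ⟨i, hi, hs'⟩⟩
          · exact Or.inl ⟨a, ha, x, h1, hax⟩
    rcases key _ hc with h1 | ⟨x, hxb, hx, a, ha, hax⟩
    · exact h1
    · rcases h.inj x y0 hx (Or.inl (Or.inr hy0)) hxb with rfl | ⟨h1, h2⟩ | ⟨h1, h2⟩
      · exact ⟨a, ha, x, hy0, hax⟩
      · exact ⟨y0, h2, y0, hy0, Cn.refl _ _⟩
      · exact ⟨a, ha, x, h1, hax⟩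
  · rintro ⟨x, hx, y, hy, hc⟩
    refine ⟨φ x, ⟨x, hx, rfl⟩, φ y, ⟨y, hy, rfl⟩, ?_⟩
    clear hy
    induction hc with
    | refl => exact Cn.refl _ _
    | tail _ hbc ih =>
      obtain ⟨i, hi, hs⟩ := hbc
      exact ih.tail ⟨i, hi, h.fwd i (hF hi) _ _ hs⟩

/-- Change of the dual sites of a quad. -/
theorem IsQuad.map {φ : W → V'} {B1 B3 : Set V} {B2 B4 : Set W}
    (hq : IsQuad St StW P B1 B3 B2 B4) (h : DMap StW St' P φ B2 B4) :
    IsQuad St St' P B1 B3 (φ '' B2) (φ '' B4) where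
  dich F := by
    rw [cr_map h inter_subset_right]
    exact hq.dich F
  excl F := by
    rw [cr_map h inter_subset_right]
    exact hq.excl F

end abstract

section sub

variable {n n' : ℕ} {p : ZMod n → ℤ × ℤ} {q : ZMod n' → ℤ × ℤ} {S T : Finset (ℤ × ℤ)}
  {k l m : ℕ}

open Classical in
/-- The dual sites of the polygon `p` as dual sites of the larger polygon `q`. -/
noncomputable def dm (p : ZMod n → ℤ × ℤ) (q : ZMod n' → ℤ × ℤ) (T : Finset (ℤ × ℤ)) :
    (ℤ × ℤ) ⊕ ZMod n → (ℤ × ℤ) ⊕ ZMod n' :=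
  Sum.elim Sum.inl fun i => if fo' p i ∈ T then Sum.inl (fo' p i) else
    Sum.inr (Classical.epsilon fun j => pe q j = pe p i)

theorem dm_inl (f : ℤ × ℤ) : dm p q T (Sum.inl f) = Sum.inl f := rfl

theorem dm_in {i : ZMod n} (h : fo' p i ∈ T) : dm p q T (Sum.inr i) = Sum.inl (fo' p i) := by
  classical
  exact if_pos h

theorem dm_out (hp : IsPolygon p) (hS : Encloses p S) (hq : IsPolygon q) (hT : Encloses q T)
    (hST : S ⊆ T) {i : ZMod n} (h : fo' p i ∉ T) :
    ∃ j, dm p q T (Sum.inr i) = Sum.inr j ∧ pe q j = pe p i ∧ fi q j = fi p i := by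
  classical
  have h1 : ∃ j, q j = p i ∧ q (j + 1) = p i + dir (ro p i) :=
    (hT _ _).2 ⟨hST (fi_mem hp hS i), h⟩
  obtain ⟨j, h2, h3⟩ := h1
  have h4 : pe q j = pe p i := by rw [pe, h2, h3, pe_eq hp]
  have h5 : pe q (Classical.epsilon fun j => pe q j = pe p i) = pe p i :=
    Classical.epsilon_spec (p := fun j => pe q j = pe p i) ⟨j, h4⟩
  have h6 : (Classical.epsilon fun j => pe q j = pe p i) = j := pe_inj hq (h5.trans h4.symm)
  refine ⟨j, ?_, h4, ?_⟩
  · show (if fo' p i ∈ T then _ else _) = _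
    rw [if_neg h, h6]
  · have h7 : ro p i = ro q j := ro_unique hq (by rw [h3, h2])
    rw [fi, fi, h2, ← h7]

theorem dm_fwd (hp : IsPolygon p) (hS : Encloses p S) (hq : IsPolygon q) (hT : Encloses q T)
    (hST : S ⊆ T) {e : Sym2 (ℤ × ℤ)} {x y : (ℤ × ℤ) ⊕ ZMod n} (h : StF p S e x y) :
    StF q T e (dm p q T x) (dm p q T y) := by
  have hpe : ∀ i, StF q T (pe p i) (Sum.inl (fi p i)) (dm p q T (Sum.inr i)) := by
    intro i
    by_cases hi : fo' p i ∈ T
    · rw [dm_in hi]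
      exact Or.inl ⟨p i, ro p i, pe_eq hp i, hST (fi_mem hp hS i), hi, rfl, rfl⟩
    · obtain ⟨j, h1, h2, h3⟩ := dm_out hp hS hq hT hST hi
      rw [h1, ← h2, ← h3]
      exact Or.inr (Or.inl ⟨j, rfl, rfl, rfl⟩)
  rcases h with ⟨v, r, rfl, h1, h2, rfl, rfl⟩ | ⟨i, rfl, rfl, rfl⟩ | ⟨i, rfl, rfl, rfl⟩
  · exact Or.inl ⟨v, r, rfl, hST h1, hST h2, rfl, rfl⟩
  · exact hpe i
  · exact (isSt_F hq hT).symm _ _ _ (hpe i)

/-- Every edge of the domain joins two dual sites. -/
theorem exists_stF (hS : Encloses p S) {e : Sym2 (ℤ × ℤ)} (he : e ∈ edges S) :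
    ∃ x y, StF p S e x y := by
  have h0 : ∃ v r, e = s(v, v + dir r) ∧ face v r ∈ S := by
    unfold edges at he
    simp only [Finset.mem_biUnion, Finset.mem_insert, Finset.mem_singleton] at he
    obtain ⟨f, hf, h | h | h | h⟩ := he
    · exact ⟨f, 0, h, by rw [face0]; exact hf⟩
    · refine ⟨f + (0, 1), 3, ?_, ?_⟩
      · rw [h, Sym2.eq_iff]
        right
        refine ⟨?_, rfl⟩
        ext <;> simp [dir3]
      · rw [face3]
        have : ((f + (0, 1)).1, (f + (0, 1)).2 - 1) = f := by ext <;> simp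
        rw [this]; exact hf
    · refine ⟨f + (1, 0), 1, ?_, ?_⟩
      · rw [h, dir1, add_assoc]; rfl
      · rw [face1]
        have : ((f + (1, 0)).1 - 1, (f + (1, 0)).2) = f := by ext <;> simp
        rw [this]; exact hf
    · refine ⟨f + (1, 1), 2, ?_, ?_⟩
      · rw [h, Sym2.eq_iff]
        right
        refine ⟨?_, rfl⟩
        ext <;> simp [dir2]
      · rw [face2]
        have : ((f + (1, 1)).1 - 1, (f + (1, 1)).2 - 1) = f := by ext <;> simp
        rw [this]; exact hf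
  obtain ⟨v, r, rfl, h1⟩ := h0
  by_cases h2 : face v (r - 1) ∈ S
  · exact ⟨_, _, Or.inl ⟨v, r, rfl, h1, h2, rfl, rfl⟩⟩
  · obtain ⟨i, h3, h4⟩ := (hS v r).2 ⟨h1, h2⟩
    exact ⟨_, _, Or.inr (Or.inl ⟨i, by rw [pe, h3, h4], rfl, rfl⟩)⟩

theorem dm_dmap (hp : IsPolygon p) (hS : Encloses p S) (hq : IsPolygon q) (hT : Encloses q T)
    (hST : S ⊆ T) (hkn : k < n)
    (hsep : ∀ x ∈ arcF0 n l, ∀ y ∈ arcF n m k, dm p q T x ≠ dm p q T y) :
    DMap (StF p S) (StF q T) (DE p S k l m) (dm p q T) (arcF0 n l) (arcF n m k) where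
  fwd _ _ _ _ h := dm_fwd hp hS hq hT hST h
  bwd e he a b h := by
    obtain ⟨x, y, hxy⟩ := exists_stF hS (mem_DE.1 he).1
    have h1 := dm_fwd hp hS hq hT hST hxy
    rcases (isSt_F hq hT).pair e _ _ _ _ h1 h with ⟨rfl, rfl⟩ | ⟨rfl, rfl⟩
    · exact ⟨x, y, hxy, rfl, rfl⟩
    · exact ⟨y, x, (isSt_F hp hS).symm _ _ _ hxy, rfl, rfl⟩
  inj := by
    have hn : NeZero n := ⟨by omega⟩
    have key : ∀ x, (x ∈ arcF0 n l ∪ arcF n m k ∨ ∃ e ∈ DE p S k l m, ∃ z, StF p S e x z ∨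
        StF p S e z x) → (∃ f ∈ S, x = Sum.inl f) ∨ ((∃ i, x = Sum.inr i) ∧
          x ∈ arcF0 n l ∪ arcF n m k) := by
      intro x hx
      rcases hx with hx | ⟨e, he, z, hx⟩
      · rcases hx with hx | hx
        · exact Or.inr ⟨⟨_, hx.choose_spec.2⟩, Or.inl hx⟩
        · exact Or.inr ⟨⟨_, hx.choose_spec.2.2⟩, Or.inr hx⟩
      · have hx' : StF p S e x z := by
          rcases hx with hx | hx
          · exact hx
          · exact (isSt_F hp hS).symm _ _ _ hx
        rcases hx' with ⟨v, r, rfl, h1, h2, rfl, rfl⟩ | ⟨i, rfl, rfl, rfl⟩ | ⟨i, rfl, rfl, rfl⟩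
        · exact Or.inl ⟨_, h1, rfl⟩
        · exact Or.inl ⟨_, fi_mem hp hS i, rfl⟩
        · right
          refine ⟨⟨i, rfl⟩, ?_⟩
          have hi := (mem_DE.1 he).2
          obtain ⟨t, ht, rfl⟩ : ∃ t : ℕ, t < n ∧ (t : ZMod n) = i :=
            ⟨i.val, ZMod.val_lt i, ZMod.natCast_zmod_val i⟩
          have h1 : ¬ ((k ≤ t ∧ t + 1 < n) ∨ (l ≤ t ∧ t < m)) := fun hc => hi ⟨t, hc, rfl⟩
          by_cases h2 : m ≤ t ∧ t < k
          · exact Or.inr ⟨t, h2.1, h2.2, rfl⟩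
          · left
            by_cases h3 : t = n - 1
            · refine ⟨0, Nat.zero_le _, ?_⟩
              rw [h3, Nat.cast_sub (by omega)]
              simp
            · refine ⟨t + 1, by omega, ?_⟩
              push_cast
              rw [add_sub_cancel_right]
    intro x y hx hy hxy
    rcases key x hx with ⟨f, hf, rfl⟩ | ⟨⟨i, rfl⟩, hi⟩
    · rcases key y hy with ⟨g, hg, rfl⟩ | ⟨⟨j, rfl⟩, hj⟩
      · left
        rw [dm_inl, dm_inl, Sum.inl.injEq] at hxy
        rw [hxy]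
      · exfalso
        by_cases h : fo' p j ∈ T
        · rw [dm_inl, dm_in h] at hxy
          rw [Sum.inl.injEq] at hxy
          exact fo_not_mem hp hS j (hxy ▸ hf)
        · obtain ⟨j', h1, -, -⟩ := dm_out hp hS hq hT hST h
          rw [dm_inl, h1] at hxy
          exact Sum.inl_ne_inr hxy
    · rcases key y hy with ⟨g, hg, rfl⟩ | ⟨⟨j, rfl⟩, hj⟩
      · exfalso
        by_cases h : fo' p i ∈ T
        · rw [dm_inl, dm_in h] at hxy
          rw [Sum.inl.injEq] at hxy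
          exact fo_not_mem hp hS i (hxy.symm ▸ hg)
        · obtain ⟨j', h1, -, -⟩ := dm_out hp hS hq hT hST h
          rw [dm_inl, h1] at hxy
          exact Sum.inl_ne_inr hxy.symm
      · right
        rcases hi with hi | hi <;> rcases hj with hj | hj
        · exact Or.inl ⟨hi, hj⟩
        · exact absurd hxy (hsep _ hi _ hj)
        · exact absurd hxy.symm (hsep _ hj _ hi)
        · exact Or.inr ⟨hi, hj⟩

/-- **The quad of a polygon `p` inside of a polygon `q`, with the dual sites of `q`.** -/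
theorem isQuad_sub (hp : IsPolygon p) (hS : Encloses p S) (hq : IsPolygon q) (hT : Encloses q T)
    (hST : S ⊆ T) (hlm : l ≤ m) (hmk : m < k) (hkn : k < n)
    (hsep : ∀ x ∈ arcF0 n l, ∀ y ∈ arcF n m k, dm p q T x ≠ dm p q T y) :
    IsQuad StE (StF q T) (DE p S k l m) (arcV p k (n - 1)) (arcV p l m)
      (dm p q T '' arcF0 n l) (dm p q T '' arcF n m k) :=
  (isQuad_poly hp hS hlm hmk hkn).map (dm_dmap hp hS hq hT hST hkn hsep)

end sub

/-! ### Rotation -/

section rot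

variable {n : ℕ} {p : ZMod n → ℤ × ℤ} {S : Finset (ℤ × ℤ)}

theorem isPolygon_rot (hp : IsPolygon p) (c : ZMod n) : IsPolygon fun i => p (i + c) := by
  refine ⟨hp.1, fun i j h => add_right_cancel (hp.2.1 h), fun i => ?_⟩
  obtain ⟨r, hr⟩ := hp.2.2 (i + c)
  refine ⟨r, ?_⟩
  simp only
  rw [← hr]
  congr 1
  ring

theorem encloses_rot (hS : Encloses p S) (c : ZMod n) : Encloses (fun i => p (i + c)) S := by
  intro v r
  rw [← hS v r]
  constructor
  · rintro ⟨i, h1, h2⟩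
    refine ⟨i + c, h1, ?_⟩
    rw [← h2]
    simp only
    congr 1
    ring
  · rintro ⟨i, h1, h2⟩
    refine ⟨i - c, by simp only [sub_add_cancel]; exact h1, ?_⟩
    rw [← h2]
    simp only
    congr 1
    ring

/-- The crossing event of `E6` for the arcs `k, …, n - 1` and `l, …, m`. -/
theorem crossed_iff {k l m : ℕ} {A : Finset (Sym2 (ℤ × ℤ))} (hA : A ⊆ edges S) :
    Crossed p A k (n - 1) l m ↔ Cr StE (↑A ∩ ↑(DE p S k l m)) (arcV p k (n - 1))
      (arcV p l m) := by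
  classical
  constructor
  · rintro ⟨a, b, h1, h2, h3, h4, ⟨w⟩⟩
    have key : ∀ (u v : ℤ × ℤ) (w : (SimpleGraph.fromEdgeSet (A : Set (Sym2 (ℤ × ℤ)))).Walk u v),
        u ∈ arcV p k (n - 1) → Cr StE (↑A ∩ ↑(DE p S k l m)) (arcV p k (n - 1)) (arcV p l m) ∨
          ∃ a ∈ arcV p k (n - 1), Cn StE (↑A ∩ ↑(DE p S k l m)) a v := by
      intro u v w hu
      induction w using SimpleGraph.Walk.concatRec with
      | Hnil => exact Or.inr ⟨_, hu, Cn.refl _ _⟩
      | @Hconcat u b c w hbc ih =>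
        rcases ih hu with ih | ⟨a, ha, hab⟩
        · exact Or.inl ih
        · rw [SimpleGraph.fromEdgeSet_adj] at hbc
          obtain ⟨hA', hne⟩ := hbc
          have hE := hA hA'
          have hst : StE s(b, c) b c := by
            refine ⟨rfl, ?_⟩
            have hE' := hE
            unfold edges at hE'
            simp only [Finset.mem_biUnion, Finset.mem_insert, Finset.mem_singleton] at hE'
            obtain ⟨f, -, h⟩ := hE'
            have hd : ∃ v r, s(b, c) = s(v, v + dir r) := by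
              rcases h with h | h | h | h
              · exact ⟨f, 0, h⟩
              · exact ⟨f, 1, h⟩
              · refine ⟨f + (1, 0), 1, ?_⟩
                rw [h, dir1, add_assoc]; rfl
              · refine ⟨f + (0, 1), 0, ?_⟩
                rw [h, dir0, add_assoc]; rfl
            obtain ⟨v, r, he⟩ := hd
            rcases Sym2.eq_iff.1 he with ⟨rfl, rfl⟩ | ⟨rfl, rfl⟩
            · exact ⟨r, rfl⟩
            · exact ⟨r + 2, (dir_add_two' r _).symm⟩
          by_cases hD : s(b, c) ∈ DE p S k l m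
          · exact Or.inr ⟨a, ha, hab.tail ⟨_, ⟨hA', hD⟩, hst⟩⟩
          · rw [mem_DE] at hD
            push Not at hD
            obtain ⟨i, hi, he⟩ := hD hE
            rw [pe, arc_step (p := p)] at he
            rcases hi with ⟨h5, h6⟩ | ⟨h5, h6⟩
            · right
              refine ⟨c, ?_, Cn.refl _ _⟩
              rcases Sym2.eq_iff.1 he with ⟨-, rfl⟩ | ⟨-, rfl⟩
              · exact ⟨i + 1, by omega, by omega, rfl⟩
              · exact ⟨i, by omega, by omega, rfl⟩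
            · left
              refine ⟨a, ha, b, ?_, hab⟩
              rcases Sym2.eq_iff.1 he with ⟨rfl, -⟩ | ⟨rfl, -⟩
              · exact ⟨i, by omega, by omega, rfl⟩
              · exact ⟨i + 1, by omega, by omega, rfl⟩
    rcases key _ _ w ⟨a, h1, h2, rfl⟩ with h | ⟨a', ha', h⟩
    · exact h
    · exact ⟨a', ha', _, ⟨b, h3, h4, rfl⟩, h⟩
  · rintro ⟨_, ⟨a, h1, h2, rfl⟩, _, ⟨b, h3, h4, rfl⟩, h⟩
    refine ⟨a, b, h1, h2, h3, h4, ?_⟩
    have key : ∀ v, Cn StE (↑A ∩ ↑(DE p S k l m)) (p a) v →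
        (SimpleGraph.fromEdgeSet (A : Set (Sym2 (ℤ × ℤ)))).Reachable (p a) v := by
      intro v h
      induction h with
      | refl => exact SimpleGraph.Reachable.refl _
      | @tail b c _ hbc ih =>
        obtain ⟨e, he, rfl, r, rfl⟩ := hbc
        refine ih.trans (SimpleGraph.Adj.reachable ?_)
        rw [SimpleGraph.fromEdgeSet_adj]
        exact ⟨he.1, (add_dir_ne _ _).symm⟩
    exact key _ h

theorem crossed_rot {a b c : ℕ} (hab : a < b) (hbc : b ≤ c) (hcn : c < n) {A : Finset (Sym2 (ℤ × ℤ))} :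
    Crossed p A 0 a b c ↔ Crossed (fun i => p (i + ((a + 1 : ℕ) : ZMod n))) A (n - 1 - a) (n - 1)
      (b - a - 1) (c - a - 1) := by
  have hn : ((n : ℕ) : ZMod n) = 0 := ZMod.natCast_self n
  constructor
  · rintro ⟨i, j, h1, h2, h3, h4, h⟩
    refine ⟨n + i - (a + 1), j - (a + 1), by omega, by omega, by omega, by omega, ?_⟩
    simp only
    rw [← Nat.cast_add, ← Nat.cast_add, Nat.sub_add_cancel (by omega),
      Nat.sub_add_cancel (by omega), Nat.cast_add n i, hn, zero_add]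
    exact h
  · rintro ⟨i, j, h1, h2, h3, h4, h⟩
    refine ⟨i + (a + 1) - n, j + (a + 1), by omega, by omega, by omega, by omega, ?_⟩
    simp only at h
    rw [← Nat.cast_add, ← Nat.cast_add] at h
    have e : ((i + (a + 1) - n : ℕ) : ZMod n) = ((i + (a + 1) : ℕ) : ZMod n) := by
      rw [Nat.cast_sub (by omega), hn, sub_zero]
    rw [e]
    exact h

/-- The crossing event between the arcs `0, …, a` and `b, …, c` (as in `E6.Cardy`) is the crossing
event of a quad. -/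
theorem crossed0_iff {a b c : ℕ} (hab : a < b) (hbc : b ≤ c) (hcn : c < n) {A : Finset (Sym2 (ℤ × ℤ))}
    (hA : A ⊆ edges S) : Crossed p A 0 a b c ↔
      Cr StE (↑A ∩ ↑(DE (fun i => p (i + ((a + 1 : ℕ) : ZMod n))) S (n - 1 - a) (b - a - 1)
        (c - a - 1))) (arcV (fun i => p (i + ((a + 1 : ℕ) : ZMod n))) (n - 1 - a) (n - 1))
        (arcV (fun i => p (i + ((a + 1 : ℕ) : ZMod n))) (b - a - 1) (c - a - 1)) := by
  rw [crossed_rot hab hbc hcn, crossed_iff hA]

theorem isQuad_rot (hp : IsPolygon p) (hS : Encloses p S) {a b c : ℕ} (hab : a < b) (hbc : b ≤ c)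
    (hcn : c < n) :
    IsQuad StE (StF (fun i => p (i + ((a + 1 : ℕ) : ZMod n))) S)
      (DE (fun i => p (i + ((a + 1 : ℕ) : ZMod n))) S (n - 1 - a) (b - a - 1) (c - a - 1))
      (arcV (fun i => p (i + ((a + 1 : ℕ) : ZMod n))) (n - 1 - a) (n - 1))
      (arcV (fun i => p (i + ((a + 1 : ℕ) : ZMod n))) (b - a - 1) (c - a - 1))
      (arcF0 n (b - a - 1)) (arcF n (c - a - 1) (n - 1 - a)) :=
  isQuad_poly (isPolygon_rot hp _) (encloses_rot hS _) (by omega) (by omega) (by omega)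

end rot

end Vale.Agent.P167.H531
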