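import Vale.Agent.P167.H531.Med

/-!
# P167, block E4: polygons of the medial grid, exclusion
-/

set_option linter.unusedSectionVars false

namespace Vale.Agent.P167.H531

open Vale.Agent.P167.E6 Vale.Agent.P167.E2

/-- The odd corner of the square `v` through which we pass. -/
def kc (v : ℤ × ℤ) : ℤ × ℤ := if (v.1 + v.2) % 2 = 0 then v + (1, 0) else v

/-- The direction of the first side of `v` at `kc v`. -/
def kr (v : ℤ × ℤ) : Fin 4 := if (v.1 + v.2) % 2 = 0 then 1 else 0

theorem face_kc (v : ℤ × ℤ) : face (kc v) (kr v) = v := by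
  unfold kc kr
  split_ifs
  · rw [face1]; apply Prod.ext <;> simp
  · rw [face0]

theorem par_kc (v : ℤ × ℤ) : ((kc v).1 + (kc v).2) % 2 = 1 := by
  unfold kc
  split_ifs with h
  · simp only [Prod.fst_add, Prod.snd_add]
    omega
  · omega

theorem par_dir (o : ℤ × ℤ) (r : Fin 4) : ((o + dir r).1 + (o + dir r).2) % 2 = (o.1 + o.2 + 1) % 2 := by
  revert r
  refine forall4 ?_ ?_ ?_ ?_ <;>
    simp only [dir0, dir1, dir2, dir3, Prod.fst_add, Prod.snd_add] <;> omega

theorem face_inj {v : ℤ × ℤ} {r r' : Fin 4} (h : face v r = face v r') : r = r' := by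
  have key : ∀ r r' : Fin 4, face v r = face v r' → r = r' := by
    refine forall4 ?_ ?_ ?_ ?_ <;> refine forall4 ?_ ?_ ?_ ?_ <;> intro h <;>
      first
        | rfl
        | (exfalso; simp only [face0, face1, face2, face3, Prod.ext_iff] at h; omega)
  exact key r r' h

/-- The two medial edges through `kc v`. -/
def rv (v : ℤ × ℤ) (e : Sym2 (ℤ × ℤ)) : ZMod 2 :=
  sg s(kc v, kc v + dir (kr v)) e + sg s(kc v, kc v + dir (kr v + 1)) e

theorem bd_rv {v x y : ℤ × ℤ} (h : StM 0 v x y) (w : ℤ × ℤ) : bd (rv v) w = iv x w + iv y w := by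
  have h1 : bd (rv v) w = iv (kc v + dir (kr v)) w + iv (kc v + dir (kr v + 1)) w := by
    have : rv v = fun e => sg s(kc v, kc v + dir (kr v)) e +
        sg s(kc v, kc v + dir (kr v + 1)) e := rfl
    rw [this, bd_add, bd_sg, bd_sg]
    have : iv (kc v) w + iv (kc v + dir (kr v)) w +
        (iv (kc v) w + iv (kc v + dir (kr v + 1)) w) =
        iv (kc v + dir (kr v)) w + iv (kc v + dir (kr v + 1)) w + (iv (kc v) w + iv (kc v) w) := by
      ring
    rw [this, two_eq, add_zero]
  obtain ⟨hv, hx, hy, hp⟩ := h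
  rw [Prod.ext_iff] at hv
  simp only at hv
  have h2 : (kc v + dir (kr v) = x ∧ kc v + dir (kr v + 1) = y) ∨
      (kc v + dir (kr v) = y ∧ kc v + dir (kr v + 1) = x) := by
    unfold kc kr
    split_ifs with h0
    · have e2 : (1 : Fin 4) + 1 = 2 := rfl
      rw [e2, dir1, dir2]
      simp only [Prod.ext_iff, Prod.fst_add, Prod.snd_add]
      omega
    · have e2 : (0 : Fin 4) + 1 = 1 := rfl
      rw [e2, dir1, dir0]
      simp only [Prod.ext_iff, Prod.fst_add, Prod.snd_add]
      omega
  rw [h1]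
  rcases h2 with ⟨h3, h4⟩ | ⟨h3, h4⟩
  · rw [h3, h4]
  · rw [h3, h4, add_comm]

/-- The value `N v` if we pass through `v` at `o`. -/
def nk (N : ℤ × ℤ → ZMod 2) (o v : ℤ × ℤ) : ZMod 2 := if kc v = o then N v else 0

theorem rv_eq {o : ℤ × ℤ} (ho : (o.1 + o.2) % 2 = 1) (v : ℤ × ℤ) (r : Fin 4) :
    rv v s(o, o + dir r) = (if kc v = o ∧ face o r = v then 1 else 0) +
      (if kc v = o ∧ face o (r - 1) = v then 1 else 0) := by
  have hsg : ∀ ρ : Fin 4, sg s(kc v, kc v + dir ρ) s(o, o + dir r) =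
      if kc v = o ∧ r = ρ then 1 else 0 := by
    intro ρ
    unfold sg
    have : s(o, o + dir r) = s(kc v, kc v + dir ρ) ↔ kc v = o ∧ r = ρ := by
      rw [edge_eq_iff]
      constructor
      · rintro (⟨h1, h2⟩ | ⟨h1, -⟩)
        · exact ⟨h1.symm, h2⟩
        · exfalso
          have h3 := par_dir (kc v) ρ
          rw [← h1] at h3
          have h4 := par_kc v
          omega
      · rintro ⟨h1, h2⟩
        exact Or.inl ⟨h1.symm, h2⟩
    simp only [this]
  unfold rv
  rw [hsg, hsg]
  by_cases hk : kc v = o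
  · subst hk
    have e1 : face (kc v) r = v ↔ r = kr v := by
      constructor
      · intro h
        exact face_inj (h.trans (face_kc v).symm)
      · rintro rfl
        exact face_kc v
    have e2 : face (kc v) (r - 1) = v ↔ r = kr v + 1 := by
      constructor
      · intro h
        have := face_inj (h.trans (face_kc v).symm)
        rw [← this, sub_add_cancel]
      · rintro rfl
        rw [add_sub_cancel_right]
        exact face_kc v
    simp only [e1, e2, true_and]
  · simp only [hk, false_and, if_false]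

theorem nk_add (N : ℤ × ℤ → ZMod 2) (o v w : ℤ × ℤ) :
    nk (fun v' => N v' + if v' = v then 1 else 0) o w =
      nk N o w + if kc v = o ∧ w = v then 1 else 0 := by
  unfold nk
  by_cases hw : w = v
  · subst hw
    by_cases hk : kc w = o
    · simp [hk]
    · simp [hk]
  · by_cases hk : kc w = o
    · simp [hk, hw]
    · simp [hk, hw]

/-- A primal path gives a chain of medial edges. -/
theorem chain2 {G : Set (ℤ × ℤ)} {x y : ℤ × ℤ} (h : Cn (StM 0) G x y) :
    ∃ (z : Sym2 (ℤ × ℤ) → ZMod 2) (N : ℤ × ℤ → ZMod 2), (∀ v, N v ≠ 0 → v ∈ G) ∧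
      (∀ e, z e ≠ 0 → ∃ v ∈ G, e = s(kc v, kc v + dir (kr v)) ∨
        e = s(kc v, kc v + dir (kr v + 1))) ∧
      (∀ w, bd z w = iv x w + iv y w) ∧
      ∀ (o : ℤ × ℤ) (r : Fin 4), (o.1 + o.2) % 2 = 1 →
        z s(o, o + dir r) = nk N o (face o r) + nk N o (face o (r - 1)) := by
  induction h with
  | refl =>
    refine ⟨fun _ => 0, fun _ => 0, fun _ h => absurd rfl h, fun _ h => absurd rfl h, ?_, ?_⟩
    · intro w
      rw [bd_zero, two_eq]
    · intro o r _
      simp [nk]
  | @tail b c _ hbc ih =>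
    obtain ⟨z, N, h1, h2, h3, h4⟩ := ih
    obtain ⟨v, hv, hs⟩ := hbc
    refine ⟨fun e => z e + rv v e, fun v' => N v' + if v' = v then 1 else 0, ?_, ?_, ?_, ?_⟩
    · intro v' hv'
      by_cases e : v' = v
      · rw [e]; exact hv
      · refine h1 v' ?_
        simpa [e] using hv'
    · intro e he
      by_cases h5 : z e = 0
      · simp only [h5, zero_add] at he
        refine ⟨v, hv, ?_⟩
        by_contra hcon
        push Not at hcon
        apply he
        unfold rv sg
        rw [if_neg hcon.1, if_neg hcon.2, add_zero]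
      · exact h2 e h5
    · intro w
      rw [bd_add, h3, bd_rv hs]
      have : iv x w + iv b w + (iv b w + iv c w) = iv x w + iv c w + (iv b w + iv b w) := by ring
      rw [this, two_eq, add_zero]
    · intro o r ho
      simp only
      rw [h4 o r ho, rv_eq ho, nk_add, nk_add]
      ring

variable {n : ℕ} {q : ZMod n → ℤ × ℤ} {D : Finset (ℤ × ℤ)}

/-- A function around a site which only jumps at the boundary of `D` is constant on the squares of
`D`. -/
theorem around_const (hq : IsPolygon q) (hD : Encloses q D) {o : ℤ × ℤ} {g : Fin 4 → ZMod 2}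
    (hg : ∀ r, face o r ∈ D → face o (r - 1) ∈ D → g r = g (r - 1)) {r r' : Fin 4}
    (hr : face o r ∈ D) (hr' : face o r' ∈ D) : g r = g r' := by
  have hU : ∀ r1 r2 : Fin 4, face o r1 ∈ D → face o (r1 - 1) ∉ D → face o r2 ∈ D →
      face o (r2 - 1) ∉ D → r1 = r2 := by
    intro r1 r2 h1 h2 h3 h4
    obtain ⟨i, h5, h6⟩ := (hD o r1).2 ⟨h1, h2⟩
    obtain ⟨j, h7, h8⟩ := (hD o r2).2 ⟨h3, h4⟩
    have h9 : i = j := hq.2.1 (h5.trans h7.symm)
    rw [h9, h8] at h6
    exact (add_dir_inj h6).symm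
  have key : ∀ r : Fin 4, face o r ∈ D → (∀ r', face o r' ∈ D) ∨
      ∃ r0, face o r0 ∈ D ∧ face o (r0 - 1) ∉ D ∧ g r = g r0 := by
    intro r hr
    by_cases h1 : face o (r - 1) ∈ D
    · by_cases h2 : face o (r - 1 - 1) ∈ D
      · by_cases h3 : face o (r - 1 - 1 - 1) ∈ D
        · left
          intro r'
          have h4 : ∀ r r' : Fin 4, r' = r ∨ r' = r - 1 ∨ r' = r - 1 - 1 ∨
              r' = r - 1 - 1 - 1 := by decide
          rcases h4 r r' with rfl | rfl | rfl | rfl
          exacts [hr, h1, h2, h3]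
        · exact Or.inr ⟨r - 1 - 1, h2, h3, (hg r hr h1).trans (hg _ h1 h2)⟩
      · exact Or.inr ⟨r - 1, h1, h2, hg r hr h1⟩
    · exact Or.inr ⟨r, hr, h1, rfl⟩
  rcases key r hr with hall | ⟨r0, h1, h2, h3⟩
  · have h4 : ∀ r r' : Fin 4, r' = r ∨ r' = r - 1 ∨ r' = r - 1 - 1 ∨
        r' = r - 1 - 1 - 1 := by decide
    have e1 := hg r (hall _) (hall _)
    have e2 := hg (r - 1) (hall _) (hall _)
    have e3 := hg (r - 1 - 1) (hall _) (hall _)
    rcases h4 r r' with rfl | rfl | rfl | rfl
    exacts [rfl, e1, e1.trans e2, (e1.trans e2).trans e3]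
  · rcases key r' hr' with hall | ⟨r0', h1', h2', h3'⟩
    · exact absurd (hall _) h2
    · rw [h3, h3', hU r0 r0' h1 h2 h1' h2']

/-- **Exclusion for a polygon of the medial grid.** -/
theorem med_excl (hq : IsPolygon q) (hD : Encloses q D) {a b c : ℕ} (hab : a ≤ b)
    (hcn : c ≤ n) {F : Set (ℤ × ℤ)}
    (h1 : Cr (StM 0) (F ∩ ↑D) (arcM q 0 0 a) (arcM q 0 b c))
    (h2 : Cr (StM 1) (Fᶜ ∩ ↑D) (arcM q 1 a b) (arcM q 1 c n)) : False := by
  classical
  have hn : NeZero n := ⟨by have := hq.1; omega⟩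
  obtain ⟨_, ⟨i, -, hia, rfl, pi⟩, _, ⟨j, hbj, hjc, rfl, pj⟩, hcn1⟩ := h1
  obtain ⟨z0, N, hN, hz0, hb0, hzN⟩ := chain2 hcn1
  set z : Sym2 (ℤ × ℤ) → ZMod 2 := fun e => z0 e + zarc q i j e with hz
  have hsupp0 : ∀ e, e ∉ edges D → z0 e = 0 := by
    intro e he
    by_contra hc
    obtain ⟨v, hv, h | h⟩ := hz0 e hc
    · apply he
      rw [h, mem_edges]
      left
      rw [face_kc]
      exact hv.2
    · apply he
      rw [h, mem_edges]
      right
      rw [add_sub_cancel_right, face_kc]
      exact hv.2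
  have hsupp : ∀ e, e ∉ edges D → z e = 0 := by
    intro e he
    have h2 : zarc q i j e = 0 := by
      by_contra hc
      obtain ⟨t, -, -, rfl⟩ := zarc_ne hc
      exact he (pe_mem hq hD _)
    show z0 e + zarc q i j e = 0
    rw [hsupp0 e he, h2, add_zero]
  have hbd : ∀ w, bd z w = 0 := by
    intro w
    rw [hz, bd_add, hb0, bd_zarc hq (by omega)]
    have : iv (q i) w + iv (q j) w + (iv (q i) w + iv (q j) w) =
        (iv (q i) w + iv (q i) w) + (iv (q j) w + iv (q j) w) := by ring
    rw [this, two_eq, two_eq, add_zero]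
  obtain ⟨M, hM⟩ : ∃ M : ℤ, ∀ f ∈ D, f.1 < M := by
    obtain ⟨M, hM⟩ := (D.image Prod.fst).exists_le
    exact ⟨M + 1, fun f hf => Int.lt_add_one_of_le (hM f.1 (Finset.mem_image_of_mem _ hf))⟩
  have hfar : ∀ (v : ℤ × ℤ) (r : Fin 4), M < v.1 → z s(v, v + dir r) = 0 := by
    intro v r hv
    apply hsupp
    rw [mem_edges]
    have hx : ∀ r : Fin 4, face v r ∉ D := by
      refine forall4 ?_ ?_ ?_ ?_ <;> intro h <;> have := hM _ h
      · rw [face0] at this; simp only at this; omega
      · rw [face1] at this; simp only at this; omega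
      · rw [face2] at this; simp only at this; omega
      · rw [face3] at this; simp only at this; omega
    rintro (h | h)
    · exact hx _ h
    · exact hx _ h
  have hjump := pot_jump hfar hbd
  set h : ℤ × ℤ → ZMod 2 := pot M z with hh
  have hconst : ∀ i' : ZMod n, h (fo' q i') = h (fo' q 0) := by
    intro i'
    refine ext_const hq hD ?_ i' 0
    intro v r he
    have h3 := hjump v r
    rw [hsupp _ he] at h3
    exact CharTwo.add_eq_zero.1 h3
  -- the function around odd sites
  let g : ℤ × ℤ → Fin 4 → ZMod 2 := fun o r => h (face o r) + nk N o (face o r)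
  have gstep : ∀ (o : ℤ × ℤ) (r : Fin 4), (o.1 + o.2) % 2 = 1 →
      g o r + g o (r - 1) = zarc q i j s(o, o + dir r) := by
    intro o r ho
    have h3 := hjump o r
    have h4 := hzN o r ho
    show h (face o r) + nk N o (face o r) + (h (face o (r - 1)) + nk N o (face o (r - 1))) = _
    have h5 : h (face o r) + nk N o (face o r) + (h (face o (r - 1)) + nk N o (face o (r - 1))) =
        (h (face o r) + h (face o (r - 1))) + (nk N o (face o r) + nk N o (face o (r - 1))) := by
      ring
    rw [h5, h3, ← h4]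
    show z0 _ + zarc q i j _ + z0 _ = _
    have h6 : z0 s(o, o + dir r) + zarc q i j s(o, o + dir r) + z0 s(o, o + dir r) =
        zarc q i j s(o, o + dir r) + (z0 s(o, o + dir r) + z0 s(o, o + dir r)) := by ring
    rw [h6, two_eq, add_zero]
  have gconst : ∀ (o : ℤ × ℤ) (r r' : Fin 4), (o.1 + o.2) % 2 = 1 → face o r ∈ D →
      face o r' ∈ D → g o r = g o r' := by
    intro o r r' ho hr hr'
    refine around_const hq hD (fun r hr hr1 => ?_) hr hr'
    have h3 := gstep o r ho
    have h4 : zarc q i j s(o, o + dir r) = 0 := by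
      by_contra hc
      obtain ⟨t, -, -, ht⟩ := zarc_ne hc
      exact inner_ne_pe hq hD hr hr1 _ ht
    rw [h4] at h3
    exact CharTwo.add_eq_zero.1 h3
  have hNout : ∀ v, v ∉ D → N v = 0 := by
    intro v hv
    by_contra hc
    exact hv (hN v hc).2
  have gbd : ∀ s : ℕ, ((q (s : ZMod n)).1 + (q (s : ZMod n)).2) % 2 = 1 →
      g (q (s : ZMod n)) (ro q s) = h (fo' q 0) + zarc q i j (pe q (s : ZMod n)) := by
    intro s hs
    have h3 := gstep (q (s : ZMod n)) (ro q s) hs
    rw [← pe_eq hq] at h3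
    have h4 : g (q (s : ZMod n)) (ro q s - 1) = h (fo' q 0) := by
      show h (fo' q s) + nk N _ (fo' q s) = _
      have : nk N (q (s : ZMod n)) (fo' q s) = 0 := by
        unfold nk
        rw [hNout _ (fo_not_mem hq hD _)]
        simp
      rw [this, add_zero, hconst]
    rw [h4] at h3
    rw [← h3]
    have : h (fo' q 0) + (g (q (s : ZMod n)) (ro q s) + h (fo' q 0)) =
        g (q (s : ZMod n)) (ro q s) + (h (fo' q 0) + h (fo' q 0)) := by ring
    rw [this, two_eq, add_zero]
  obtain ⟨_, ⟨s, has, hsb, rfl, ps⟩, _, ⟨t, hct, htn, rfl, pt⟩, hcn2⟩ := h2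
  -- start
  have hsi : s ≠ i := by
    rintro rfl
    omega
  have hsj : s ≠ j := by
    rintro rfl
    omega
  have hS : g (q (s : ZMod n)) (ro q s) = h (fo' q 0) + 1 := by
    rw [gbd s ps, zarc_pe hq (by omega) (by omega), if_pos ⟨by omega, by omega⟩]
  -- along the dual path
  have hall : ∀ y, Cn (StM 1) (Fᶜ ∩ ↑D) (q (s : ZMod n)) y → (y.1 + y.2) % 2 = 1 ∧
      ∀ r, face y r ∈ D → g y r = h (fo' q 0) + 1 := by
    intro y hy
    induction hy with
    | refl =>
      exact ⟨ps, fun r hr => (gconst _ _ _ ps hr (enc_out hq hD).1).trans hS⟩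
    | @tail x y _ hxy ih =>
      obtain ⟨px, ihx⟩ := ih
      obtain ⟨v, ⟨hvF, hvD⟩, hst⟩ := hxy
      have py : (y.1 + y.2) % 2 = 1 := ((isSt_M 1).symm _ _ _ hst).2.2.2
      refine ⟨py, fun r hr => ?_⟩
      -- the square `v` is at `x` and at `y`
      have hcorner : ∀ x y : ℤ × ℤ, StM 1 v x y → ∃ r, face x r = v := by
        rintro x y ⟨hv, hx, hy, -⟩
        rw [Prod.ext_iff] at hv
        simp only at hv
        rcases hx with hx | hx <;> rcases hy with hy | hy
        · exact ⟨0, by rw [face0, Prod.ext_iff]; simp only; omega⟩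
        · exact ⟨3, by rw [face3, Prod.ext_iff]; simp only; omega⟩
        · exact ⟨1, by rw [face1, Prod.ext_iff]; simp only; omega⟩
        · exact ⟨2, by rw [face2, Prod.ext_iff]; simp only; omega⟩
      obtain ⟨r1, hr1⟩ := hcorner x y hst
      obtain ⟨r2, hr2⟩ := hcorner y x ((isSt_M 1).symm _ _ _ hst)
      have hNv : N v = 0 := by
        by_contra hc
        exact hvF (hN v hc).1
      have h3 := ihx r1 (hr1 ▸ hvD)
      have h4 : g x r1 = h v := by
        show h (face x r1) + nk N x (face x r1) = _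
        rw [hr1]
        unfold nk
        rw [hNv]
        simp
      have h5 : g y r2 = h v := by
        show h (face y r2) + nk N y (face y r2) = _
        rw [hr2]
        unfold nk
        rw [hNv]
        simp
      rw [gconst y r r2 py hr (hr2 ▸ hvD), h5, ← h4, h3]
  have hT := (hall _ hcn2).2 (ro q t) (enc_out hq hD).1
  have hT' : g (q (t : ZMod n)) (ro q t) = h (fo' q 0) := by
    rw [gbd t pt]
    rcases Nat.lt_or_ge t n with htn' | htn'
    · rw [zarc_pe hq (by omega) htn', if_neg (by omega), add_zero]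
    · have htn2 : t = n := le_antisymm htn htn'
      have hq0 : (t : ZMod n) = ((0 : ℕ) : ZMod n) := by rw [htn2]; simp
      rw [hq0, zarc_pe hq (by omega) (by omega), if_neg, add_zero]
      rintro ⟨h5, -⟩
      have hi0 : i = 0 := by omega
      rw [hq0] at pt
      rw [hi0] at pi
      omega
  rw [hT'] at hT
  have h01 : (1 : ZMod 2) ≠ 0 := by decide
  exact h01 (by simpa using hT.symm)

/-- **A polygon of the medial grid with four arcs is a quad.** -/
theorem isQuad_med (hq : IsPolygon q) (hD : Encloses q D) {a b c : ℕ} (hab : a ≤ b) (hbc : b ≤ c)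
    (hcn : c ≤ n) : IsQuad (StM 0) (StM 1) D (arcM q 0 0 a) (arcM q 0 b c) (arcM q 1 a b)
      (arcM q 1 c n) where
  dich F := med_dich hq hD hab hbc hcn F
  excl _ h1 h2 := med_excl hq hD hab hcn h1 h2

end Vale.Agent.P167.H531
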