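import Vale.Agent.P167.H531.Poly

/-!
# P167, block E4: a lattice polygon with four arcs is a quad (dichotomy)
-/

set_option linter.unusedSectionVars false

namespace Vale.Agent.P167.H531

open Vale.Agent.P167.E6 Vale.Agent.P167.E2

variable {n : ℕ} {p : ZMod n → ℤ × ℤ} {S : Finset (ℤ × ℤ)} {k l m : ℕ}

open Classical in
/-- The open edges of the quad as a finite set. -/
noncomputable def AF (p : ZMod n → ℤ × ℤ) (S : Finset (ℤ × ℤ)) (k l m : ℕ)
    (F : Set (Sym2 (ℤ × ℤ))) : Finset (Sym2 (ℤ × ℤ)) := (DE p S k l m).filter fun e => e ∈ F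

theorem mem_AF {F : Set (Sym2 (ℤ × ℤ))} {e : Sym2 (ℤ × ℤ)} :
    e ∈ AF p S k l m F ↔ e ∈ F ∩ ↑(DE p S k l m) := by
  classical
  rw [AF, Finset.mem_filter]
  exact and_comm

theorem AF_sub {F : Set (Sym2 (ℤ × ℤ))} : AF p S k l m F ⊆ edges S := fun _ he =>
  (mem_DE.1 (mem_AF.1 he).2).1

theorem arc_step (i : ℕ) : p ((i : ZMod n) + 1) = p ((i + 1 : ℕ) : ZMod n) := by push_cast; rfl

/-- The left vertices of the interface are joined to the wired arc. -/
theorem left_cn (hkn : k < n) {F : Set (Sym2 (ℤ × ℤ))} (j : ℕ) :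
    ∃ a ∈ arcV p k (n - 1), Cn StE (F ∩ ↑(DE p S k l m)) a
      (run p k (AF p S k l m F) j).1 := by
  have hn : NeZero n := ⟨by omega⟩
  induction j with
  | zero =>
    refine ⟨p (-1), ⟨n - 1, by omega, le_rfl, ?_⟩, Cn.refl _ _⟩
    rw [Nat.cast_sub (by omega)]
    simp
  | succ j ih =>
    rw [run_succ]
    by_cases h : ahead (run p k (AF p S k l m F) j) ∈ wiredOpen p k (AF p S k l m F)
    · rw [next_open h]
      rcases h with h | ⟨i, hki, hin, hi⟩
      · obtain ⟨a, ha, hc⟩ := ih
        exact ⟨a, ha, hc.tail ⟨_, mem_AF.1 h, rfl, _, rfl⟩⟩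
      · refine ⟨_, ?_, Cn.refl _ _⟩
        rw [ahead, Sym2.eq_iff] at hi
        rcases hi with ⟨-, h2⟩ | ⟨-, h2⟩
        · exact ⟨i + 1, by omega, by omega, by rw [← arc_step (p := p)]; exact h2⟩
        · exact ⟨i, by omega, by omega, h2⟩
    · rw [next_closed h]
      exact ih

section

variable (hp : IsPolygon p) (hS : Encloses p S)
include hp hS

theorem pe_mem_DE (hmn : m ≤ n) {t : ℕ} (ht : t < n)
    (h : ¬ ((k ≤ t ∧ t + 1 < n) ∨ (l ≤ t ∧ t < m))) : pe p (t : ZMod n) ∈ DE p S k l m := by
  rw [mem_DE]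
  refine ⟨pe_mem hp hS _, ?_⟩
  rintro ⟨s, hs, he⟩
  have := cast_inj (by omega) ht (by omega) (pe_inj hp he)
  subst this
  exact h hs

theorem inner_mem_DE {v : ℤ × ℤ} {r : Fin 4} (h1 : face v r ∈ S) (h2 : face v (r - 1) ∈ S) :
    s(v, v + dir r) ∈ DE p S k l m := by
  rw [mem_DE]
  refine ⟨(mem_edges r).2 (Or.inl h1), ?_⟩
  rintro ⟨s, -, he⟩
  exact inner_ne_pe hp hS h1 h2 _ he

/-- The state of the interface when it has not met the arc `l, …, m` and there is no dual
crossing. -/
def Sta (p : ZMod n → ℤ × ℤ) (S : Finset (ℤ × ℤ)) (k l m : ℕ) (F : Set (Sym2 (ℤ × ℤ)))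
    (c : Medial) : Prop :=
  (fc c ∈ S ∧ ∃ x ∈ arcF0 n l, Cn (StF p S) (Fᶜ ∩ ↑(DE p S k l m)) x (Sum.inl (fc c))) ∨
  (fc c ∉ S ∧ ∃ i : ℕ, i ≤ l ∧ c.1 = p ((i : ZMod n) - 1) ∧ (i = 0 → c.2 = ro p (-1) - 1))

theorem sta_step (hlm : l ≤ m) (hmk : m < k) (hkn : k < n) {F : Set (Sym2 (ℤ × ℤ))}
    (hcr : ¬ Cr (StF p S) (Fᶜ ∩ ↑(DE p S k l m)) (arcF0 n l) (arcF n m k)) {c : Medial}
    (hc : Sta p S k l m F c)
    (hno : (next (wiredOpen p k (AF p S k l m F)) c).1 ∉ arcV p l m) :
    next (wiredOpen p k (AF p S k l m F)) c ≠ ce p k ∧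
      Sta p S k l m F (next (wiredOpen p k (AF p S k l m F)) c) := by
  have hn : NeZero n := ⟨by omega⟩
  have hn0 : n ≠ 0 := by omega
  set ω := wiredOpen p k (AF p S k l m F) with hω
  have hωS : ω ⊆ edges S := wired_sub hp hS AF_sub
  obtain ⟨v, r⟩ := c
  -- the index `i - 1` as a natural number
  have idx : ∀ i : ℕ, i ≤ l → ∃ t : ℕ, t < n ∧ (t : ZMod n) = (i : ZMod n) - 1 ∧
      (t + 1 = i ∨ (i = 0 ∧ t = n - 1)) := by
    intro i hi
    rcases Nat.eq_zero_or_pos i with h0 | h0
    · subst h0
      refine ⟨n - 1, by omega, ?_, Or.inr ⟨rfl, rfl⟩⟩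
      rw [Nat.cast_sub (by omega)]
      simp
    · refine ⟨i - 1, by omega, ?_, Or.inl (by omega)⟩
      rw [Nat.cast_sub (by omega)]
      simp
  by_cases ho : ahead (v, r) ∈ ω
  · have hfc : fc (next ω (v, r)) = fc (v, r) := fc_next_open ho
    rcases hc with ⟨h1, x, hx, hcx⟩ | ⟨h1, i, hi, hv, hi0⟩
    · -- inner face
      refine ⟨?_, Or.inl ⟨by rw [hfc]; exact h1, x, hx, by rw [hfc]; exact hcx⟩⟩
      intro h
      rw [h] at hfc
      exact fc_ce (k := k) hp hS (hfc ▸ h1)
    · -- outer face: along the edge of the polygon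
      simp only at hv
      subst hv
      have h2 : face (p ((i : ZMod n) - 1)) (r + 1) ∈ S := by
        have h3 := (mem_edges (r + 1)).1 (hωS ho)
        rw [fin4_2] at h3
        exact h3.resolve_right h1
      have h3 : r + 1 = ro p ((i : ZMod n) - 1) := by
        refine (enc_iff hp hS).1 ⟨h2, ?_⟩
        rw [fin4_2]
        exact h1
      have h4 : (next ω (p ((i : ZMod n) - 1), r)).1 = p (i : ZMod n) := by
        rw [next_open ho]
        simp only
        rw [h3, ← ro_spec hp, sub_add_cancel]
      rw [h4] at hno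
      have hil : i < l := by
        by_contra hcon
        exact hno ⟨i, by omega, by omega, rfl⟩
      refine ⟨?_, Or.inr ⟨by rw [hfc]; exact h1, i + 1, by omega, ?_, by omega⟩⟩
      · intro h
        have h5 : p (i : ZMod n) = p (k : ZMod n) := by rw [← h4, h]; rfl
        have := cast_inj hn0 (by omega) hkn (hp.2.1 h5)
        omega
      · rw [h4]
        push_cast
        rw [add_sub_cancel_right]
  · have hnx : next ω (v, r) = (v, r + 1) := next_closed ho
    have hnF : s(v, v + dir (r + 1)) ∈ DE p S k l m →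
        s(v, v + dir (r + 1)) ∈ Fᶜ ∩ (↑(DE p S k l m) : Set (Sym2 (ℤ × ℤ))) := by
      intro hD
      refine ⟨fun hF => ho (Or.inl (mem_AF.2 ⟨hF, hD⟩)), hD⟩
    rw [hnx] at hno ⊢
    rcases hc with ⟨h1, x, hx, hcx⟩ | ⟨h1, i, hi, hv, hi0⟩
    · by_cases h2 : face v (r + 1) ∈ S
      · -- inner step
        refine ⟨?_, Or.inl ⟨h2, x, hx, hcx.tail ⟨s(v, v + dir (r + 1)), hnF ?_, ?_⟩⟩⟩
        · intro h
          exact fc_ce (k := k) hp hS (h ▸ (show fc (v, r + 1) ∈ S from h2))
        · refine inner_mem_DE hp hS h2 ?_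
          rw [fin4_2]
          exact h1
        · refine (isSt_F hp hS).symm _ _ _ (Or.inl ⟨v, r + 1, rfl, h2, ?_, rfl, ?_⟩)
          · rw [fin4_2]; exact h1
          · rw [fin4_2]; rfl
      · -- through an edge of the polygon from inside
        have h3 : ∃ i, p i = v + dir (r + 1) ∧ p (i + 1) = v + dir (r + 1) + dir (r + 1 + 2) := by
          rw [hS, face_right, fin4_2]
          refine ⟨h1, ?_⟩
          have : r + 1 + 2 - 1 = r + 1 + 1 := by
            clear * -
            revert r; decide
          rw [this, face_left]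
          exact h2
        obtain ⟨i', h4, h5⟩ := h3
        rw [dir_add_two'] at h5
        obtain ⟨t, ht, rfl⟩ : ∃ t : ℕ, t < n ∧ (t : ZMod n) = i' :=
          ⟨i'.val, ZMod.val_lt i', ZMod.natCast_zmod_val i'⟩
        have he : s(v, v + dir (r + 1)) = pe p (t : ZMod n) := by
          rw [pe, h4, h5]
          exact Sym2.eq_swap
        have hnw : ¬ (k ≤ t ∧ t + 1 < n) := by
          rintro ⟨h6, h7⟩
          exact ho (Or.inr ⟨t, h6, h7, he⟩)
        have hv : v = p ((t + 1 : ℕ) : ZMod n) := by rw [← arc_step (p := p), h5]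
        by_cases htn : t = n - 1
        · have hv0 : v = p ((0 : ℕ) : ZMod n) := by
            rw [hv, htn, Nat.sub_add_cancel (by omega)]
            simp
          have hl0 : 0 < l := by
            by_contra hcon
            exact hno ⟨0, by omega, by omega, hv0⟩
          refine ⟨?_, Or.inr ⟨h2, 1, by omega, ?_, by omega⟩⟩
          · intro h
            have h8 : p ((0 : ℕ) : ZMod n) = p (k : ZMod n) := by
              rw [← hv0]
              exact congrArg Prod.fst h
            have := cast_inj hn0 (by omega) hkn (hp.2.1 h8)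
            omega
          · simp only [Nat.cast_one, sub_self]
            rw [hv0]
            simp
        · have htk : t < k := by
            by_contra hcon
            exact hnw ⟨by omega, by omega⟩
          rcases lt_or_ge (t + 1) l with hl | hl
          · refine ⟨?_, Or.inr ⟨h2, t + 2, by omega, ?_, by omega⟩⟩
            · intro h
              have h8 : p ((t + 1 : ℕ) : ZMod n) = p (k : ZMod n) := by
                rw [← hv]
                exact congrArg Prod.fst h
              have := cast_inj hn0 (by omega) hkn (hp.2.1 h8)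
              omega
            · show v = _
              rw [hv]
              congr 1
              push_cast
              ring
          · exfalso
            have hmt : m < t + 1 := by
              by_contra hcon
              exact hno ⟨t + 1, hl, by omega, hv⟩
            apply hcr
            refine ⟨x, hx, Sum.inr (t : ZMod n), ⟨t, by omega, htk, rfl⟩, hcx.tail
              ⟨s(v, v + dir (r + 1)), hnF ?_, ?_⟩⟩
            · rw [he]
              exact pe_mem_DE hp hS (by omega) ht (by omega)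
            · refine Or.inr (Or.inl ⟨t, he, ?_, rfl⟩)
              congr 1
              -- the inner face
              have h6 : ro p (t : ZMod n) = r + 1 + 2 := by
                symm
                refine ro_unique hp ?_
                rw [h5, h4, dir_add_two']
              rw [fi, h6, h4, face_right, fin4_2]
              rfl
    · simp only at hv
      subst hv
      obtain ⟨t, htn, hti, ht⟩ := idx i hi
      by_cases h2 : face (p ((i : ZMod n) - 1)) (r + 1) ∈ S
      · -- from outside to inside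
        have h3 : r + 1 = ro p ((i : ZMod n) - 1) := by
          refine (enc_iff hp hS).1 ⟨h2, ?_⟩
          rw [fin4_2]
          exact h1
        have he : s(p ((i : ZMod n) - 1), p ((i : ZMod n) - 1) + dir (r + 1)) =
            pe p (t : ZMod n) := by
          rw [pe_eq hp, hti, h3]
        refine ⟨?_, Or.inl ⟨h2, Sum.inr ((i : ZMod n) - 1), ⟨i, hi, rfl⟩,
          Relation.ReflTransGen.single ⟨_, hnF ?_, Or.inr (Or.inr ⟨(i : ZMod n) - 1, ?_, rfl, ?_⟩)⟩⟩⟩
        · intro h
          exact fc_ce (k := k) hp hS (h ▸ (show fc (p ((i : ZMod n) - 1), r + 1) ∈ S from h2))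
        · rw [he]
          exact pe_mem_DE hp hS (by omega) htn (by omega)
        · rw [he, hti]
        · rw [fi, ← h3]
          rfl
      · -- around the vertex outside
        rcases Nat.eq_zero_or_pos i with h0 | h0
        · exfalso
          subst h0
          have h3 := hi0 rfl
          simp only at h3
          apply h2
          rw [h3, fin4_1]
          have : ((0 : ℕ) : ZMod n) - 1 = -1 := by simp
          rw [this]
          exact (enc_out hp hS).1
        · refine ⟨?_, Or.inr ⟨h2, i, hi, rfl, by omega⟩⟩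
          intro h
          have h8 : p (t : ZMod n) = p (k : ZMod n) := by
            rw [hti]
            exact congrArg Prod.fst h
          have := cast_inj hn0 (by omega) hkn (hp.2.1 h8)
          omega

theorem quad_dich (hlm : l ≤ m) (hmk : m < k) (hkn : k < n) (F : Set (Sym2 (ℤ × ℤ))) :
    Cr StE (F ∩ ↑(DE p S k l m)) (arcV p k (n - 1)) (arcV p l m) ∨
      Cr (StF p S) (Fᶜ ∩ ↑(DE p S k l m)) (arcF0 n l) (arcF n m k) := by
  by_contra hcon
  push Not at hcon
  obtain ⟨h1, h2⟩ := hcon
  have hno : ∀ j, (run p k (AF p S k l m F) j).1 ∉ arcV p l m := by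
    intro j hj
    obtain ⟨a, ha, hc⟩ := left_cn (p := p) (S := S) (l := l) (m := m) hkn (F := F) j
    exact h1 ⟨a, ha, _, hj, hc⟩
  have hall : ∀ j, Sta p S k l m F (run p k (AF p S k l m F) j) := by
    intro j
    induction j with
    | zero =>
      refine Or.inr ⟨fc_cs hp hS, 0, Nat.zero_le _, ?_, fun _ => rfl⟩
      show p (-1) = _
      simp
    | succ j ih =>
      have h3 := hno (j + 1)
      rw [run_succ] at h3 ⊢
      exact (sta_step hp hS hlm hmk hkn h2 ih h3).2
  have hL := run_len hp hS hkn (AF_sub (p := p) (S := S) (k := k) (l := l) (m := m) (F := F))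
  have hpos := len_pos hp hS hkn (AF_sub (p := p) (S := S) (k := k) (l := l) (m := m) (F := F))
  obtain ⟨j, hj⟩ : ∃ j, len p k (AF p S k l m F) = j + 1 := ⟨_, (Nat.succ_pred_eq_of_pos hpos).symm⟩
  rw [hj, run_succ] at hL
  have h3 := hno (j + 1)
  rw [run_succ] at h3
  exact (sta_step hp hS hlm hmk hkn h2 (hall j) h3).1 hL

/-- **A lattice polygon with four arcs is a quad.** -/
theorem isQuad_poly (hlm : l ≤ m) (hmk : m < k) (hkn : k < n) :
    IsQuad StE (StF p S) (DE p S k l m) (arcV p k (n - 1)) (arcV p l m) (arcF0 n l)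
      (arcF n m k) where
  dich F := quad_dich hp hS hlm hmk hkn F
  excl _ h1 h2 := quad_excl hp hS hmk hkn h1 h2

end

end Vale.Agent.P167.H531
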