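import Vale.Agent.P167.H531.Quad

/-!
# P167, block CONT-LAT: the probabilistic comparison
-/

namespace Vale.Agent.P167.H531

open Vale.Agent.P167.H558 MeasureTheory Set
open scoped ENNReal

set_option linter.unusedSectionVars false

variable {ι V V' : Type*} [Countable ι]
variable {St : ι → V → V → Prop} {St' : ι → V' → V' → Prop} {D P : Finset ι}
  {A1 A3 B1 B3 : Set V} {A2 A4 B2 B4 : Set V'}
  {Z1 Z3 : Set V} {q1 q3 : V → Set ι} {q2 : V' → Set ι} {U1 U3 : V → Set V'}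

/-- The open edges. -/
def Op (ω : ι → Bool) : Set ι := {i | ω i = true}

/-- The arm event: a path of closed edges from an end of an edge of `Q` to the outside of `U`. -/
def ArmE (St' : ι → V' → V' → Prop) (Q : Set ι) (U : Set V') : Set (ι → Bool) :=
  {ω | ∃ i ∈ Q, ∃ a b, St' i a b ∧ ∃ r, r ∉ U ∧ Cn St' (Op ω)ᶜ b r}

open Classical in
/-- The explored edges as a stopping set. -/
noncomputable def Ex (St' : ι → V' → V' → Prop) (P : Finset ι) (B2 : Set V') (ω : ι → Bool) :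
    Finset ι := P.filter (fun i => i ∈ ES St' P B2 (Op ω))

theorem coe_Ex (ω : ι → Bool) : (↑(Ex St' P B2 ω) : Set ι) = ES St' P B2 (Op ω) := by
  ext i
  simp only [Ex, Finset.coe_filter, mem_ofPred_eq]
  exact ⟨fun h => h.2, fun h => ⟨h.1, h⟩⟩

theorem ex_iff {ω ω' : ι → Bool} (h : ∀ i ∈ Ex St' P B2 ω, ω' i = ω i) :
    ∀ i ∈ ES St' P B2 (Op ω), i ∈ Op ω ↔ i ∈ Op ω' := by
  intro i hi
  rw [← coe_Ex] at hi
  simp only [Op, mem_ofPred_eq]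
  rw [h i (Finset.mem_coe.1 hi)]

theorem stopSet_Ex : StopSet (Ex St' P B2) := by
  intro ω ω' h
  rw [← Finset.coe_inj, coe_Ex, coe_Ex]
  exact es_eq (ex_iff h)

theorem past_cl : Past (Ex St' P B2) (fun ω : ι → Bool => Cl St' ((Op ω)ᶜ ∩ ↑P) B2) :=
  fun _ _ h => cl_eq (ex_iff h)

theorem past_G : Past (Ex St' P B2) (fun ω : ι → Bool => Op ω ∩ ES St' P B2 (Op ω)) := by
  intro ω ω' h
  show Op ω' ∩ ES St' P B2 (Op ω') = Op ω ∩ ES St' P B2 (Op ω)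
  rw [es_eq (ex_iff h)]
  ext i
  constructor
  · rintro ⟨h1, h2⟩
    exact ⟨(ex_iff h i h2).2 h1, h2⟩
  · rintro ⟨h1, h2⟩
    exact ⟨(ex_iff h i h2).1 h1, h2⟩

/-- A good pair of landing sites for the path with edges in `G`. -/
def GoodPair (St : ι → V → V → Prop) (B1 B3 Z1 Z3 : Set V) (G : Set ι) (p : V × V) : Prop :=
  p.1 ∈ B1 ∧ p.1 ∉ Z1 ∧ p.2 ∈ B3 ∧ p.2 ∉ Z3 ∧ Cn St G p.1 p.2

open Classical in
/-- The chosen landing sites. -/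
noncomputable def sel (St : ι → V → V → Prop) (B1 B3 Z1 Z3 : Set V) (G : Set ι) : Option (V × V) :=
  if h : ∃ p, GoodPair St B1 B3 Z1 Z3 G p then some h.choose else none

theorem sel_spec {G : Set ι} (h : ∃ p, GoodPair St B1 B3 Z1 Z3 G p) :
    ∃ p, sel St B1 B3 Z1 Z3 G = some p ∧ GoodPair St B1 B3 Z1 Z3 G p := by
  classical
  refine ⟨h.choose, ?_, h.choose_spec⟩
  unfold sel
  rw [dif_pos h]

theorem sel_good {G : Set ι} {p : V × V} (h : sel St B1 B3 Z1 Z3 G = some p) :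
    GoodPair St B1 B3 Z1 Z3 G p := by
  classical
  unfold sel at h
  split_ifs at h with h'
  have := h'.choose_spec
  rwa [Option.some.inj h] at this

/-- The event: a closed path of `D` from an end of an edge of `Q` to `A4` which avoids `A2`. -/
def ArmD (St' : ι → V' → V' → Prop) (D : Finset ι) (Q : Set ι) (A2 A4 : Set V') :
    Set (ι → Bool) :=
  {ω | ∃ i ∈ Q, ∃ a b, St' i a b ∧ ∃ c ∈ A4, CnIn St' ((Op ω)ᶜ ∩ ↑D) A2ᶜ b c}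

/-- The arm event with the edges of `D` outside `K`. -/
def ArmK (St' : ι → V' → V' → Prop) (D : Finset ι) (K : Finset ι) (Q : Set ι) (A2 A4 : Set V')
    (ω : ι → Bool) : Prop :=
  ∃ i ∈ Q, ∃ a b, St' i a b ∧ ∃ c ∈ A4, CnIn St' ((Op ω)ᶜ ∩ (↑D \ ↑K)) A2ᶜ b c

theorem ArmK.loc {K : Finset ι} {Q : Set ι} {A2 A4 : Set V'} {ω ω' : ι → Bool}
    (h : ∀ i ∉ K, ω' i = ω i) (hA : ArmK St' D K Q A2 A4 ω) : ArmK St' D K Q A2 A4 ω' := by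
  obtain ⟨i, hi, a, b, hs, r, hr, hp⟩ := hA
  refine ⟨i, hi, a, b, hs, r, hr, hp.mono ?_ subset_rfl⟩
  rintro j ⟨hj1, hj2⟩
  refine ⟨?_, hj2⟩
  simp only [Op, mem_compl_iff, mem_ofPred_eq] at hj1 ⊢
  rwa [h j (fun h' => hj2.2 (Finset.mem_coe.2 h'))]

theorem ArmK.sub {K : Finset ι} {Q : Set ι} {A2 A4 : Set V'} {ω : ι → Bool}
    (hA : ArmK St' D K Q A2 A4 ω) : ω ∈ ArmD St' D Q A2 A4 := by
  obtain ⟨i, hi, a, b, hs, r, hr, hp⟩ := hA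
  exact ⟨i, hi, a, b, hs, r, hr, hp.mono (inter_subset_inter_right _ sdiff_subset) subset_rfl⟩

/-- A closed path of `D` to `A4` leaves `U`. -/
theorem armD_sub_armE {Q : Set ι} {U : Set V'}
    (h : ∀ i ∈ Q, ∀ a b, St' i a b → ∀ c ∈ A4, ¬ CnIn St' ↑D (U ∩ A2ᶜ) b c) :
    ArmD St' D Q A2 A4 ⊆ ArmE St' Q U := by
  rintro ω ⟨i, hi, a, b, hs, c, hc, hp⟩
  have hsub : (Op ω)ᶜ ∩ (↑D : Set ι) ⊆ (↑D : Set ι) := inter_subset_right
  obtain ⟨r, hr, hbr⟩ := hp.exit hsub (h i hi a b hs c hc)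
  exact ⟨i, hi, a, b, hs, r, hr, hbr.mono inter_subset_left⟩

/-- Sets of configurations determined by finitely many edges are measurable. -/
theorem meas_of_dep {K : Finset ι} {s : Set (ι → Bool)}
    (h : ∀ ω ω' : ι → Bool, (∀ i ∈ K, ω' i = ω i) → ω ∈ s → ω' ∈ s) : MeasurableSet s := by
  have : Past (fun _ : ι → Bool => K) (fun ω => ω ∈ s) := by
    intro ω ω' hω
    exact propext ⟨fun h' => h ω' ω (fun i hi => (hω i hi).symm) h', h ω ω' hω⟩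
  exact this.measurableSet {p | p}

variable (ν : Measure Bool) [IsProbabilityMeasure ν]

/-- **CONT-LAT, general form.** The probability that the inner domain `P` is crossed (from `B1` to
`B3`) but `D` is not crossed (from `A1` to `A3`): at most `e1 + e3` times the probability that `P` is
crossed plus the probabilities of the crossings of `P` landing in the zones; `e1` (`e3`) is a bound
for the probability of a dual path of `D` from a collar path to `A4` which avoids `A2`. -/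
theorem cont_gen (hS' : IsSt St') (hP : IsQuad St St' P B1 B3 B2 B4)
    (hD : IsQuad St St' D A1 A3 A2 A4)
    (hc : Collar0 St St' D P A1 A3 A2 B1 B3 B2 Z1 Z3 q1 q3 q2) {e1 e3 : ℝ≥0∞}
    (hq1 : ∀ y ∈ B1, y ∉ Z1 → (Pm ν ι) (ArmD St' D (q1 y) A2 A4) ≤ e1)
    (hq3 : ∀ y ∈ B3, y ∉ Z3 → (Pm ν ι) (ArmD St' D (q3 y) A2 A4) ≤ e3) :
    (Pm ν ι) {ω | Cr St (Op ω ∩ ↑P) B1 B3 ∧ ¬ Cr St (Op ω ∩ ↑D) A1 A3} ≤
      (e1 + e3) * (Pm ν ι) {ω | Cr St (Op ω ∩ ↑P) B1 B3} +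
        ((Pm ν ι) {ω | Cr St (Op ω ∩ ↑P) (B1 ∩ Z1) B3} +
          (Pm ν ι) {ω | Cr St (Op ω ∩ ↑P) B1 (B3 ∩ Z3)}) := by
  classical
  set R := Ex St' P B2 with hRdef
  have hR : StopSet R := stopSet_Ex
  set G : (ι → Bool) → Set ι := fun ω => Op ω ∩ ES St' P B2 (Op ω) with hG
  have hGp : Past R G := past_G
  set Y : (ι → Bool) → Prop := fun ω =>
    (∃ p, GoodPair St B1 B3 Z1 Z3 (G ω) p) with hY
  have hYp : Past R Y := hGp.comp (fun g => ∃ p, GoodPair St B1 B3 Z1 Z3 g p)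
  set S : (ι → Bool) → Option (V × V) := fun ω => sel St B1 B3 Z1 Z3 (G ω) with hSel
  have hSp : Past R S := hGp.comp (fun g => sel St B1 B3 Z1 Z3 g)
  have hYcr : ∀ ω, Y ω → Cr St (Op ω ∩ ↑P) B1 B3 := by
    rintro ω ⟨p, h1, -, h3, -, h⟩
    have hsub : G ω ⊆ Op ω ∩ ↑P := fun i hi => ⟨hi.1, hi.2.1⟩
    exact ⟨p.1, h1, p.2, h3, h.mono hsub⟩
  -- the two arm events given the past
  let E1 : Option (V × V) → Finset ι → (ι → Bool) → Prop := fun c K ω =>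
    ∃ p, c = some p ∧ ArmK St' D K (q1 p.1) A2 A4 ω
  let E3 : Option (V × V) → Finset ι → (ι → Bool) → Prop := fun c K ω =>
    ∃ p, c = some p ∧ ArmK St' D K (q3 p.2) A2 A4 ω
  let E1' : Option (V × V) → Set (ι → Bool) := fun c =>
    {ω | ∃ p, c = some p ∧ ω ∈ ArmD St' D (q1 p.1) A2 A4}
  let E3' : Option (V × V) → Set (ι → Bool) := fun c =>
    {ω | ∃ p, c = some p ∧ ω ∈ ArmD St' D (q3 p.2) A2 A4}
  have hex : ∀ ω ω' : ι → Bool, (∀ i ∈ D, ω' i = ω i) → R ω' = R ω ∧ S ω' = S ω := by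
    intro ω ω' h
    have h' : ∀ i ∈ R ω, ω' i = ω i := fun i hi => h i (hc.sub (Finset.mem_filter.1 hi).1)
    exact ⟨hR ω ω' h', hSp ω ω' h'⟩
  have hmeas : ∀ (Q : V × V → Set ι),
      MeasurableSet {ω : ι → Bool | ∃ p, S ω = some p ∧ ArmK St' D (R ω) (Q p) A2 A4 ω} := by
    intro Q
    refine meas_of_dep (K := D) fun ω ω' h => ?_
    rintro ⟨p, hp, hA⟩
    obtain ⟨e1, e2⟩ := hex ω ω' h
    refine ⟨p, e2.trans hp, ?_⟩
    show ArmK St' D (R ω') (Q p) A2 A4 ω'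
    rw [e1]
    obtain ⟨i, hi, a, b, hs, r, hr, hpa⟩ := hA
    refine ⟨i, hi, a, b, hs, r, hr, hpa.mono ?_ subset_rfl⟩
    rintro j ⟨hj1, hj2⟩
    refine ⟨?_, hj2⟩
    simp only [Op, mem_compl_iff, mem_ofPred_eq] at hj1 ⊢
    rwa [h j hj2.1]
  have b1 : (Pm ν ι) ({ω | Y ω} ∩ {ω | E1 (S ω) (R ω) ω}) ≤ e1 * (Pm ν ι) {ω | Y ω} := by
    refine fresh_le ν hR hYp hSp (E := E1) (E' := E1') ?_ ?_ ?_ ?_
    · rintro c K ω ω' h ⟨p, hp, hA⟩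
      exact ⟨p, hp, hA.loc h⟩
    · exact hmeas (fun p => q1 p.1)
    · rintro c K ω ⟨p, hp, hA⟩
      exact ⟨p, hp, hA.sub⟩
    · intro ω hω
      obtain ⟨p, hp, hgood⟩ := sel_spec hω
      refine le_trans (measure_mono ?_) (hq1 p.1 hgood.1 hgood.2.1)
      rintro ω' ⟨p', hp', hA⟩
      have e : some p = some p' := by rw [← hp, ← hp']
      rw [← Option.some.inj e] at hA
      exact hA
  have b3 : (Pm ν ι) ({ω | Y ω} ∩ {ω | E3 (S ω) (R ω) ω}) ≤ e3 * (Pm ν ι) {ω | Y ω} := by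
    refine fresh_le ν hR hYp hSp (E := E3) (E' := E3') ?_ ?_ ?_ ?_
    · rintro c K ω ω' h ⟨p, hp, hA⟩
      exact ⟨p, hp, hA.loc h⟩
    · exact hmeas (fun p => q3 p.2)
    · rintro c K ω ⟨p, hp, hA⟩
      exact ⟨p, hp, hA.sub⟩
    · intro ω hω
      obtain ⟨p, hp, hgood⟩ := sel_spec hω
      refine le_trans (measure_mono ?_) (hq3 p.2 hgood.2.2.1 hgood.2.2.2.1)
      rintro ω' ⟨p', hp', hA⟩
      have e : some p = some p' := by rw [← hp, ← hp']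
      rw [← Option.some.inj e] at hA
      exact hA
  have hcover : {ω : ι → Bool | Cr St (Op ω ∩ ↑P) B1 B3 ∧ ¬ Cr St (Op ω ∩ ↑D) A1 A3} ⊆
      (({ω | Y ω} ∩ {ω | E1 (S ω) (R ω) ω}) ∪ ({ω | Y ω} ∩ {ω | E3 (S ω) (R ω) ω})) ∪
        ({ω | Cr St (Op ω ∩ ↑P) (B1 ∩ Z1) B3} ∪ {ω | Cr St (Op ω ∩ ↑P) B1 (B3 ∩ Z3)}) := by
    rintro ω ⟨hEP, hED⟩
    by_cases hω : Y ω
    · left
      obtain ⟨p, hp, hgood⟩ := sel_spec hω
      have hcoe : (↑(R ω) : Set ι) = ES St' P B2 (Op ω) := coe_Ex ω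
      rcases fresh_to hS' hD hc hgood.1 hgood.2.1 hgood.2.2.1 hgood.2.2.2.1 hgood.2.2.2.2 hED
        with ⟨i, hi, a, b, hs, r, hr, hA⟩ | ⟨i, hi, a, b, hs, r, hr, hA⟩
      · refine Or.inl ⟨hω, p, hp, i, hi, a, b, hs, r, hr, ?_⟩
        rw [hcoe]; exact hA
      · refine Or.inr ⟨hω, p, hp, i, hi, a, b, hs, r, hr, ?_⟩
        rw [hcoe]; exact hA
    · right
      have hno : ¬ Cr St' ((Op ω)ᶜ ∩ ↑P) B2 B4 := hP.excl _ hEP
      obtain ⟨y1, h1, y3, h3, hg⟩ := exists_explored hP hno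
      have hbad : y1 ∈ Z1 ∨ y3 ∈ Z3 := by
        by_contra hcon
        push Not at hcon
        exact hω ⟨(y1, y3), h1, hcon.1, h3, hcon.2, hg⟩
      have hsub : Op ω ∩ ES St' P B2 (Op ω) ⊆ Op ω ∩ ↑P := fun i hi => ⟨hi.1, hi.2.1⟩
      have hg' : Cn St (Op ω ∩ ↑P) y1 y3 := hg.mono hsub
      rcases hbad with h | h
      · exact Or.inl ⟨y1, ⟨h1, h⟩, y3, h3, hg'⟩
      · exact Or.inr ⟨y1, h1, y3, ⟨h3, h⟩, hg'⟩
  have hYle : (Pm ν ι) {ω | Y ω} ≤ (Pm ν ι) {ω | Cr St (Op ω ∩ ↑P) B1 B3} :=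
    measure_mono fun ω hω => hYcr ω hω
  calc (Pm ν ι) {ω | Cr St (Op ω ∩ ↑P) B1 B3 ∧ ¬ Cr St (Op ω ∩ ↑D) A1 A3}
      ≤ _ := measure_mono hcover
    _ ≤ _ := (measure_union_le _ _).trans (add_le_add (measure_union_le _ _) (measure_union_le _ _))
    _ ≤ (e1 * (Pm ν ι) {ω | Cr St (Op ω ∩ ↑P) B1 B3} +
          e3 * (Pm ν ι) {ω | Cr St (Op ω ∩ ↑P) B1 B3}) +
        ((Pm ν ι) {ω | Cr St (Op ω ∩ ↑P) (B1 ∩ Z1) B3} +
          (Pm ν ι) {ω | Cr St (Op ω ∩ ↑P) B1 (B3 ∩ Z3)}) := by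
        gcongr
        · exact b1.trans (by gcongr)
        · exact b3.trans (by gcongr)
    _ = _ := by rw [← add_mul]

/-- **CONT-LAT.** The probability that the inner domain `P` is crossed (from `B1` to `B3`) but `D` is
not crossed (from `A1` to `A3`): at most `2 q` times the probability that `P` is crossed plus the
probabilities of the crossings of `P` landing in the zones. -/
theorem cont_lat (hS' : IsSt St') (hP : IsQuad St St' P B1 B3 B2 B4)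
    (hD : IsQuad St St' D A1 A3 A2 A4)
    (hc : Collar St St' D P A1 A3 A2 A4 B1 B3 B2 Z1 Z3 q1 q3 q2 U1 U3) {q : ℝ≥0∞}
    (hq1 : ∀ y ∈ B1, y ∉ Z1 → (Pm ν ι) (ArmE St' (q1 y) (U1 y)) ≤ q)
    (hq3 : ∀ y ∈ B3, y ∉ Z3 → (Pm ν ι) (ArmE St' (q3 y) (U3 y)) ≤ q) :
    (Pm ν ι) {ω | Cr St (Op ω ∩ ↑P) B1 B3 ∧ ¬ Cr St (Op ω ∩ ↑D) A1 A3} ≤
      2 * q * (Pm ν ι) {ω | Cr St (Op ω ∩ ↑P) B1 B3} +
        ((Pm ν ι) {ω | Cr St (Op ω ∩ ↑P) (B1 ∩ Z1) B3} +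
          (Pm ν ι) {ω | Cr St (Op ω ∩ ↑P) B1 (B3 ∩ Z3)}) := by
  rw [two_mul]
  exact cont_gen ν hS' hP hD hc.toCollar0
    (fun y hy hZ => (measure_mono (armD_sub_armE (hc.sep1 y hy hZ))).trans (hq1 y hy hZ))
    (fun y hy hZ => (measure_mono (armD_sub_armE (hc.sep3 y hy hZ))).trans (hq3 y hy hZ))

/-- Exchange of open and closed. -/
def flp (ω : ι → Bool) : ι → Bool := fun i => !ω i

theorem Op_flp (ω : ι → Bool) : Op (flp ω) = (Op ω)ᶜ := by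
  ext i
  simp [Op, flp]

theorem measurable_flp : Measurable (flp (ι := ι)) :=
  measurable_pi_lambda _ fun i => (measurable_of_finite not).comp (measurable_pi_apply i)

theorem Pm_flp (hν : ν.map not = ν) : (Pm ν ι).map flp = Pm ν ι := by
  unfold Pm flp
  have := Measure.infinitePi_map_pi (μ := fun _ : ι => ν) (f := fun _ : ι => not)
    (fun _ => measurable_of_finite not)
  rw [this]
  simp only [hν]

/-- The dual form of an estimate for the crossing probabilities. -/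
theorem dual_le (hν : ν.map not = ν) (hP : IsQuad St St' P B1 B3 B2 B4)
    (hD : IsQuad St St' D A1 A3 A2 A4) {Z2 Z4 : Set V'} {e : ℝ≥0∞}
    (h : (Pm ν ι) {ω | Cr St' (Op ω ∩ ↑P) B2 B4 ∧ ¬ Cr St' (Op ω ∩ ↑D) A2 A4} ≤
      e * (Pm ν ι) {ω | Cr St' (Op ω ∩ ↑P) B2 B4} +
        ((Pm ν ι) {ω | Cr St' (Op ω ∩ ↑P) (B2 ∩ Z2) B4} +
          (Pm ν ι) {ω | Cr St' (Op ω ∩ ↑P) B2 (B4 ∩ Z4)})) :
    (Pm ν ι) {ω | Cr St (Op ω ∩ ↑D) A1 A3 ∧ ¬ Cr St (Op ω ∩ ↑P) B1 B3} ≤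
      e * (Pm ν ι) {ω | ¬ Cr St (Op ω ∩ ↑P) B1 B3} +
        ((Pm ν ι) {ω | Cr St' ((Op ω)ᶜ ∩ ↑P) (B2 ∩ Z2) B4} +
          (Pm ν ι) {ω | Cr St' ((Op ω)ᶜ ∩ ↑P) B2 (B4 ∩ Z4)}) := by
  have hm : ∀ (K : Finset ι) (A B : Set V'),
      MeasurableSet {ω : ι → Bool | Cr St' (Op ω ∩ ↑K) A B} := by
    intro K A B
    refine meas_of_dep (K := K) fun ω ω' hω h' => ?_
    have hsub : Op ω ∩ (↑K : Set ι) ⊆ Op ω' ∩ ↑K := by
      rintro i ⟨h1, h2⟩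
      refine ⟨?_, h2⟩
      simp only [Op, mem_ofPred_eq] at h1 ⊢
      rwa [hω i h2]
    exact Cr.mono hsub h'
  have hfl : ∀ s : Set (ι → Bool), MeasurableSet s → (Pm ν ι) s = (Pm ν ι) (flp ⁻¹' s) := by
    intro s hs
    conv_lhs => rw [← Pm_flp ν hν]
    rw [Measure.map_apply measurable_flp hs]
  have hxor : ∀ (K : Finset ι) (C1 C3 : Set V) (C2 C4 : Set V'), IsQuad St St' K C1 C3 C2 C4 →
      ∀ ω : ι → Bool, Cr St' ((Op ω)ᶜ ∩ ↑K) C2 C4 ↔ ¬ Cr St (Op ω ∩ ↑K) C1 C3 := by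
    intro K C1 C3 C2 C4 hK ω
    constructor
    · exact fun h1 h2 => hK.excl _ h2 h1
    · exact fun h1 => (hK.dich _).resolve_left h1
  have hm2 : MeasurableSet {ω : ι → Bool | Cr St' (Op ω ∩ ↑P) B2 B4 ∧
      ¬ Cr St' (Op ω ∩ ↑D) A2 A4} := (hm P B2 B4).inter (hm D A2 A4).compl
  rw [hfl _ hm2, hfl _ (hm P B2 B4), hfl _ (hm P (B2 ∩ Z2) B4), hfl _ (hm P B2 (B4 ∩ Z4))] at h
  have e1 : flp ⁻¹' {ω : ι → Bool | Cr St' (Op ω ∩ ↑P) B2 B4 ∧ ¬ Cr St' (Op ω ∩ ↑D) A2 A4} =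
      {ω | Cr St (Op ω ∩ ↑D) A1 A3 ∧ ¬ Cr St (Op ω ∩ ↑P) B1 B3} := by
    ext ω
    simp only [mem_preimage, mem_ofPred_eq, Op_flp]
    rw [hxor P B1 B3 B2 B4 hP, hxor D A1 A3 A2 A4 hD, not_not]
    exact and_comm
  have e2 : ∀ (A B : Set V'), flp ⁻¹' {ω : ι → Bool | Cr St' (Op ω ∩ ↑P) A B} =
      {ω | Cr St' ((Op ω)ᶜ ∩ ↑P) A B} := by
    intro A B
    ext ω
    simp only [mem_preimage, mem_ofPred_eq, Op_flp]
  have e3 : {ω : ι → Bool | Cr St' ((Op ω)ᶜ ∩ ↑P) B2 B4} = {ω | ¬ Cr St (Op ω ∩ ↑P) B1 B3} := by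
    ext ω
    exact hxor P B1 B3 B2 B4 hP ω
  rw [e1, e2, e2, e2, e3] at h
  exact h

/-- **CONT-LAT, dual general form.** -/
theorem cont_gen' (hν : ν.map not = ν) (hS : IsSt St) (hP : IsQuad St St' P B1 B3 B2 B4)
    (hD : IsQuad St St' D A1 A3 A2 A4) {Z2 Z4 : Set V'} {q2 q4 : V' → Set ι} {q1 : V → Set ι}
    (hc : Collar0 St' St D P A2 A4 A1 B2 B4 B1 Z2 Z4 q2 q4 q1) {e2 e4 : ℝ≥0∞}
    (hq2 : ∀ y ∈ B2, y ∉ Z2 → (Pm ν ι) (ArmD St D (q2 y) A1 A3) ≤ e2)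
    (hq4 : ∀ y ∈ B4, y ∉ Z4 → (Pm ν ι) (ArmD St D (q4 y) A1 A3) ≤ e4) :
    (Pm ν ι) {ω | Cr St (Op ω ∩ ↑D) A1 A3 ∧ ¬ Cr St (Op ω ∩ ↑P) B1 B3} ≤
      (e2 + e4) * (Pm ν ι) {ω | ¬ Cr St (Op ω ∩ ↑P) B1 B3} +
        ((Pm ν ι) {ω | Cr St' ((Op ω)ᶜ ∩ ↑P) (B2 ∩ Z2) B4} +
          (Pm ν ι) {ω | Cr St' ((Op ω)ᶜ ∩ ↑P) B2 (B4 ∩ Z4)}) :=
  dual_le ν hν hP hD (cont_gen ν hS hP.dual hD.dual hc hq2 hq4)

/-- **CONT-LAT, dual form.** The probability that `D` is crossed from `A1` to `A3` but the inner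
domain `P` is not crossed from `B1` to `B3`. -/
theorem cont_lat' (hν : ν.map not = ν) (hS : IsSt St) (hP : IsQuad St St' P B1 B3 B2 B4)
    (hD : IsQuad St St' D A1 A3 A2 A4) {Z2 Z4 : Set V'} {q2 q4 : V' → Set ι} {q1 : V → Set ι}
    {U2 U4 : V' → Set V}
    (hc : Collar St' St D P A2 A4 A1 A3 B2 B4 B1 Z2 Z4 q2 q4 q1 U2 U4) {q : ℝ≥0∞}
    (hq2 : ∀ y ∈ B2, y ∉ Z2 → (Pm ν ι) (ArmE St (q2 y) (U2 y)) ≤ q)
    (hq4 : ∀ y ∈ B4, y ∉ Z4 → (Pm ν ι) (ArmE St (q4 y) (U4 y)) ≤ q) :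
    (Pm ν ι) {ω | Cr St (Op ω ∩ ↑D) A1 A3 ∧ ¬ Cr St (Op ω ∩ ↑P) B1 B3} ≤
      2 * q * (Pm ν ι) {ω | ¬ Cr St (Op ω ∩ ↑P) B1 B3} +
        ((Pm ν ι) {ω | Cr St' ((Op ω)ᶜ ∩ ↑P) (B2 ∩ Z2) B4} +
          (Pm ν ι) {ω | Cr St' ((Op ω)ᶜ ∩ ↑P) B2 (B4 ∩ Z4)}) :=
  dual_le ν hν hP hD (cont_lat ν hS hP.dual hD.dual hc hq2 hq4)

end Vale.Agent.P167.H531
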