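import Vale.Agent.P167.H531.Med2
import Vale.Agent.P167.H531.Map
import Vale.Agent.P167.H531.Frozen
import Vale.Agent.P167.H192.Dict2
import Vale.Agent.P167.H632.Prob

/-!
# P167, block CONT-LAT: the quads of `E6` in the squares model
-/

set_option linter.unusedSectionVars false

namespace Vale.Agent.P167.H531

open Vale.Agent.P167 Vale.Agent.P167.E6 Vale.Agent.P167.E2 Vale.Agent.P167.H558
open Vale.Agent.P145.FB MeasureTheory Set
open Vale.Agent.P167.H192 (rf rf' sq ed IsEdge ed_sq sq_ed ed_inj isEdge_ed even_ro odd_rf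
  ro_inj ro_ro' rf_rf' rf'_rf sq_mk ro_dir exists_dir isEdge_edges)
open scoped ENNReal

section abstract

variable {ι ι₂ V V' W : Type*} {St : ι → V → V → Prop} {St' : ι → V' → V' → Prop}
  {D : Finset ι} {A1 A3 : Set V} {A2 A4 : Set V'}

theorem cr_pull {e : ι₂ → ι} {F : Set ι₂} {A B : Set V} :
    Cr (fun i => St (e i)) F A B ↔ Cr St (e '' F) A B := by
  have : ∀ a b, (∃ i ∈ F, St (e i) a b) ↔ ∃ j ∈ e '' F, St j a b := by
    intro a b
    constructor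
    · rintro ⟨i, hi, h⟩
      exact ⟨e i, ⟨i, hi, rfl⟩, h⟩
    · rintro ⟨_, ⟨i, hi, rfl⟩, h⟩
      exact ⟨i, hi, h⟩
  unfold Cr Cn
  simp only [this]

/-- Change of the names of the edges. -/
theorem IsQuad.pull {e : ι₂ → ι} {D₂ : Finset ι₂} (he : Set.InjOn e ↑D₂) (hD : e '' ↑D₂ = ↑D)
    (h : IsQuad St St' D A1 A3 A2 A4) :
    IsQuad (fun i => St (e i)) (fun i => St' (e i)) D₂ A1 A3 A2 A4 := by
  have h1 : ∀ F : Set ι₂, (e '' (F ∩ ↑D₂)) ∩ ↑D = e '' (F ∩ ↑D₂) := by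
    intro F
    rw [← hD]
    exact inter_eq_left.2 (image_mono inter_subset_right)
  have h2 : ∀ F : Set ι₂, (e '' (F ∩ ↑D₂))ᶜ ∩ ↑D = e '' (Fᶜ ∩ ↑D₂) := by
    intro F
    rw [← hD]
    ext x
    constructor
    · rintro ⟨h3, i, hi, rfl⟩
      exact ⟨i, ⟨fun hF => h3 ⟨i, ⟨hF, hi⟩, rfl⟩, hi⟩, rfl⟩
    · rintro ⟨i, ⟨hF, hi⟩, rfl⟩
      refine ⟨?_, i, hi, rfl⟩
      rintro ⟨j, ⟨hjF, hj⟩, hji⟩
      exact hF (he hj hi hji ▸ hjF)
  refine ⟨fun F => ?_, fun F => ?_⟩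
  · have h3 := h.dich (e '' (F ∩ ↑D₂))
    rw [h1, h2] at h3
    exact h3.imp cr_pull.2 cr_pull.2
  · have h3 := h.excl (e '' (F ∩ ↑D₂))
    rw [h1, h2] at h3
    exact fun h4 h5 => h3 (cr_pull.1 h4) (cr_pull.1 h5)

/-- Change of the primal sites. -/
theorem IsQuad.mapV {StW : ι → W → W → Prop} {φ : W → V} {B1 B3 : Set W}
    (hq : IsQuad StW St' D B1 B3 A2 A4) (h : DMap StW St D φ B1 B3) :
    IsQuad St St' D (φ '' B1) (φ '' B3) A2 A4 :=
  (hq.dual.map h).dual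

end abstract

variable {n : ℕ} {p : ZMod n → ℤ × ℤ} {S : Finset (ℤ × ℤ)} {k l m : ℕ}

/-- The dual structure of the domain in the squares model. -/
def StQ (p : ZMod n → ℤ × ℤ) (S : Finset (ℤ × ℤ)) (v : ℤ × ℤ) (x y : (ℤ × ℤ) ⊕ ZMod n) : Prop :=
  StF p S (ed v) x y

open Classical in
/-- The squares of the quad. -/
noncomputable def DQ (p : ZMod n → ℤ × ℤ) (S : Finset (ℤ × ℤ)) (k l m : ℕ) : Finset (ℤ × ℤ) :=
  (DE p S k l m).image sq

theorem mem_DQ {v : ℤ × ℤ} : v ∈ DQ p S k l m ↔ ed v ∈ DE p S k l m := by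
  classical
  rw [DQ, Finset.mem_image]
  constructor
  · rintro ⟨e, he, rfl⟩
    rwa [ed_sq (isEdge_edges (mem_DE.1 he).1)]
  · intro h
    exact ⟨ed v, h, sq_ed v⟩

theorem isSt_Q (hp : IsPolygon p) (hS : Encloses p S) : IsSt (StQ p S) where
  symm _ _ _ h := (isSt_F hp hS).symm _ _ _ h
  pair _ _ _ _ _ h h' := (isSt_F hp hS).pair _ _ _ _ _ h h'

theorem stE_stM {v a b : ℤ × ℤ} (h : StE (ed v) a b) : StM 0 v (H192.ro a) (H192.ro b) := by
  obtain ⟨h1, r, rfl⟩ := h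
  obtain ⟨h2, h3⟩ := ro_dir a r
  refine ⟨?_, h2, h3, ?_⟩
  · rw [← sq_mk, ← h1, sq_ed]
  · exact Int.even_iff.1 (even_ro a)

theorem stM_stE {v x y : ℤ × ℤ} (h : StM 0 v x y) : ∃ a b, StE (ed v) a b ∧ H192.ro a = x ∧
    H192.ro b = y := by
  have hy := ((isSt_M 0).symm _ _ _ h).2.2.2
  obtain ⟨h1, h2, h3, hx⟩ := h
  have ex : H192.ro (H192.ro' x) = x := ro_ro' (Int.even_iff.2 hx)
  have ey : H192.ro (H192.ro' y) = y := ro_ro' (Int.even_iff.2 hy)
  obtain ⟨r, hr⟩ := exists_dir (u := H192.ro' x) (v := H192.ro' y) (by rw [ex, ey]; exact h2)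
    (by rw [ex, ey]; exact h3)
  refine ⟨H192.ro' x, H192.ro' y, ⟨?_, r, hr⟩, ex, ey⟩
  have h4 : sq s(H192.ro' x, H192.ro' y) = v := by rw [sq_mk, ex, ey, h1]
  rw [← h4, ed_sq ⟨H192.ro' x, r, by rw [hr]⟩]

theorem dmap_ro (P : Finset (ℤ × ℤ)) (B1 B3 : Set (ℤ × ℤ)) :
    DMap (fun v => StE (ed v)) (StM 0) P H192.ro B1 B3 where
  fwd _ _ _ _ h := stE_stM h
  bwd _ _ _ _ h := stM_stE h
  inj _ _ _ _ h := Or.inl (ro_inj h)

/-- **The quad of the polygon in the squares model.** -/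
theorem isQuad_dom (hp : IsPolygon p) (hS : Encloses p S) (hlm : l ≤ m) (hmk : m < k)
    (hkn : k < n) : IsQuad (StM 0) (StQ p S) (DQ p S k l m) (H192.ro '' arcV p k (n - 1))
      (H192.ro '' arcV p l m) (arcF0 n l) (arcF n m k) := by
  have h := (isQuad_poly hp hS hlm hmk hkn).pull (e := ed) (D₂ := DQ p S k l m)
    (fun _ _ _ _ h => ed_inj h) (by
      ext e
      constructor
      · rintro ⟨v, hv, rfl⟩
        exact mem_DQ.1 hv
      · intro he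
        have h1 : ed (sq e) = e := ed_sq (isEdge_edges (mem_DE.1 he).1)
        refine ⟨sq e, ?_, h1⟩
        rw [Finset.mem_coe, mem_DQ, h1]
        exact he)
  exact h.mapV (dmap_ro _ _ _)

/-! ### Dual sites and odd sites -/

/-- The odd sites of the two faces at an edge. -/
theorem stM_faces (w : ℤ × ℤ) (r : Fin 4) :
    StM 1 (sq s(w, w + dir r)) (rf (face w r)) (rf (face w (r - 1))) := by
  rw [sq_mk]
  have e1 : (1 : Fin 4) - 1 = 0 := rfl
  have e2 : (2 : Fin 4) - 1 = 1 := rfl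
  have e3 : (3 : Fin 4) - 1 = 2 := rfl
  have e0 : (0 : Fin 4) - 1 = 3 := rfl
  rcases H192.fin4_cases r with rfl | rfl | rfl | rfl
  · rw [e0, face0, face3]
    simp only [StM, rf, H192.ro, dir, Prod.fst_add, Prod.snd_add, Prod.mk.injEq,
      Matrix.cons_val_zero]
    omega
  · rw [e1, face1, face0]
    simp [StM, rf, H192.ro, dir]
    omega
  · rw [e2, face2, face1]
    simp [StM, rf, H192.ro, dir]
    omega
  · rw [e3, face3, face2]
    simp [StM, rf, H192.ro, dir]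
    omega

/-- The odd site of a dual site of the domain. -/
noncomputable def pos (p : ZMod n → ℤ × ℤ) : (ℤ × ℤ) ⊕ ZMod n → ℤ × ℤ :=
  Sum.elim rf fun i => rf (fo' p i)

theorem stQ_pos (hp : IsPolygon p) {v : ℤ × ℤ} {x y : (ℤ × ℤ) ⊕ ZMod n} (h : StQ p S v x y) :
    StM 1 v (pos p x) (pos p y) := by
  have hpe : ∀ i, ed v = pe p i → StM 1 v (rf (fi p i)) (rf (fo' p i)) := by
    intro i hi
    have h1 := stM_faces (p i) (ro p i)
    rw [← pe_eq hp, ← hi, sq_ed] at h1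
    exact h1
  rcases h with ⟨w, r, he, h1, h2, rfl, rfl⟩ | ⟨i, he, rfl, rfl⟩ | ⟨i, he, rfl, rfl⟩
  · have h3 := stM_faces w r
    rw [← he, sq_ed] at h3
    exact h3
  · exact hpe i he
  · exact (isSt_M 1).symm _ _ _ (hpe i he)

end Vale.Agent.P167.H531
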