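import Vale.Agent.P167.H531.Frozen

/-!
# P167, block CONT-LAT: the comparison for frozen configurations, with zones

Refinement of `Frozen`: frozen edges outside of the inner domain `P` may touch `P` as long as they
only identify sites of one arc (`Iso2`); the arm events are the honest fresh arms of `D`; no
hypothesis on the sites of the zones `Z1`, `Z3` of the arcs `B1`, `B3`.
-/

namespace Vale.Agent.P167.H531

open Vale.Agent.P167.H558 MeasureTheory Set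
open scoped ENNReal

variable {ι V V' : Type*}
variable {St : ι → V → V → Prop} {St' : ι → V' → V' → Prop} {D P K : Finset ι}
  {A1 A3 B1 B3 : Set V} {A2 A4 B2 B4 : Set V'}

/-- The edges of `G` outside of `P` only identify sites of `P` within the arc `B` or within the
arc `C`. -/
def Iso2 (St : ι → V → V → Prop) (P : Finset ι) (G : Set ι) (B C : Set V) : Prop :=
  ∀ x y, (x ∈ B ∪ C ∨ Touch St P x) → (y ∈ B ∪ C ∨ Touch St P y) → Cn St (G \ ↑P) x y →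
    x = y ∨ (x ∈ B ∧ y ∈ B) ∨ (x ∈ C ∧ y ∈ C)

/-- If no edge of `G` outside of `P` touches `P` then `Iso2` holds. -/
theorem Iso2.of_free {G : Set ι} {B C : Set V}
    (h : ∀ i ∈ G, i ∉ P → ∀ a b, St i a b → a ∉ B ∪ C ∧ ¬ Touch St P a) : Iso2 St P G B C := by
  intro x y hx _ hxy
  left
  rcases Relation.ReflTransGen.cases_head hxy with h1 | ⟨z, ⟨i, hi, hs⟩, -⟩
  · exact h1
  · obtain ⟨h2, h3⟩ := h i hi.1 hi.2 x z hs
    rcases hx with hx | hx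
    · exact absurd hx h2
    · exact absurd hx h3

/-- Frozen edges outside of `P` do not change the crossing of `P`. -/
theorem cr_iso2 (hS : IsSt St) {G E : Set ι} {B C : Set V} (hE : E ⊆ ↑P)
    (hiso : Iso2 St P G B C) : Cr St (E ∪ G) B C ↔ Cr St (E ∪ (G ∩ ↑P)) B C := by
  constructor
  · rintro ⟨u, hu, v, hv, h⟩
    have key : ∀ w, Cn St (E ∪ G) u w → Cr St (E ∪ (G ∩ ↑P)) B C ∨
        ∃ x, (x ∈ B ∪ C ∨ Touch St P x) ∧ (∃ u' ∈ B, Cn St (E ∪ (G ∩ ↑P)) u' x) ∧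
          Cn St (G \ ↑P) x w := by
      intro w hw
      induction hw with
      | refl => exact Or.inr ⟨u, Or.inl (Or.inl hu), ⟨u, hu, Cn.refl _ _⟩, Cn.refl _ _⟩
      | @tail b c _ hbc ih =>
        rcases ih with ih | ⟨x, hx, ⟨u', hu', hux⟩, hxb⟩
        · exact Or.inl ih
        obtain ⟨i, hi, hs⟩ := hbc
        by_cases hiP : i ∈ P
        · have hi' : i ∈ E ∪ (G ∩ ↑P) := hi.imp id fun h => ⟨h, hiP⟩
          have hb : Touch St P b := ⟨i, hiP, c, hS.symm _ _ _ hs⟩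
          have hc : Touch St P c := ⟨i, hiP, b, hs⟩
          rcases hiso x b hx (Or.inr hb) hxb with rfl | ⟨-, h2⟩ | ⟨h1, -⟩
          · exact Or.inr ⟨c, Or.inr hc, ⟨u', hu', hux.tail ⟨i, hi', hs⟩⟩, Cn.refl _ _⟩
          · exact Or.inr ⟨c, Or.inr hc, ⟨b, h2, Relation.ReflTransGen.single ⟨i, hi', hs⟩⟩,
              Cn.refl _ _⟩
          · exact Or.inl ⟨u', hu', x, h1, hux⟩
        · have hiG : i ∈ G \ ↑P := by
            rcases hi with hi | hi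
            · exact absurd (hE hi) hiP
            · exact ⟨hi, hiP⟩
          exact Or.inr ⟨x, hx, ⟨u', hu', hux⟩, hxb.tail ⟨i, hiG, hs⟩⟩
    rcases key v h with h1 | ⟨x, hx, ⟨u', hu', hux⟩, hxv⟩
    · exact h1
    · rcases hiso x v hx (Or.inl (Or.inr hv)) hxv with rfl | ⟨-, h2⟩ | ⟨h1, -⟩
      · exact ⟨u', hu', x, hv, hux⟩
      · exact ⟨v, h2, v, hv, Cn.refl _ _⟩
      · exact ⟨u', hu', x, h1, hux⟩
  · intro h
    refine h.mono ?_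
    rintro i (hi | hi)
    · exact Or.inl hi
    · exact Or.inr hi.1

theorem fo_inter (hP : P ⊆ D) (s : Set ι) : fo D K s ∩ ↑P = fo P K s := by
  ext i
  simp only [fo, mem_inter_iff, Finset.mem_coe]
  constructor
  · rintro ⟨⟨h1, h2, -⟩, h3⟩
    exact ⟨h1, h2, h3⟩
  · rintro ⟨h1, h2, h3⟩
    exact ⟨⟨h1, h2, hP h3⟩, h3⟩

theorem cr_iso3 [DecidableEq ι] (hS : IsSt St) (hP : P ⊆ D) {B C : Set V} {s F : Set ι}
    (hiso : Iso2 St P (fo D K s) B C) :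
    Cr St ((F ∩ ↑(P \ K)) ∪ fo D K s) B C ↔ Cr St (((F \ ↑K) ∪ (s ∩ ↑K)) ∩ ↑P) B C := by
  have hE : F ∩ (↑(P \ K) : Set ι) ⊆ ↑P := by
    intro i hi
    have := hi.2
    rw [Finset.coe_sdiff] at this
    exact this.1
  rw [cr_iso2 hS hE hiso, fo_inter hP, split_eq]

/-- The inner quad in the quotient of the outer frozen domain. -/
theorem IsQuad.freeze_sub2 [DecidableEq ι] (hS : IsSt St) (hS' : IsSt St')
    (h : IsQuad St St' P B1 B3 B2 B4) (hP : P ⊆ D) (s : Set ι)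
    (hiso : Iso2 St P (fo D K s) B1 B3) (hiso' : Iso2 St' P (fo D K sᶜ) B2 B4) :
    IsQuad (qSt hS (fo D K s)) (qSt hS' (fo D K sᶜ)) (P \ K)
      (cl hS (fo D K s) '' B1) (cl hS (fo D K s) '' B3)
      (cl hS' (fo D K sᶜ) '' B2) (cl hS' (fo D K sᶜ) '' B4) where
  dich F := by
    rw [cr_q, cr_q, cr_iso3 hS hP hiso, cr_iso3 hS' hP hiso', ← compl_split]
    exact h.dich _
  excl F := by
    rw [cr_q, cr_q, cr_iso3 hS hP hiso, cr_iso3 hS' hP hiso', ← compl_split]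
    exact h.excl _

/-- `e` is in the class of `A` or in a class with more than one site. -/
def Far (St : ι → V → V → Prop) (G : Set ι) (A : Set V) (e : V) : Prop :=
  (∃ c ∈ A, Cn St G c e) ∨ ∃ x, x ≠ e ∧ Cn St G x e

/-- A fresh dual path of `D` from an end of an edge of `Q` to the class of `A4` or to a non trivial
class, which avoids the class of `A2`. -/
def ArmH (St' : ι → V' → V' → Prop) (D K : Finset ι) (G' : Set ι) (A2 A4 : Set V') (Q : Set ι) :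
    Set (ι → Bool) :=
  {ω | ∃ i ∈ Q, ∃ a b, St' i a b ∧ ∃ e, Far St' G' A4 e ∧
    CnIn St' ((Op ω)ᶜ ∩ (↑D \ ↑K)) {x | ¬ ∃ c ∈ A2, Cn St' G' c x} b e}

/-- A fresh primal path of `P` from `Y` to the class of `C` or to a non trivial class. -/
def ArmZ (St : ι → V → V → Prop) (P K : Finset ι) (G : Set ι) (C Y : Set V) : Set (ι → Bool) :=
  {ω | ∃ y ∈ Y, ∃ e, Far St G C e ∧ Cn St (Op ω ∩ (↑P \ ↑K)) y e}

theorem armD_sub_armH [DecidableEq ι] (hS' : IsSt St') {G' : Set ι} {Q : Set ι} :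
    ArmD (qSt hS' G') (D \ K) Q (cl hS' G' '' A2) (cl hS' G' '' A4) ⊆
      ArmH St' D K G' A2 A4 Q := by
  rintro ω ⟨i, hi, _, _, ⟨a, b, hs, rfl, rfl⟩, c, hc, hp⟩
  obtain ⟨e, he, hbe⟩ := lift_honest hS' hc hp
  have hset : {x | cl hS' G' x ∉ cl hS' G' '' A2} = {x | ¬ ∃ c ∈ A2, Cn St' G' c x} := by
    ext x
    simp only [mem_ofPred_eq, mem_cl_iff hS']
  rw [hset] at hbe
  refine ⟨i, hi, a, b, hs, e, ?_, hbe.mono ?_ subset_rfl⟩
  · rcases he with he | ⟨x, hx, he⟩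
    · exact Or.inl ((mem_cl_iff hS').1 he)
    · exact Or.inr ⟨x, hx, cl_eq_iff.1 he⟩
  · rintro j ⟨h1, h2⟩
    rw [Finset.coe_sdiff] at h2
    exact ⟨h1, h2⟩

/-- Lift of a path of classes from the class of a site `y` of `Y` to `C`. -/
theorem cr_sub_armZ [DecidableEq ι] (hS : IsSt St) {G : Set ι} {C Y : Set V} {Z : Set (Quotient (frz hS G))}
    (hZ : ∀ c ∈ Z, ∃ y ∈ Y, cl hS G y = c) {ω : ι → Bool}
    (h : Cr (qSt hS G) (Op ω ∩ ↑(P \ K)) Z (cl hS G '' C)) : ω ∈ ArmZ St P K G C Y := by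
  obtain ⟨c, hc, d, hd, hp⟩ := h
  obtain ⟨y, hy, rfl⟩ := hZ c hc
  by_contra hcon
  have hcon' : ∀ e, Cn St (Op ω ∩ (↑P \ ↑K)) y e → ¬ Far St G C e :=
    fun e he hf => hcon ⟨y, hy, e, hf, he⟩
  have key : ∀ w, Cn (qSt hS G) (Op ω ∩ ↑(P \ K)) (cl hS G y) w →
      ∃ x, cl hS G x = w ∧ Cn St (Op ω ∩ (↑P \ ↑K)) y x := by
    intro w hw
    induction hw with
    | refl => exact ⟨y, rfl, Cn.refl _ _⟩
    | @tail w w' _ hww ih =>
      obtain ⟨x, rfl, hx⟩ := ih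
      obtain ⟨i, hi, u, v, huv, hu, hv⟩ := hww
      have hux : u = x := by
        by_contra hne
        exact hcon' x hx (Or.inr ⟨u, hne, cl_eq_iff.1 hu⟩)
      subst hux
      refine ⟨v, hv, hx.tail ⟨i, ?_, huv⟩⟩
      have := hi.2
      rw [Finset.coe_sdiff] at this
      exact ⟨hi.1, this⟩
  obtain ⟨x, hx, hyx⟩ := key d hp
  obtain ⟨c', hc', hcd⟩ := hd
  exact hcon' x hyx (Or.inl ⟨c', hc', cl_eq_iff.1 (hcd.trans hx.symm)⟩)

/-- Data of the collar between the frozen domain `D` and the inner domain `P`: for every site `y` of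
`B1` (`B3`) outside of the zone `Z1` (`Z3`) and for every site of `B2` a set of fresh edges outside of
`P` which together with the frozen open (closed) edges `G` (`G'`) joins `y` to `A1` (`A3`, `A2`). -/
structure ZCollar (St : ι → V → V → Prop) (St' : ι → V' → V' → Prop) (D P K : Finset ι)
    (G G' : Set ι) (A1 A3 : Set V) (A2 : Set V') (B1 B3 : Set V) (B2 : Set V') (Z1 Z3 : Set V)
    (q1 q3 : V → Set ι) (q2 : V' → Set ι) : Prop where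
  q1_sub : ∀ y ∈ B1, y ∉ Z1 → q1 y ⊆ (↑D \ ↑K) \ ↑P
  q3_sub : ∀ y ∈ B3, y ∉ Z3 → q3 y ⊆ (↑D \ ↑K) \ ↑P
  q2_sub : ∀ y ∈ B2, q2 y ⊆ (↑D \ ↑K) \ ↑P
  q1_conn : ∀ y ∈ B1, y ∉ Z1 → ∃ a ∈ A1, Cn St (q1 y ∪ G) a y
  q3_conn : ∀ y ∈ B3, y ∉ Z3 → ∃ a ∈ A3, Cn St (q3 y ∪ G) y a
  q2_conn : ∀ y ∈ B2, ∃ a ∈ A2, Cn St' (q2 y ∪ G') a y
  disj1 : ∀ y ∈ B1, y ∉ Z1 → ∀ y' ∈ B2, Disjoint (q1 y) (q2 y')
  disj3 : ∀ y ∈ B3, y ∉ Z3 → ∀ y' ∈ B2, Disjoint (q3 y) (q2 y')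

section prob

variable [Countable ι] [DecidableEq ι]
variable (ν : Measure Bool) [IsProbabilityMeasure ν]

/-- **CONT-LAT for frozen configurations, with zones.** -/
theorem cont_zone (hS : IsSt St) (hS' : IsSt St') (hP : IsQuad St St' P B1 B3 B2 B4)
    (hD : IsQuad St St' D A1 A3 A2 A4) (hPD : P ⊆ D) {ω₀ : ι → Bool}
    (hiso : Iso2 St P (fo D K (Op ω₀)) B1 B3) (hiso' : Iso2 St' P (fo D K (Op ω₀)ᶜ) B2 B4)
    {Z1 Z3 : Set V} {q1 q3 : V → Set ι} {q2 : V' → Set ι}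
    (hc : ZCollar St St' D P K (fo D K (Op ω₀)) (fo D K (Op ω₀)ᶜ) A1 A3 A2 B1 B3 B2 Z1 Z3 q1 q3 q2)
    {e1 e3 z1 z3 : ℝ≥0∞}
    (hq1 : ∀ y ∈ B1, y ∉ Z1 → (Pm ν ι) (ArmH St' D K (fo D K (Op ω₀)ᶜ) A2 A4 (q1 y)) ≤ e1)
    (hq3 : ∀ y ∈ B3, y ∉ Z3 → (Pm ν ι) (ArmH St' D K (fo D K (Op ω₀)ᶜ) A2 A4 (q3 y)) ≤ e3)
    (hz1 : (Pm ν ι) (ArmZ St P K (fo D K (Op ω₀)) B3 (B1 ∩ Z1)) ≤ z1)
    (hz3 : (Pm ν ι) (ArmZ St P K (fo D K (Op ω₀)) B1 (B3 ∩ Z3)) ≤ z3) :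
    (Pm ν ι) {ω | Cr St (Op (glue (↑K) ω₀ ω) ∩ ↑P) B1 B3 ∧
        ¬ Cr St (Op (glue (↑K) ω₀ ω) ∩ ↑D) A1 A3} ≤ e1 + e3 + (z1 + z3) := by
  classical
  set G := fo D K (Op ω₀) with hG
  set G' := fo D K (Op ω₀)ᶜ with hG'
  have hQD := hD.freeze hS hS' K (Op ω₀)
  have hQP := hP.freeze_sub2 hS hS' hPD (Op ω₀) hiso hiso'
  -- representatives
  let rp : Quotient (frz hS G) → V := fun c => if h : ∃ y ∈ B1, cl hS G y = c then h.choose else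
    (cl_surj c).choose
  have hrp : ∀ c ∈ cl hS G '' B1, rp c ∈ B1 ∧ cl hS G (rp c) = c := by
    intro c hcc
    have h : ∃ y ∈ B1, cl hS G y = c := hcc
    have e : rp c = h.choose := dif_pos h
    rw [e]
    exact h.choose_spec
  let rp3 : Quotient (frz hS G) → V := fun c => if h : ∃ y ∈ B3, cl hS G y = c then h.choose else
    (cl_surj c).choose
  have hrp3 : ∀ c ∈ cl hS G '' B3, rp3 c ∈ B3 ∧ cl hS G (rp3 c) = c := by
    intro c hcc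
    have h : ∃ y ∈ B3, cl hS G y = c := hcc
    have e : rp3 c = h.choose := dif_pos h
    rw [e]
    exact h.choose_spec
  let rp2 : Quotient (frz hS' G') → V' := fun c => if h : ∃ y ∈ B2, cl hS' G' y = c then h.choose
    else (cl_surj c).choose
  have hrp2 : ∀ c ∈ cl hS' G' '' B2, rp2 c ∈ B2 ∧ cl hS' G' (rp2 c) = c := by
    intro c hcc
    have h : ∃ y ∈ B2, cl hS' G' y = c := hcc
    have e : rp2 c = h.choose := dif_pos h
    rw [e]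
    exact h.choose_spec
  have hcoeD : (↑(D \ K) : Set ι) \ ↑(P \ K) = (↑D \ ↑K) \ ↑P := by
    ext i
    simp only [Finset.coe_sdiff, mem_sdiff, Finset.mem_coe]
    tauto
  have hcol : Collar0 (qSt hS G) (qSt hS' G') (D \ K) (P \ K) (cl hS G '' A1) (cl hS G '' A3)
      (cl hS' G' '' A2) (cl hS G '' B1) (cl hS G '' B3) (cl hS' G' '' B2)
      {c | rp c ∈ Z1} {c | rp3 c ∈ Z3}
      (fun c => q1 (rp c)) (fun c => q3 (rp3 c)) (fun c => q2 (rp2 c)) := by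
    refine ⟨Finset.sdiff_subset_sdiff hPD subset_rfl, ?_, ?_, ?_, ?_, ?_, ?_, ?_, ?_⟩
    · intro c h1 h1Z
      rw [hcoeD]
      exact hc.q1_sub _ (hrp c h1).1 h1Z
    · intro c h1 h1Z
      rw [hcoeD]
      exact hc.q3_sub _ (hrp3 c h1).1 h1Z
    · intro c h1
      rw [hcoeD]
      exact hc.q2_sub _ (hrp2 c h1).1
    · intro c h1 h1Z
      obtain ⟨a, ha, h2⟩ := hc.q1_conn _ (hrp c h1).1 h1Z
      refine ⟨cl hS G a, ⟨a, ha, rfl⟩, ?_⟩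
      have := (cn_q hS G (q1 (rp c)) a (rp c)).2 h2
      rwa [(hrp c h1).2] at this
    · intro c h1 h1Z
      obtain ⟨a, ha, h2⟩ := hc.q3_conn _ (hrp3 c h1).1 h1Z
      refine ⟨cl hS G a, ⟨a, ha, rfl⟩, ?_⟩
      have := (cn_q hS G (q3 (rp3 c)) (rp3 c) a).2 h2
      rwa [(hrp3 c h1).2] at this
    · intro c h1
      obtain ⟨a, ha, h2⟩ := hc.q2_conn _ (hrp2 c h1).1
      refine ⟨cl hS' G' a, ⟨a, ha, rfl⟩, ?_⟩
      have := (cn_q hS' G' (q2 (rp2 c)) a (rp2 c)).2 h2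
      rwa [(hrp2 c h1).2] at this
    · intro c h1 h1Z c' h2
      exact hc.disj1 _ (hrp c h1).1 h1Z _ (hrp2 c' h2).1
    · intro c h1 h1Z c' h2
      exact hc.disj3 _ (hrp3 c h1).1 h1Z _ (hrp2 c' h2).1
  have hmain := cont_gen ν (isSt_q hS' G') hQP hQD hcol (e1 := e1) (e3 := e3)
    (fun c h1 h1Z => (measure_mono (armD_sub_armH hS')).trans (hq1 _ (hrp c h1).1 h1Z))
    (fun c h1 h1Z => (measure_mono (armD_sub_armH hS')).trans (hq3 _ (hrp3 c h1).1 h1Z))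
  have hz1' : (Pm ν ι) {ω | Cr (qSt hS G) (Op ω ∩ ↑(P \ K)) (cl hS G '' B1 ∩ {c | rp c ∈ Z1})
      (cl hS G '' B3)} ≤ z1 := by
    refine (measure_mono fun ω hω => ?_).trans hz1
    refine cr_sub_armZ hS (Y := B1 ∩ Z1) (fun c hcz => ?_) hω
    exact ⟨rp c, ⟨(hrp c hcz.1).1, hcz.2⟩, (hrp c hcz.1).2⟩
  have hz3' : (Pm ν ι) {ω | Cr (qSt hS G) (Op ω ∩ ↑(P \ K)) (cl hS G '' B1)
      (cl hS G '' B3 ∩ {c | rp3 c ∈ Z3})} ≤ z3 := by
    refine (measure_mono fun ω hω => ?_).trans hz3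
    have hω' : Cr (qSt hS G) (Op ω ∩ ↑(P \ K)) (cl hS G '' B3 ∩ {c | rp3 c ∈ Z3})
        (cl hS G '' B1) := by
      obtain ⟨u, hu, v, hv, h⟩ := hω
      exact ⟨v, hv, u, hu, h.symm (isSt_q hS G)⟩
    refine cr_sub_armZ hS (Y := B3 ∩ Z3) (fun c hcz => ?_) hω'
    exact ⟨rp3 c, ⟨(hrp3 c hcz.1).1, hcz.2⟩, (hrp3 c hcz.1).2⟩
  have ep : ∀ ω : ι → Bool, Cr (qSt hS G) (Op ω ∩ ↑(P \ K)) (cl hS G '' B1) (cl hS G '' B3) ↔
      Cr St (Op (glue (↑K) ω₀ ω) ∩ ↑P) B1 B3 := by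
    intro ω
    rw [cr_q, cr_iso3 hS hPD hiso, Op_glue]
  have ed : ∀ ω : ι → Bool, Cr (qSt hS G) (Op ω ∩ ↑(D \ K)) (cl hS G '' A1) (cl hS G '' A3) ↔
      Cr St (Op (glue (↑K) ω₀ ω) ∩ ↑D) A1 A3 := fun ω => (cr_glue hS D K A1 A3 ω₀ ω).symm
  have hset : {ω : ι → Bool | Cr St (Op (glue (↑K) ω₀ ω) ∩ ↑P) B1 B3 ∧
      ¬ Cr St (Op (glue (↑K) ω₀ ω) ∩ ↑D) A1 A3} =
      {ω | Cr (qSt hS G) (Op ω ∩ ↑(P \ K)) (cl hS G '' B1) (cl hS G '' B3) ∧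
      ¬ Cr (qSt hS G) (Op ω ∩ ↑(D \ K)) (cl hS G '' A1) (cl hS G '' A3)} := by
    ext ω
    simp only [mem_ofPred_eq, ep, ed]
  rw [hset]
  refine hmain.trans ?_
  gcongr
  calc (e1 + e3) * _ ≤ (e1 + e3) * 1 := by gcongr; exact prob_le_one
    _ = e1 + e3 := mul_one _

end prob

end Vale.Agent.P167.H531
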